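import Mathlib
import Crest.Prelude.Def_QuadraticTransport

/-!
Row 82 (S0109): shared definitions for the semi-discrete transport argument.
-/

set_option autoImplicit false

open MeasureTheory
open scoped ENNReal NNReal
open Crest.AnalysisR.OT

namespace Crest.Agent.R082

/-- Euclidean space. -/
abbrev E (d : ℕ) := EuclideanSpace ℝ (Fin d)

variable {d : ℕ} {ι : Type} [Fintype ι] [Nonempty ι]

/-- The piecewise affine convex function `max_i (⟪x, y i⟫ - ψ i)`. -/
noncomputable def phi (y : ι → E d) (ψ : ι → ℝ) (x : E d) : ℝ :=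
  Finset.univ.sup' Finset.univ_nonempty (fun i => inner ℝ x (y i) - ψ i)

omit [Nonempty ι] [Fintype ι] in
/-- The Laguerre cell of index `i` inside `K`. -/
def cell (K : Set (E d)) (y : ι → E d) (ψ : ι → ℝ) (i : ι) : Set (E d) :=
  {x | x ∈ K ∧ ∀ j, inner ℝ x (y j) - ψ j ≤ inner ℝ x (y i) - ψ i}

/-- The Kantorovich functional. -/
noncomputable def Kfun (ρ : Measure (E d)) (m : ι → ℝ) (y : ι → E d) (ψ : ι → ℝ) : ℝ :=
  ∫ x, phi y ψ x ∂ρ + ∑ i, m i * ψ i

/-- The value of the transport problem `sup ∫ ⟪x, y⟫`, defined by its dual. -/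
noncomputable def TT (ρ : Measure (E d)) (m : ι → ℝ) (y : ι → E d) : ℝ :=
  ⨅ ψ : ι → ℝ, Kfun ρ m y ψ

/-- The measure with density `h` with respect to the uniform probability on `K`. -/
noncomputable def rhoh (K : Set (E d)) (h : E d → ℝ) : Measure (E d) :=
  (uniformProbOn K).withDensity (fun x => ENNReal.ofReal (h x))

end Crest.Agent.R082
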