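import Mathlib
import Crest.Agent.Lib.PrekopaLeindler

/-!
# Key lemma for S0109, part 1: the weighted Prekopa–Leindler pair inequality
-/

set_option autoImplicit false
set_option linter.unusedSectionVars false

open MeasureTheory Set
open scoped ENNReal RealInnerProductSpace

namespace Crest.Agent.R082.Key

open Crest.Agent.Lib.PrekopaLeindler

section PLclosure

variable {E : Type*} [AddCommGroup E] [Module ℝ E] [MeasurableSpace E]

/-- PL passes to restrictions to convex sets. -/
theorem PL_restrict {μ : Measure E} (h : PL E μ) {K : Set E} (hK : MeasurableSet K)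
    (hc : Convex ℝ K) : PL E (μ.restrict K) := by
  intro t ht0 ht1 f g k hf hg hk H
  rw [← lintegral_indicator hK, ← lintegral_indicator hK, ← lintegral_indicator hK]
  refine h t ht0 ht1 _ _ _ (hf.indicator hK) (hg.indicator hK) (hk.indicator hK) ?_
  intro x y
  by_cases hx : x ∈ K
  · by_cases hy : y ∈ K
    · have : (1 - t) • x + t • y ∈ K := hc hx hy (by linarith) ht0.le (by ring)
      simp only [indicator_of_mem hx, indicator_of_mem hy, indicator_of_mem this]
      exact H x y
    · simp [indicator_of_notMem hy, ENNReal.zero_rpow_of_pos ht0]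
  · simp [indicator_of_notMem hx, ENNReal.zero_rpow_of_pos (sub_pos.2 ht1)]

/-- PL passes to nonzero finite multiples. -/
theorem PL_smul {μ : Measure E} (h : PL E μ) {c : ℝ≥0∞} (hc0 : c ≠ 0) (hc : c ≠ ∞) :
    PL E (c • μ) := by
  intro t ht0 ht1 f g k hf hg hk H
  simp only [lintegral_smul_measure, smul_eq_mul]
  rw [ENNReal.mul_rpow_of_nonneg _ _ (by linarith : (0:ℝ) ≤ 1 - t),
    ENNReal.mul_rpow_of_nonneg _ _ ht0.le]
  have e : c ^ (1 - t) * c ^ t = c := by
    rw [← ENNReal.rpow_add _ _ hc0 hc]; simp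
  calc c ^ (1 - t) * (∫⁻ x, f x ∂μ) ^ (1 - t) * (c ^ t * (∫⁻ x, g x ∂μ) ^ t)
      = (c ^ (1 - t) * c ^ t) * ((∫⁻ x, f x ∂μ) ^ (1 - t) * (∫⁻ x, g x ∂μ) ^ t) := by ring
    _ ≤ c * ∫⁻ x, k x ∂μ := by
      rw [e]
      exact mul_le_mul_right (h t ht0 ht1 f g k hf hg hk H) c

end PLclosure

variable {E : Type*} [NormedAddCommGroup E] [InnerProductSpace ℝ E] [MeasurableSpace E]
  [BorelSpace E]

/-- Gaussian weight. -/
noncomputable def gw (lam : ℝ) (x : E) : ℝ := Real.exp (-(lam / 2) * ‖x‖ ^ 2)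

lemma gw_pos (lam : ℝ) (x : E) : 0 < gw lam x := Real.exp_pos _

lemma gw_le_one {lam : ℝ} (hlam : 0 ≤ lam) (x : E) : gw lam x ≤ 1 := by
  unfold gw
  rw [Real.exp_le_one_iff]
  nlinarith [sq_nonneg ‖x‖]

lemma measurable_gw (lam : ℝ) : Measurable (gw lam : E → ℝ) := by
  unfold gw
  fun_prop

/-- pointwise inequality behind the pair inequality. -/
lemma gw_mid {lam th u v : ℝ} (hlam : 0 ≤ lam) (x y : E) (huv : |u - v| ≤ ‖x - y‖) :
    (gw lam x * Real.exp (lam / 2 * th * u)) * (gw lam y * Real.exp (-(lam / 2 * th * v))) ≤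
      (gw lam ((1/2:ℝ) • x + (1/2:ℝ) • y) * Real.exp (lam * th ^ 2 / 8)) ^ 2 := by
  unfold gw
  rw [← Real.exp_add, ← Real.exp_add, ← Real.exp_add, ← Real.exp_add, ← Real.exp_nat_mul]
  apply Real.exp_le_exp.2
  have h1 : ‖(1/2:ℝ) • x + (1/2:ℝ) • y‖ ^ 2 = (1/4) * (‖x‖^2 + 2 * ⟪x, y⟫ + ‖y‖^2) := by
    rw [← smul_add, norm_smul, mul_pow, norm_add_sq_real]
    norm_num
  have h2 : ‖x - y‖ ^ 2 = ‖x‖^2 - 2 * ⟪x, y⟫ + ‖y‖^2 := norm_sub_sq_real x y
  have h3 : (u - v) ^ 2 ≤ ‖x - y‖ ^ 2 := by
    rw [← sq_abs]; exact pow_le_pow_left₀ (abs_nonneg _) huv 2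
  have h4 : 2 * th * (u - v) - th ^ 2 ≤ (u - v) ^ 2 := by nlinarith [sq_nonneg (u - v - th)]
  rw [h1]
  push_cast
  nlinarith [mul_le_mul_of_nonneg_left (h4.trans h3) hlam]

lemma integrable_of_bdd {ρ : Measure E} [IsFiniteMeasure ρ] {f : E → ℝ} (hf : Measurable f)
    {A : Set E} (hA : MeasurableSet A) {M : ℝ} (hM : ∀ x ∈ A, |f x| ≤ M) : IntegrableOn f A ρ := by
  refine Measure.integrableOn_of_bounded (M := M) (measure_ne_top _ _) hf.aestronglyMeasurable ?_
  filter_upwards [ae_restrict_mem hA] with x hx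
  exact hM x hx

/-- Jensen's inequality in the form needed. -/
lemma jensen_exp {ρ : Measure E} [IsFiniteMeasure ρ] {A : Set E} (hA : MeasurableSet A)
    {w u : E → ℝ} (hw : Measurable w) (hu : Measurable u) (hw0 : ∀ x, 0 ≤ w x) {Mw Mu : ℝ}
    (hwM : ∀ x ∈ A, |w x| ≤ Mw) (huM : ∀ x ∈ A, |u x| ≤ Mu)
    (hpos : 0 < ∫ x in A, w x ∂ρ) :
    (∫ x in A, w x ∂ρ) * Real.exp ((∫ x in A, w x * u x ∂ρ) / ∫ x in A, w x ∂ρ) ≤
      ∫ x in A, w x * Real.exp (u x) ∂ρ := by
  set a := ∫ x in A, w x ∂ρ with ha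
  set m := (∫ x in A, w x * u x ∂ρ) / a with hm
  have hwi : IntegrableOn w A ρ := integrable_of_bdd hw hA hwM
  have hwui : IntegrableOn (fun x => w x * u x) A ρ := by
    refine integrable_of_bdd (hw.mul hu) hA (M := Mw * Mu) ?_
    intro x hx
    change |w x * u x| ≤ _
    rw [abs_mul]
    exact mul_le_mul (hwM x hx) (huM x hx) (abs_nonneg _) ((abs_nonneg _).trans (hwM x hx))
  have hwei : IntegrableOn (fun x => w x * Real.exp (u x)) A ρ := by
    refine integrable_of_bdd (hw.mul hu.exp) hA (M := Mw * Real.exp Mu) ?_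
    intro x hx
    change |w x * Real.exp (u x)| ≤ _
    rw [abs_mul, Real.abs_exp]
    exact mul_le_mul (hwM x hx) (Real.exp_le_exp.2 ((le_abs_self _).trans (huM x hx)))
      (Real.exp_pos _).le ((abs_nonneg _).trans (hwM x hx))
  have key : ∫ x in A, (Real.exp m * (1 - m) * w x + Real.exp m * (w x * u x)) ∂ρ ≤
      ∫ x in A, w x * Real.exp (u x) ∂ρ := by
    refine integral_mono ((hwi.const_mul _).add (hwui.const_mul _)) hwei ?_
    intro x
    have h1 : 1 + (u x - m) ≤ Real.exp (u x - m) := by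
      have := Real.add_one_le_exp (u x - m); linarith
    have h2 : Real.exp (u x) = Real.exp m * Real.exp (u x - m) := by
      rw [← Real.exp_add]; ring_nf
    simp only
    rw [h2]
    have h3 := mul_le_mul_of_nonneg_left h1 (mul_nonneg (hw0 x) (Real.exp_pos m).le)
    nlinarith [h3]
  rw [integral_add (hwi.const_mul _) (hwui.const_mul _), integral_const_mul,
    integral_const_mul, ← ha] at key
  have hma : ∫ x in A, w x * u x ∂ρ = m * a := by
    rw [hm, div_mul_cancel₀ _ hpos.ne']
  rw [hma] at key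
  calc a * Real.exp m = Real.exp m * (1 - m) * a + Real.exp m * (m * a) := by ring
    _ ≤ _ := key

/-- The weighted Prekopa–Leindler pair inequality. -/
theorem pair_ineq {ρ : Measure E} [IsFiniteMeasure ρ] (hPL : PL E ρ) {A B C : Set E}
    (hA : MeasurableSet A) (hB : MeasurableSet B) (hC : MeasurableSet C)
    (hABC : ∀ a ∈ A, ∀ b ∈ B, (1/2:ℝ) • a + (1/2:ℝ) • b ∈ C)
    {lam : ℝ} (hlam : 0 ≤ lam) {l : E → ℝ} (hl : Measurable l) {M : ℝ}
    (hMA : ∀ x ∈ A, |l x| ≤ M) (hMB : ∀ x ∈ B, |l x| ≤ M)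
    (hlip : ∀ a ∈ A, ∀ b ∈ B, |l a - l b| ≤ ‖a - b‖) :
    √(∫ x in A, gw lam x ∂ρ) * √(∫ x in B, gw lam x ∂ρ) *
      Real.exp (lam / 8 * ((∫ x in A, gw lam x * l x ∂ρ) / (∫ x in A, gw lam x ∂ρ) -
        (∫ x in B, gw lam x * l x ∂ρ) / (∫ x in B, gw lam x ∂ρ)) ^ 2) ≤
      ∫ x in C, gw lam x ∂ρ := by
  set a := ∫ x in A, gw lam x ∂ρ with ha
  set b := ∫ x in B, gw lam x ∂ρ with hb
  set c := ∫ x in C, gw lam x ∂ρ with hc
  have ha0 : 0 ≤ a := integral_nonneg fun x => (gw_pos lam x).le
  have hb0 : 0 ≤ b := integral_nonneg fun x => (gw_pos lam x).le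
  have hc0 : 0 ≤ c := integral_nonneg fun x => (gw_pos lam x).le
  rcases ha0.eq_or_lt with h | hapos
  · rw [← h]; simpa using hc0
  rcases hb0.eq_or_lt with h | hbpos
  · rw [← h]; simpa using hc0
  set la := (∫ x in A, gw lam x * l x ∂ρ) / a with hla
  set lb := (∫ x in B, gw lam x * l x ∂ρ) / b with hlb
  set th := la - lb with hth
  have hgm : Measurable (gw lam : E → ℝ) := measurable_gw lam
  have hg1 : ∀ (S : Set E), ∀ x ∈ S, |gw lam x| ≤ 1 := fun S x _ => by
    rw [abs_of_pos (gw_pos lam x)]; exact gw_le_one hlam x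
  set IA := ∫ x in A, gw lam x * Real.exp (lam / 2 * th * l x) ∂ρ with hIA
  set IB := ∫ x in B, gw lam x * Real.exp (-(lam / 2 * th * l x)) ∂ρ with hIB
  have hIAle : a * Real.exp (lam / 2 * th * la) ≤ IA := by
    have h := jensen_exp (ρ := ρ) hA hgm (u := fun x => lam / 2 * th * l x) (by fun_prop)
      (fun x => (gw_pos lam x).le) (hg1 A) (Mu := |lam / 2 * th| * M) (fun x hx => by
        rw [abs_mul]; exact mul_le_mul_of_nonneg_left (hMA x hx) (abs_nonneg _)) hapos
    have e : (∫ x in A, gw lam x * (lam / 2 * th * l x) ∂ρ) / a = lam / 2 * th * la := by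
      have : ∫ x in A, gw lam x * (lam / 2 * th * l x) ∂ρ =
          lam / 2 * th * ∫ x in A, gw lam x * l x ∂ρ := by
        rw [← integral_const_mul]; congr 1; ext x; ring
      rw [this, hla]; ring
    rw [e] at h
    exact h
  have hIBle : b * Real.exp (-(lam / 2 * th * lb)) ≤ IB := by
    have h := jensen_exp (ρ := ρ) hB hgm (u := fun x => -(lam / 2 * th * l x)) (by fun_prop)
      (fun x => (gw_pos lam x).le) (hg1 B) (Mu := |lam / 2 * th| * M) (fun x hx => by
        rw [abs_neg, abs_mul]; exact mul_le_mul_of_nonneg_left (hMB x hx) (abs_nonneg _)) hbpos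
    have e : (∫ x in B, gw lam x * (-(lam / 2 * th * l x)) ∂ρ) / b = -(lam / 2 * th * lb) := by
      have : ∫ x in B, gw lam x * (-(lam / 2 * th * l x)) ∂ρ =
          -(lam / 2 * th) * ∫ x in B, gw lam x * l x ∂ρ := by
        rw [← integral_const_mul]; congr 1; ext x; ring
      rw [this, hlb]; ring
    rw [e] at h
    exact h
  -- Prekopa–Leindler
  have hPLuse : √IA * √IB ≤ Real.exp (lam * th ^ 2 / 8) * c := by
    set F : E → ℝ≥0∞ := A.indicator fun x => ENNReal.ofReal (gw lam x * Real.exp (lam / 2 * th * l x))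
    set G : E → ℝ≥0∞ := B.indicator fun x => ENNReal.ofReal (gw lam x * Real.exp (-(lam / 2 * th * l x)))
    set H : E → ℝ≥0∞ := C.indicator fun x => ENNReal.ofReal (gw lam x * Real.exp (lam * th ^ 2 / 8))
    have h := hPL (1/2) (by norm_num) (by norm_num) F G H
      (Measurable.indicator (by fun_prop) hA) (Measurable.indicator (by fun_prop) hB)
      (Measurable.indicator (by fun_prop) hC) (by
        intro x y
        by_cases hx : x ∈ A
        · by_cases hy : y ∈ B
          · have hz := hABC x hx y hy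
            have e1 : (1 - 1/2 : ℝ) = 1/2 := by norm_num
            rw [e1]
            simp only [F, G, H, indicator_of_mem hx, indicator_of_mem hy, indicator_of_mem hz]
            rw [← ENNReal.mul_rpow_of_nonneg _ _ (by norm_num : (0:ℝ) ≤ 1/2),
              ← ENNReal.ofReal_mul (mul_pos (gw_pos _ _) (Real.exp_pos _)).le,
              ENNReal.ofReal_rpow_of_nonneg (by
                have := gw_pos lam x; have := gw_pos lam y; positivity) (by norm_num)]
            apply ENNReal.ofReal_le_ofReal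
            rw [← Real.sqrt_eq_rpow]
            refine Real.sqrt_le_iff.2 ⟨?_, gw_mid hlam x y (hlip x hx y hy)⟩
            exact (mul_pos (gw_pos _ _) (Real.exp_pos _)).le
          · simp [G, indicator_of_notMem hy]
        · simp [F, indicator_of_notMem hx]; norm_num)
    have e1 : (1 - 1/2 : ℝ) = 1/2 := by norm_num
    rw [e1] at h
    simp only [F, G, H] at h
    rw [lintegral_indicator hA, lintegral_indicator hB, lintegral_indicator hC,
      ← ofReal_integral_eq_lintegral_ofReal, ← ofReal_integral_eq_lintegral_ofReal,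
      ← ofReal_integral_eq_lintegral_ofReal] at h
    · have hIA0 : 0 ≤ IA := integral_nonneg fun x => (mul_pos (gw_pos _ _) (Real.exp_pos _)).le
      have hIB0 : 0 ≤ IB := integral_nonneg fun x => (mul_pos (gw_pos _ _) (Real.exp_pos _)).le
      rw [← hIA, ← hIB, ENNReal.ofReal_rpow_of_nonneg hIA0 (by norm_num),
        ENNReal.ofReal_rpow_of_nonneg hIB0 (by norm_num),
        ← ENNReal.ofReal_mul (Real.rpow_nonneg hIA0 _), ← Real.sqrt_eq_rpow, ← Real.sqrt_eq_rpow,
        integral_mul_const, ENNReal.ofReal_le_ofReal_iff (by positivity)] at h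
      linarith
    · exact integrable_of_bdd (by fun_prop) hC (M := Real.exp (lam * th ^ 2 / 8)) (fun x hx => by
        rw [abs_mul, Real.abs_exp]
        calc _ ≤ 1 * Real.exp (lam * th ^ 2 / 8) :=
              mul_le_mul_of_nonneg_right (hg1 C x hx) (Real.exp_pos _).le
          _ = _ := one_mul _)
    · exact Filter.Eventually.of_forall fun x => (mul_pos (gw_pos _ _) (Real.exp_pos _)).le
    · exact integrable_of_bdd (by fun_prop) hB (M := Real.exp (|lam / 2 * th| * M)) (fun x hx => by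
        rw [abs_mul, Real.abs_exp]
        calc _ ≤ 1 * Real.exp (|lam / 2 * th| * M) := by
              refine mul_le_mul (hg1 B x hx) (Real.exp_le_exp.2 ?_) (Real.exp_pos _).le zero_le_one
              refine (le_abs_self _).trans ?_
              rw [abs_neg, abs_mul]; exact mul_le_mul_of_nonneg_left (hMB x hx) (abs_nonneg _)
          _ = _ := one_mul _)
    · exact Filter.Eventually.of_forall fun x => (mul_pos (gw_pos _ _) (Real.exp_pos _)).le
    · exact integrable_of_bdd (by fun_prop) hA (M := Real.exp (|lam / 2 * th| * M)) (fun x hx => by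
        rw [abs_mul, Real.abs_exp]
        calc _ ≤ 1 * Real.exp (|lam / 2 * th| * M) := by
              refine mul_le_mul (hg1 A x hx) (Real.exp_le_exp.2 ?_) (Real.exp_pos _).le zero_le_one
              refine (le_abs_self _).trans ?_
              rw [abs_mul]; exact mul_le_mul_of_nonneg_left (hMA x hx) (abs_nonneg _)
          _ = _ := one_mul _)
    · exact Filter.Eventually.of_forall fun x => (mul_pos (gw_pos _ _) (Real.exp_pos _)).le
  -- conclude
  have hsA : √a * Real.exp (lam / 4 * th * la) ≤ √IA := by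
    have : √a * Real.exp (lam / 4 * th * la) = √(a * Real.exp (lam / 2 * th * la)) := by
      rw [Real.sqrt_mul ha0, Real.sqrt_eq_rpow (Real.exp _), ← Real.exp_mul]
      congr 2; ring
    rw [this]; exact Real.sqrt_le_sqrt hIAle
  have hsB : √b * Real.exp (-(lam / 4 * th * lb)) ≤ √IB := by
    have : √b * Real.exp (-(lam / 4 * th * lb)) = √(b * Real.exp (-(lam / 2 * th * lb))) := by
      rw [Real.sqrt_mul hb0, Real.sqrt_eq_rpow (Real.exp _), ← Real.exp_mul]
      congr 2; ring
    rw [this]; exact Real.sqrt_le_sqrt hIBle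
  have h1 : √a * Real.exp (lam / 4 * th * la) * (√b * Real.exp (-(lam / 4 * th * lb))) ≤
      Real.exp (lam * th ^ 2 / 8) * c :=
    (mul_le_mul hsA hsB (by positivity) (Real.sqrt_nonneg _)).trans hPLuse
  have h2 : √a * Real.exp (lam / 4 * th * la) * (√b * Real.exp (-(lam / 4 * th * lb))) =
      √a * √b * Real.exp (lam / 8 * th ^ 2) * Real.exp (lam * th ^ 2 / 8) := by
    have : Real.exp (lam / 4 * th * la) * Real.exp (-(lam / 4 * th * lb)) =
        Real.exp (lam / 8 * th ^ 2) * Real.exp (lam * th ^ 2 / 8) := by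
      rw [← Real.exp_add, ← Real.exp_add]; congr 1; rw [hth]; ring
    calc _ = √a * √b * (Real.exp (lam / 4 * th * la) * Real.exp (-(lam / 4 * th * lb))) := by ring
      _ = _ := by rw [this]; ring
  rw [h2, mul_comm (Real.exp (lam * th ^ 2 / 8)) c] at h1
  exact le_of_mul_le_mul_right h1 (Real.exp_pos _)

end Crest.Agent.R082.Key
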