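import Mathlib
import Crest.Agent.R082.Key1

/-!
# Key lemma for S0109, part 2: summation over cells and absorption
-/

set_option autoImplicit false
set_option linter.unusedSectionVars false

open MeasureTheory Set
open scoped ENNReal RealInnerProductSpace

namespace Crest.Agent.R082.Key

open Crest.Agent.Lib.PrekopaLeindler

variable {E : Type*} [NormedAddCommGroup E] [InnerProductSpace ℝ E] [MeasurableSpace E]
  [BorelSpace E]

/-- The Laguerre cell of index `i` for sites `y` and weights `ψ`. -/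
def cell {ι : Type*} (y : ι → E) (ψ : ι → ℝ) (i : ι) : Set E :=
  {x | ∀ j, ⟪x, y j⟫ - ψ j ≤ ⟪x, y i⟫ - ψ i}

lemma isClosed_cell {ι : Type*} (y : ι → E) (ψ : ι → ℝ) (i : ι) : IsClosed (cell y ψ i) := by
  have : cell y ψ i = ⋂ j, {x | ⟪x, y j⟫ - ψ j ≤ ⟪x, y i⟫ - ψ i} := by
    ext x; simp [cell]
  rw [this]
  refine isClosed_iInter fun j => isClosed_le (by fun_prop) (by fun_prop)

lemma convex_cell {ι : Type*} (y : ι → E) (ψ : ι → ℝ) (i : ι) : Convex ℝ (cell y ψ i) := by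
  intro a ha b hb s t hs ht hst j
  have h1 := ha j
  have h2 := hb j
  simp only [inner_add_left, inner_smul_left, RCLike.conj_to_real]
  have e1 : ψ i = s * ψ i + t * ψ i := by rw [← add_mul, hst, one_mul]
  have e2 : ψ j = s * ψ j + t * ψ j := by rw [← add_mul, hst, one_mul]
  have h3 := mul_le_mul_of_nonneg_left h1 hs
  have h4 := mul_le_mul_of_nonneg_left h2 ht
  rw [mul_sub, mul_sub] at h3 h4
  linarith

lemma mid_mem_cell {ι : Type*} {y : ι → E} {ψ0 ψ1 : ι → ℝ} {i : ι} {a b : E}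
    (ha : a ∈ cell y ψ0 i) (hb : b ∈ cell y ψ1 i) :
    (1/2:ℝ) • a + (1/2:ℝ) • b ∈ cell y (fun j => (ψ0 j + ψ1 j) / 2) i := by
  intro j
  have h1 := ha j
  have h2 := hb j
  simp only [inner_add_left, inner_smul_left, RCLike.conj_to_real]
  linarith

/-- algebraic lemma used for absorption. -/
lemma sqrt_diff_le {a b P Q : ℝ} (ha : 0 ≤ a) (hb : 0 ≤ b) (hP : 1 ≤ P) (hQ : 1 ≤ Q) :
    (√a - √b) ^ 2 ≤ 2 * (√(a * P) - √(b * Q)) ^ 2 + 1 / 2 * (√a * √b * (P - Q) ^ 2) := by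
  -- wlog b ≤ a
  have main : ∀ a b P Q : ℝ, 0 ≤ b → b ≤ a → 1 ≤ P → 1 ≤ Q →
      (√a - √b) ^ 2 ≤ 2 * (√(a * P) - √(b * Q)) ^ 2 + 1 / 2 * (√a * √b * (P - Q) ^ 2) := by
    intro a b P Q hb hba hP hQ
    have ha : 0 ≤ a := hb.trans hba
    set s := √a with hs
    set t := √b with ht
    set p := √P with hp
    set q := √Q with hq
    have hs0 : 0 ≤ s := Real.sqrt_nonneg _
    have ht0 : 0 ≤ t := Real.sqrt_nonneg _
    have hts : t ≤ s := Real.sqrt_le_sqrt hba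
    have hp1 : 1 ≤ p := by rw [hp, ← Real.sqrt_one]; exact Real.sqrt_le_sqrt hP
    have hq1 : 1 ≤ q := by rw [hq, ← Real.sqrt_one]; exact Real.sqrt_le_sqrt hQ
    have e1 : √(a * P) = s * p := Real.sqrt_mul ha _
    have e2 : √(b * Q) = t * q := Real.sqrt_mul hb _
    have eP : P = p ^ 2 := (Real.sq_sqrt (by linarith)).symm
    have eQ : Q = q ^ 2 := (Real.sq_sqrt (by linarith)).symm
    rw [e1, e2, eP, eQ]
    -- (s - t) * p = (s p - t q) - t (p - q)
    have h1 : (s - t) ^ 2 ≤ ((s - t) * p) ^ 2 := by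
      rw [mul_pow]
      nlinarith [sq_nonneg (s - t), one_le_pow₀ hp1 (n := 2)]
    have h2 : ((s - t) * p) ^ 2 ≤ 2 * (s * p - t * q) ^ 2 + 2 * (t * (p - q)) ^ 2 := by
      have : (s - t) * p = (s * p - t * q) - t * (p - q) := by ring
      rw [this]
      nlinarith [sq_nonneg ((s * p - t * q) + t * (p - q))]
    have h3 : 2 * (t * (p - q)) ^ 2 ≤ 1 / 2 * (s * t * (p ^ 2 - q ^ 2) ^ 2) := by
      have h4 : 4 * (p - q) ^ 2 ≤ (p ^ 2 - q ^ 2) ^ 2 := by
        have : p ^ 2 - q ^ 2 = (p - q) * (p + q) := by ring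
        rw [this, mul_pow]
        have h5 : 4 ≤ (p + q) ^ 2 := by nlinarith
        nlinarith [sq_nonneg (p - q)]
      have h6 : t ^ 2 ≤ s * t := by nlinarith
      have h7 : 2 * (t * (p - q)) ^ 2 = 1/2 * (t ^ 2 * (4 * (p - q) ^ 2)) := by ring
      rw [h7]
      have := mul_le_mul h6 h4 (by positivity) (by positivity)
      linarith
    linarith
  rcases le_total b a with h | h
  · exact main a b P Q hb h hP hQ
  · have := main b a Q P ha h hQ hP
    calc (√a - √b) ^ 2 = (√b - √a) ^ 2 := by ring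
      _ ≤ _ := this
      _ = _ := by ring

/-- algebraic lemma for the moments. -/
lemma moment_le {a b α β m n Rr c : ℝ} (ha : 0 ≤ a) (hb : 0 ≤ b) (hm : a ≤ m) (hn : b ≤ n)
    (hα : |α| ≤ Rr) (hβ : |β| ≤ Rr) (hc : c = max m n) :
    (a * α - b * β) ^ 2 / c ≤ 8 * Rr ^ 2 * (√a - √b) ^ 2 + 2 * (√a * √b * (α - β) ^ 2) := by
  have hR : 0 ≤ Rr := (abs_nonneg _).trans hα
  have main : ∀ a b α β c : ℝ, 0 ≤ b → b ≤ a → |α| ≤ Rr → |β| ≤ Rr → a ≤ c →
      (a * α - b * β) ^ 2 / c ≤ 8 * Rr ^ 2 * (√a - √b) ^ 2 + 2 * (√a * √b * (α - β) ^ 2) := by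
    intro a b α β c hb hba hα hβ hac
    have ha : 0 ≤ a := hb.trans hba
    have hrhs : 0 ≤ 8 * Rr ^ 2 * (√a - √b) ^ 2 + 2 * (√a * √b * (α - β) ^ 2) := by positivity
    rcases ha.eq_or_lt with h0 | hapos
    · have hb0 : b = 0 := le_antisymm (h0 ▸ hba) hb
      rw [← h0, hb0]; simp
    have hcpos : 0 < c := lt_of_lt_of_le hapos hac
    rw [div_le_iff₀ hcpos]
    set s := √a with hs
    set t := √b with ht
    have hs0 : 0 ≤ s := Real.sqrt_nonneg _
    have ht0 : 0 ≤ t := Real.sqrt_nonneg _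
    have hts : t ≤ s := Real.sqrt_le_sqrt hba
    have es : a = s ^ 2 := (Real.sq_sqrt ha).symm
    have et : b = t ^ 2 := (Real.sq_sqrt hb).symm
    have h1 : (a * α - b * β) ^ 2 ≤ 2 * ((a - b) * α) ^ 2 + 2 * (b * (α - β)) ^ 2 := by
      have : a * α - b * β = (a - b) * α + b * (α - β) := by ring
      rw [this]
      nlinarith [sq_nonneg ((a - b) * α - b * (α - β))]
    have h2 : ((a - b) * α) ^ 2 ≤ 4 * Rr ^ 2 * (s - t) ^ 2 * a := by
      have hα2 : α ^ 2 ≤ Rr ^ 2 := by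
        rw [← sq_abs]; exact pow_le_pow_left₀ (abs_nonneg _) hα 2
      have e : (a - b) ^ 2 ≤ 4 * (s - t) ^ 2 * a := by
        rw [es, et]
        have : (s ^ 2 - t ^ 2) ^ 2 = (s - t) ^ 2 * (s + t) ^ 2 := by ring
        rw [this]
        have h3 : (s + t) ^ 2 ≤ 4 * s ^ 2 := by nlinarith
        nlinarith [sq_nonneg (s - t), mul_le_mul_of_nonneg_left h3 (sq_nonneg (s - t))]
      calc ((a - b) * α) ^ 2 = (a - b) ^ 2 * α ^ 2 := by ring
        _ ≤ (4 * (s - t) ^ 2 * a) * Rr ^ 2 := mul_le_mul e hα2 (sq_nonneg _) (by positivity)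
        _ = _ := by ring
    have h3 : (b * (α - β)) ^ 2 ≤ (s * t * (α - β) ^ 2) * a := by
      rw [es, et]
      have : (t ^ 2 * (α - β)) ^ 2 = t * (t ^ 3) * (α - β) ^ 2 := by ring
      rw [this]
      have h4 : t ^ 3 ≤ s ^ 3 := pow_le_pow_left₀ ht0 hts 3
      have h5 : t * t ^ 3 ≤ t * s ^ 3 := mul_le_mul_of_nonneg_left h4 ht0
      nlinarith [mul_le_mul_of_nonneg_right h5 (sq_nonneg (α - β))]
    have h4 : (8 * Rr ^ 2 * (s - t) ^ 2 + 2 * (s * t * (α - β) ^ 2)) * a ≤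
        (8 * Rr ^ 2 * (s - t) ^ 2 + 2 * (s * t * (α - β) ^ 2)) * c :=
      mul_le_mul_of_nonneg_left hac hrhs
    refine le_trans ?_ h4
    have h5 : (8 * Rr ^ 2 * (s - t) ^ 2 + 2 * (s * t * (α - β) ^ 2)) * a =
        2 * (4 * Rr ^ 2 * (s - t) ^ 2 * a) + 2 * ((s * t * (α - β) ^ 2) * a) := by ring
    rw [h5]
    linarith
  rcases le_total b a with h | h
  · exact main a b α β c hb h hα hβ (hc ▸ hm.trans (le_max_left _ _))
  · have := main b a β α c ha h hβ hα (hc ▸ hn.trans (le_max_right _ _))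
    calc (a * α - b * β) ^ 2 / c = (b * β - a * α) ^ 2 / c := by ring_nf
      _ ≤ _ := this
      _ = _ := by ring

lemma sqrt_sub_sq_le {m n : ℝ} (hm : 0 ≤ m) (hn : 0 ≤ n) :
    (√m - √n) ^ 2 ≤ (m - n) ^ 2 / max m n := by
  rcases (le_max_of_le_left hm : 0 ≤ max m n).eq_or_lt with h | h
  · have h1 : m = 0 := le_antisymm (h ▸ le_max_left m n) hm
    have h2 : n = 0 := le_antisymm (h ▸ le_max_right m n) hn
    simp [h1, h2]
  · rw [le_div_iff₀ h]
    have e : (m - n) ^ 2 = (√m - √n) ^ 2 * (√m + √n) ^ 2 := by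
      rw [← mul_pow]
      congr 1
      have h1 := Real.sq_sqrt hm
      have h2 := Real.sq_sqrt hn
      nlinarith
    rw [e]
    refine mul_le_mul_of_nonneg_left ?_ (sq_nonneg _)
    have h1 := Real.sq_sqrt hm
    have h2 := Real.sq_sqrt hn
    have h3 := Real.sqrt_nonneg m
    have h4 := Real.sqrt_nonneg n
    rcases max_choice m n with h5 | h5 <;> rw [h5] <;> nlinarith [mul_nonneg h3 h4]

end Crest.Agent.R082.Key
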