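import Mathlib
import Crest.Agent.R082.Key2

/-!
# Key lemma for S0109, part 3: the key stability inequality
-/

set_option autoImplicit false
set_option linter.unusedSectionVars false

open MeasureTheory Set
open scoped ENNReal RealInnerProductSpace Function

namespace Crest.Agent.R082.Key

open Crest.Agent.Lib.PrekopaLeindler

variable {E : Type*} [NormedAddCommGroup E] [InnerProductSpace ℝ E] [MeasurableSpace E]
  [BorelSpace E] {ι : Type*} [Fintype ι]

lemma iUnion_cell [Nonempty ι] (y : ι → E) (ψ : ι → ℝ) : ⋃ i, cell y ψ i = univ := by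
  ext x
  simp only [mem_iUnion, mem_univ, iff_true]
  obtain ⟨i, hi⟩ := Finite.exists_max fun i => ⟪x, y i⟫ - ψ i
  exact ⟨i, hi⟩

lemma sum_integral_cell [Nonempty ι] {ρ : Measure E} (y : ι → E) (ψ : ι → ℝ)
    (hnull : ∀ i j, i ≠ j → ρ (cell y ψ i ∩ cell y ψ j) = 0) {f : E → ℝ} (hf : Integrable f ρ) :
    ∑ i, ∫ x in cell y ψ i, f x ∂ρ = ∫ x, f x ∂ρ := by
  have h1 := integral_iUnion_ae (μ := ρ) (f := f) (s := cell y ψ)
    (fun i => (isClosed_cell y ψ i).measurableSet.nullMeasurableSet)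
    (fun i j hij => hnull i j hij) (by rw [iUnion_cell]; exact hf.integrableOn)
  rw [iUnion_cell, Measure.restrict_univ, tsum_fintype] at h1
  exact h1.symm

/-- one-index inequality for masses -/
lemma mass_index {a b m n : ℝ} (ha : 0 ≤ a) (hb : 0 ≤ b) (ham : a ≤ m) (hbn : b ≤ n)
    (ha0 : a = 0 → m = 0) (hb0 : b = 0 → n = 0) :
    (√a - √b) ^ 2 ≤ 2 * (√m - √n) ^ 2 + 1 / 2 * (√a * √b * (m / a - n / b) ^ 2) := by
  rcases ha.eq_or_lt with h | hapos
  · have h0 := ha0 h.symm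
    rw [← h, h0]
    have := Real.sq_sqrt hb
    have := Real.sq_sqrt (hb.trans hbn)
    simp only [Real.sqrt_zero, zero_sub, neg_sq, zero_mul, mul_zero, add_zero]
    nlinarith
  rcases hb.eq_or_lt with h | hbpos
  · have h0 := hb0 h.symm
    rw [← h, h0]
    have := Real.sq_sqrt ha
    have := Real.sq_sqrt (ha.trans ham)
    simp only [Real.sqrt_zero, sub_zero, zero_mul, mul_zero, add_zero]
    nlinarith
  have h := sqrt_diff_le ha hb (P := m / a) (Q := n / b) ((one_le_div hapos).2 ham)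
    ((one_le_div hbpos).2 hbn)
  rwa [mul_div_cancel₀ _ hapos.ne', mul_div_cancel₀ _ hbpos.ne'] at h

/-- Summed Prekopa–Leindler inequality. -/
theorem sum_ineq [Nonempty ι] {ρ : Measure E} [IsFiniteMeasure ρ] (hPL : PL E ρ) {R : ℝ}
    (hR : ∀ᵐ x ∂ρ, x ∈ Metric.closedBall (0:E) R) (y : ι → E) (ψ0 ψ1 : ι → ℝ)
    (hnull : ∀ ψ : ι → ℝ, ∀ i j, i ≠ j → ρ (cell y ψ i ∩ cell y ψ j) = 0)
    {lam : ℝ} (hlam : 0 < lam) {L : ℝ} (hL : 0 < L) (l : ι → E → ℝ) (hl : ∀ i, Measurable (l i))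
    {M : ℝ} (hM : ∀ i, ∀ x ∈ Metric.closedBall (0:E) R, |l i x| ≤ M)
    (hlip : ∀ i, ∀ x ∈ Metric.closedBall (0:E) R, ∀ z ∈ Metric.closedBall (0:E) R,
      |l i x - l i z| ≤ L * ‖x - z‖) :
    ∑ i, √(∫ x in cell y ψ0 i, gw lam x ∂ρ) * √(∫ x in cell y ψ1 i, gw lam x ∂ρ) *
      ((∫ x in cell y ψ0 i, gw lam x * l i x ∂ρ) / (∫ x in cell y ψ0 i, gw lam x ∂ρ) -
        (∫ x in cell y ψ1 i, gw lam x * l i x ∂ρ) / (∫ x in cell y ψ1 i, gw lam x ∂ρ)) ^ 2 ≤
    4 * L ^ 2 / lam * ∑ i, (√(∫ x in cell y ψ0 i, gw lam x ∂ρ) -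
        √(∫ x in cell y ψ1 i, gw lam x ∂ρ)) ^ 2 := by
  set B := Metric.closedBall (0:E) R with hB
  set a : ι → ℝ := fun i => ∫ x in cell y ψ0 i, gw lam x ∂ρ with ha
  set b : ι → ℝ := fun i => ∫ x in cell y ψ1 i, gw lam x ∂ρ with hb
  set c : ι → ℝ := fun i => ∫ x in cell y (fun j => (ψ0 j + ψ1 j) / 2) i, gw lam x ∂ρ with hc
  have ha0 : ∀ i, 0 ≤ a i := fun i => integral_nonneg fun x => (gw_pos lam x).le
  have hb0 : ∀ i, 0 ≤ b i := fun i => integral_nonneg fun x => (gw_pos lam x).le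
  have hBm : MeasurableSet B := Metric.isClosed_closedBall.measurableSet
  have hae : ∀ S : Set E, (S ∩ B : Set E) =ᵐ[ρ] S := by
    intro S
    filter_upwards [hR] with x hx
    apply propext
    exact ⟨fun h => h.1, fun h => ⟨h, hx⟩⟩
  have hcongr : ∀ (S : Set E) (f : E → ℝ), ∫ x in S ∩ B, f x ∂ρ = ∫ x in S, f x ∂ρ :=
    fun S _ => setIntegral_congr_set (hae S)
  have hgi : Integrable (gw lam : E → ℝ) ρ := by
    have := integrable_of_bdd (ρ := ρ) (measurable_gw (E := E) lam) MeasurableSet.univ (M := 1)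
      (fun x _ => by rw [abs_of_pos (gw_pos lam x)]; exact gw_le_one hlam.le x)
    rwa [integrableOn_univ] at this
  have hpair : ∀ i, √(a i) * √(b i) * (1 + lam / 8 * (((∫ x in cell y ψ0 i, gw lam x * l i x ∂ρ) / a i -
        (∫ x in cell y ψ1 i, gw lam x * l i x ∂ρ) / b i) / L) ^ 2) ≤ c i := by
    intro i
    have h := pair_ineq (ρ := ρ) hPL (A := cell y ψ0 i ∩ B) (B := cell y ψ1 i ∩ B)
      (C := cell y (fun j => (ψ0 j + ψ1 j) / 2) i ∩ B)
      ((isClosed_cell y ψ0 i).measurableSet.inter hBm)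
      ((isClosed_cell y ψ1 i).measurableSet.inter hBm)
      ((isClosed_cell y _ i).measurableSet.inter hBm)
      (fun p hp q hq => ⟨mid_mem_cell hp.1 hq.1,
        (convex_closedBall (0:E) R) hp.2 hq.2 (by norm_num) (by norm_num) (by norm_num)⟩)
      hlam.le (l := fun x => l i x / L) ((hl i).div_const L) (M := M / L)
      (fun x hx => by
        rw [abs_div, abs_of_pos hL]; exact div_le_div_of_nonneg_right (hM i x hx.2) hL.le)
      (fun x hx => by
        rw [abs_div, abs_of_pos hL]; exact div_le_div_of_nonneg_right (hM i x hx.2) hL.le)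
      (fun p hp q hq => by
        rw [← sub_div, abs_div, abs_of_pos hL, div_le_iff₀ hL, mul_comm]
        exact hlip i p hp.2 q hq.2)
    simp only [hcongr] at h
    have e : ∀ S : Set E, ∫ x in S, gw lam x * (l i x / L) ∂ρ =
        (∫ x in S, gw lam x * l i x ∂ρ) / L := by
      intro S
      rw [← integral_div]; congr 1; ext x; ring
    rw [e, e] at h
    refine le_trans ?_ h
    refine mul_le_mul_of_nonneg_left ?_ (by positivity)
    have h1 := Real.add_one_le_exp (lam / 8 * (((∫ x in cell y ψ0 i, gw lam x * l i x ∂ρ) / a i -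
        (∫ x in cell y ψ1 i, gw lam x * l i x ∂ρ) / b i) / L) ^ 2)
    have h2 : ((∫ x in cell y ψ0 i, gw lam x * l i x ∂ρ) / a i -
        (∫ x in cell y ψ1 i, gw lam x * l i x ∂ρ) / b i) / L =
        (∫ x in cell y ψ0 i, gw lam x * l i x ∂ρ) / L / a i -
        (∫ x in cell y ψ1 i, gw lam x * l i x ∂ρ) / L / b i := by
      rw [sub_div, div_right_comm, div_right_comm (∫ x in cell y ψ1 i, gw lam x * l i x ∂ρ)]
    rw [h2] at h1
    rw [h2]
    linarith
  have hsuma : ∑ i, a i = ∫ x, gw lam x ∂ρ := sum_integral_cell y ψ0 (hnull ψ0) hgi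
  have hsumb : ∑ i, b i = ∫ x, gw lam x ∂ρ := sum_integral_cell y ψ1 (hnull ψ1) hgi
  have hsumc : ∑ i, c i = ∫ x, gw lam x ∂ρ := sum_integral_cell y _ (hnull _) hgi
  have hsum : ∑ i, √(a i) * √(b i) * (1 + lam / 8 * (((∫ x in cell y ψ0 i, gw lam x * l i x ∂ρ) / a i -
        (∫ x in cell y ψ1 i, gw lam x * l i x ∂ρ) / b i) / L) ^ 2) ≤ ∑ i, c i :=
    Finset.sum_le_sum fun i _ => hpair i
  have hS : ∑ i, (√(a i) - √(b i)) ^ 2 = ∑ i, a i + ∑ i, b i - 2 * ∑ i, √(a i) * √(b i) := by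
    rw [Finset.mul_sum, ← Finset.sum_add_distrib, ← Finset.sum_sub_distrib]
    refine Finset.sum_congr rfl fun i _ => ?_
    have h1 := Real.sq_sqrt (ha0 i)
    have h2 := Real.sq_sqrt (hb0 i)
    nlinarith
  have hexp : ∑ i, √(a i) * √(b i) * (1 + lam / 8 * (((∫ x in cell y ψ0 i, gw lam x * l i x ∂ρ) / a i -
        (∫ x in cell y ψ1 i, gw lam x * l i x ∂ρ) / b i) / L) ^ 2) =
      ∑ i, √(a i) * √(b i) + lam / (8 * L ^ 2) * ∑ i, √(a i) * √(b i) *
        ((∫ x in cell y ψ0 i, gw lam x * l i x ∂ρ) / a i -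
        (∫ x in cell y ψ1 i, gw lam x * l i x ∂ρ) / b i) ^ 2 := by
    rw [Finset.mul_sum, ← Finset.sum_add_distrib]
    refine Finset.sum_congr rfl fun i _ => ?_
    field_simp
  rw [hexp, hsumc] at hsum
  rw [hS, hsuma, hsumb]
  set T := ∑ i, √(a i) * √(b i) * ((∫ x in cell y ψ0 i, gw lam x * l i x ∂ρ) / a i -
        (∫ x in cell y ψ1 i, gw lam x * l i x ∂ρ) / b i) ^ 2 with hT
  have hfin : T = 8 * L ^ 2 / lam * (lam / (8 * L ^ 2) * T) := by field_simp
  rw [hfin]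
  have hpos : 0 < 8 * L ^ 2 / lam := by positivity
  calc 8 * L ^ 2 / lam * (lam / (8 * L ^ 2) * T)
      ≤ 8 * L ^ 2 / lam * (∫ x, gw lam x ∂ρ - ∑ i, √(a i) * √(b i)) :=
        mul_le_mul_of_nonneg_left (by linarith) hpos.le
    _ = _ := by ring

/-- Inverse weight. -/
lemma exp_bound18 : Real.exp (1/8) ≤ 1.14 := by
  have h : Real.exp (1/8) ^ 8 = Real.exp 1 := by
    rw [← Real.exp_nat_mul]; norm_num
  by_contra hcon
  push Not at hcon
  have h1 : (1.14:ℝ) ^ 8 < Real.exp (1/8) ^ 8 := pow_lt_pow_left₀ hcon (by norm_num) (by norm_num)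
  rw [h] at h1
  have := Real.exp_one_lt_d9
  norm_num at h1
  linarith

/-- inverse of the Gaussian weight -/
noncomputable def gi (lam : ℝ) (x : E) : ℝ := Real.exp ((lam / 2) * ‖x‖ ^ 2)

lemma gw_mul_gi (lam : ℝ) (x : E) : gw lam x * gi lam x = 1 := by
  unfold gw gi
  rw [← Real.exp_add]; simp

lemma measurable_gi (lam : ℝ) : Measurable (gi lam : E → ℝ) := by
  unfold gi; fun_prop

lemma gi_le {lam R : ℝ} (hlam : 0 ≤ lam) (hR : 0 ≤ R) {x : E} (hx : ‖x‖ ≤ R) :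
    gi lam x ≤ Real.exp (lam / 2 * R ^ 2) := by
  unfold gi
  apply Real.exp_le_exp.2
  have := pow_le_pow_left₀ (norm_nonneg x) hx 2
  nlinarith

lemma gi_pos (lam : ℝ) (x : E) : 0 < gi lam x := Real.exp_pos _

lemma gi_lip {lam R : ℝ} (hlam : 0 ≤ lam) (hR : 0 ≤ R) {x z : E} (hx : ‖x‖ ≤ R) (hz : ‖z‖ ≤ R) :
    |gi lam x - gi lam z| ≤ Real.exp (lam / 2 * R ^ 2) * (lam * R) * ‖x - z‖ := by
  -- wlog gi z ≤ gi x
  have main : ∀ x z : E, ‖x‖ ≤ R → ‖z‖ ≤ R →
      gi lam x - gi lam z ≤ Real.exp (lam / 2 * R ^ 2) * (lam * R) * ‖x - z‖ := by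
    intro x z hx hz
    have h1 : gi lam x - gi lam z ≤ gi lam x * ((lam / 2) * ‖x‖ ^ 2 - (lam / 2) * ‖z‖ ^ 2) := by
      have h2 : gi lam z = gi lam x * Real.exp ((lam / 2) * ‖z‖ ^ 2 - (lam / 2) * ‖x‖ ^ 2) := by
        unfold gi; rw [← Real.exp_add]; ring_nf
      rw [h2]
      have h3 := Real.add_one_le_exp ((lam / 2) * ‖z‖ ^ 2 - (lam / 2) * ‖x‖ ^ 2)
      have h4 := mul_le_mul_of_nonneg_left h3 (gi_pos lam x).le
      nlinarith
    have h5 : (lam / 2) * ‖x‖ ^ 2 - (lam / 2) * ‖z‖ ^ 2 ≤ lam * R * ‖x - z‖ := by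
      have h6 : ‖x‖ - ‖z‖ ≤ ‖x - z‖ := norm_sub_norm_le x z
      have h7 : (‖x‖ - ‖z‖) * (‖x‖ + ‖z‖) ≤ ‖x - z‖ * (2 * R) := by
        refine mul_le_mul h6 (by linarith) (by positivity) (norm_nonneg _)
      nlinarith
    calc gi lam x - gi lam z ≤ gi lam x * ((lam / 2) * ‖x‖ ^ 2 - (lam / 2) * ‖z‖ ^ 2) := h1
      _ ≤ gi lam x * (lam * R * ‖x - z‖) := mul_le_mul_of_nonneg_left h5 (gi_pos lam x).le
      _ ≤ Real.exp (lam / 2 * R ^ 2) * (lam * R * ‖x - z‖) :=
          mul_le_mul_of_nonneg_right (gi_le hlam hR hx) (by positivity)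
      _ = _ := by ring
  rw [abs_sub_le_iff]
  exact ⟨main x z hx hz, by rw [norm_sub_rev]; exact main z x hz hx⟩

/-- **Key lemma.** For two weight vectors on the same sites, the change of the moments of the
cells is controlled by the change of the masses of the cells. -/
theorem key_lemma [Nonempty ι] {ρ : Measure E} [IsFiniteMeasure ρ] (hPL : PL E ρ) {R : ℝ}
    (hRpos : 0 < R)
    (hR : ∀ᵐ x ∂ρ, x ∈ Metric.closedBall (0:E) R) (y : ι → E) (ψ0 ψ1 : ι → ℝ)
    (hnull : ∀ ψ : ι → ℝ, ∀ i j, i ≠ j → ρ (cell y ψ i ∩ cell y ψ j) = 0)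
    (q : ι → E → ℝ) (hq : ∀ i, Measurable (q i))
    (hqR : ∀ i, ∀ x ∈ Metric.closedBall (0:E) R, |q i x| ≤ R)
    (hqlip : ∀ i, ∀ x ∈ Metric.closedBall (0:E) R, ∀ z ∈ Metric.closedBall (0:E) R,
      |q i x - q i z| ≤ ‖x - z‖) :
    ∑ i, (∫ x in cell y ψ0 i, q i x ∂ρ - ∫ x in cell y ψ1 i, q i x ∂ρ) ^ 2 /
        max (ρ.real (cell y ψ0 i)) (ρ.real (cell y ψ1 i)) ≤
      400 * R ^ 2 * ∑ i, (ρ.real (cell y ψ0 i) - ρ.real (cell y ψ1 i)) ^ 2 /
        max (ρ.real (cell y ψ0 i)) (ρ.real (cell y ψ1 i)) := by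
  set lam : ℝ := 1 / (8 * R ^ 2) with hlamdef
  have hlam : 0 < lam := by positivity
  have hlamR : lam / 2 * R ^ 2 = 1 / 16 := by rw [hlamdef]; field_simp; norm_num
  set B := Metric.closedBall (0:E) R with hB
  have hBn : ∀ x ∈ B, ‖x‖ ≤ R := fun x hx => by simpa [hB] using hx
  set κ := Real.exp (1/16) with hκ
  have hκ2 : κ ^ 2 ≤ 1.14 := by
    have : κ ^ 2 = Real.exp (1/8) := by rw [hκ, ← Real.exp_nat_mul]; norm_num
    rw [this]; exact exp_bound18
  have hκ1 : 1 ≤ κ := Real.one_le_exp (by norm_num)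
  have hgm : Measurable (gw lam : E → ℝ) := measurable_gw lam
  have him : Measurable (gi lam : E → ℝ) := measurable_gi lam
  have hg1 : ∀ x : E, gw lam x ≤ 1 := fun x => gw_le_one hlam.le x
  have hgiκ : ∀ x ∈ B, gi lam x ≤ κ := fun x hx => by
    have := gi_le hlam.le hRpos.le (hBn x hx)
    rwa [hlamR] at this
  set a : ι → ℝ := fun i => ∫ x in cell y ψ0 i, gw lam x ∂ρ with ha
  set b : ι → ℝ := fun i => ∫ x in cell y ψ1 i, gw lam x ∂ρ with hb
  set m : ι → ℝ := fun i => ρ.real (cell y ψ0 i) with hm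
  set n : ι → ℝ := fun i => ρ.real (cell y ψ1 i) with hn
  have hcellm : ∀ (ψ : ι → ℝ) i, MeasurableSet (cell y ψ i) := fun ψ i =>
    (isClosed_cell y ψ i).measurableSet
  have ha0 : ∀ i, 0 ≤ a i := fun i => integral_nonneg fun x => (gw_pos lam x).le
  have hb0 : ∀ i, 0 ≤ b i := fun i => integral_nonneg fun x => (gw_pos lam x).le
  have hgint : ∀ S : Set E, IntegrableOn (gw lam : E → ℝ) S ρ := by
    intro S
    have := integrable_of_bdd (ρ := ρ) (measurable_gw (E := E) lam) MeasurableSet.univ (M := 1)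
      (fun x _ => by rw [abs_of_pos (gw_pos lam x)]; exact gw_le_one hlam.le x)
    rw [integrableOn_univ] at this
    exact this.integrableOn
  -- comparison of weighted mass and mass
  have hle : ∀ (ψ : ι → ℝ) i, ∫ x in cell y ψ i, gw lam x ∂ρ ≤ ρ.real (cell y ψ i) := by
    intro ψ i
    calc ∫ x in cell y ψ i, gw lam x ∂ρ ≤ ∫ x in cell y ψ i, (1:ℝ) ∂ρ :=
          integral_mono (hgint _) (integrable_const _) hg1
      _ = ρ.real (cell y ψ i) := by simp
  have hzero : ∀ (ψ : ι → ℝ) i, ∫ x in cell y ψ i, gw lam x ∂ρ = 0 → ρ (cell y ψ i) = 0 := by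
    intro ψ i h0
    by_contra hne
    have hpos : 0 < ∫ x in cell y ψ i, gw lam x ∂ρ := by
      rw [setIntegral_pos_iff_support_of_nonneg_ae
        (Filter.Eventually.of_forall fun x => (gw_pos lam x).le) (hgint _)]
      have : Function.support (gw lam : E → ℝ) = univ := by
        ext x; simp [(gw_pos lam x).ne']
      rw [this, univ_inter]
      exact pos_iff_ne_zero.2 hne
    linarith
  -- masses through weights
  have hmass : ∀ (ψ : ι → ℝ) i, ∫ x in cell y ψ i, gw lam x * gi lam x ∂ρ = ρ.real (cell y ψ i) := by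
    intro ψ i
    simp_rw [gw_mul_gi]
    simp
  have hqmass : ∀ (ψ : ι → ℝ) i, ∫ x in cell y ψ i, gw lam x * (q i x * gi lam x) ∂ρ =
      ∫ x in cell y ψ i, q i x ∂ρ := by
    intro ψ i
    congr 1; ext x
    calc gw lam x * (q i x * gi lam x) = q i x * (gw lam x * gi lam x) := by ring
      _ = q i x := by rw [gw_mul_gi, mul_one]
  -- first application: mass
  set S := ∑ i, (√(a i) - √(b i)) ^ 2 with hS
  set H := ∑ i, (√(m i) - √(n i)) ^ 2 with hH
  have hS0 : 0 ≤ S := Finset.sum_nonneg fun i _ => sq_nonneg _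
  have h1 := sum_ineq hPL hR y ψ0 ψ1 hnull hlam (L := κ * (lam * R)) (by positivity)
    (fun _ => gi lam) (fun _ => him) (M := κ)
    (fun i x hx => by rw [abs_of_pos (gi_pos lam x)]; exact hgiκ x hx)
    (fun i x hx z hz => by
      have := gi_lip hlam.le hRpos.le (hBn x hx) (hBn z hz)
      rwa [hlamR] at this)
  simp only [hmass] at h1
  have hcoef1 : 4 * (κ * (lam * R)) ^ 2 / lam ≤ 0.57 := by
    have : 4 * (κ * (lam * R)) ^ 2 / lam = 4 * κ ^ 2 * (lam * R ^ 2) := by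
      field_simp
    rw [this]
    have h2 : lam * R ^ 2 = 1 / 8 := by linarith
    rw [h2]; linarith
  have hSH : S ≤ 3 * H := by
    have h2 : S ≤ 2 * H + 1 / 2 * ∑ i, √(a i) * √(b i) * (m i / a i - n i / b i) ^ 2 := by
      rw [hS, hH, Finset.mul_sum, Finset.mul_sum, ← Finset.sum_add_distrib]
      refine Finset.sum_le_sum fun i _ => ?_
      refine mass_index (ha0 i) (hb0 i) (hle ψ0 i) (hle ψ1 i) ?_ ?_
      · intro h; simp only [hm, Measure.real]; rw [hzero ψ0 i h]; rfl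
      · intro h; simp only [hn, Measure.real]; rw [hzero ψ1 i h]; rfl
    have h3 : 4 * (κ * (lam * R)) ^ 2 / lam * S ≤ 0.57 * S :=
      mul_le_mul_of_nonneg_right hcoef1 hS0
    have h4 : ∑ i, √(a i) * √(b i) * (m i / a i - n i / b i) ^ 2 ≤ 0.57 * S := h1.trans h3
    have h5 : 0 ≤ H := Finset.sum_nonneg fun i _ => sq_nonneg _
    linarith
  -- second application : moments
  have h2 := sum_ineq hPL hR y ψ0 ψ1 hnull hlam (L := 9 / 8 * κ) (by positivity)
    (fun i x => q i x * gi lam x) (fun i => (hq i).mul him) (M := R * κ)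
    (fun i x hx => by
      rw [abs_mul, abs_of_pos (gi_pos lam x)]
      exact mul_le_mul (hqR i x hx) (hgiκ x hx) (gi_pos lam x).le hRpos.le)
    (fun i x hx z hz => by
      have h3 := gi_lip hlam.le hRpos.le (hBn x hx) (hBn z hz)
      rw [hlamR] at h3
      have h4 : q i x * gi lam x - q i z * gi lam z =
        (q i x - q i z) * gi lam x + q i z * (gi lam x - gi lam z) := by ring
      rw [h4]
      refine (abs_add_le _ _).trans ?_
      rw [abs_mul, abs_mul, abs_of_pos (gi_pos lam x)]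
      have h5 : |q i x - q i z| * gi lam x ≤ ‖x - z‖ * κ :=
        mul_le_mul (hqlip i x hx z hz) (hgiκ x hx) (gi_pos lam x).le (norm_nonneg _)
      have h6 : |q i z| * |gi lam x - gi lam z| ≤ R * (κ * (lam * R) * ‖x - z‖) :=
        mul_le_mul (hqR i z hz) h3 (abs_nonneg _) hRpos.le
      have h7 : R * (κ * (lam * R) * ‖x - z‖) = 1 / 8 * κ * ‖x - z‖ := by
        have : lam * R ^ 2 = 1 / 8 := by linarith
        calc R * (κ * (lam * R) * ‖x - z‖) = (lam * R ^ 2) * κ * ‖x - z‖ := by ring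
          _ = _ := by rw [this]
      rw [h7] at h6
      linarith)
  simp only [hqmass] at h2
  have hcoef2 : 4 * (9 / 8 * κ) ^ 2 / lam ≤ 47 * R ^ 2 := by
    have : 4 * (9 / 8 * κ) ^ 2 / lam = 81 / 2 * κ ^ 2 * R ^ 2 := by
      rw [hlamdef]; field_simp; ring
    rw [this]
    have : 0 ≤ R ^ 2 := sq_nonneg R
    nlinarith
  -- per index moment inequality
  have havg : ∀ (ψ : ι → ℝ) i, |(∫ x in cell y ψ i, q i x ∂ρ) / (∫ x in cell y ψ i, gw lam x ∂ρ)| ≤
      R * κ := by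
    intro ψ i
    have hg0 : 0 ≤ ∫ x in cell y ψ i, gw lam x ∂ρ := integral_nonneg fun x => (gw_pos lam x).le
    rcases hg0.eq_or_lt with h | hpos
    · rw [← h]; simp; positivity
    rw [abs_div, abs_of_pos hpos, div_le_iff₀ hpos, ← hqmass]
    calc |∫ x in cell y ψ i, gw lam x * (q i x * gi lam x) ∂ρ|
        ≤ ∫ x in cell y ψ i, |gw lam x * (q i x * gi lam x)| ∂ρ := abs_integral_le_integral_abs
      _ ≤ ∫ x in cell y ψ i, (R * κ) * gw lam x ∂ρ := by
          have haeB : ∀ᵐ x ∂(ρ.restrict (cell y ψ i)), x ∈ B := ae_restrict_of_ae hR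
          refine integral_mono_of_nonneg (Filter.Eventually.of_forall fun x => abs_nonneg _)
            ((hgint _).const_mul _) ?_
          filter_upwards [haeB] with x hx
          rw [abs_mul, abs_of_pos (gw_pos lam x), mul_comm]
          refine mul_le_mul_of_nonneg_right ?_ (gw_pos lam x).le
          rw [abs_mul, abs_of_pos (gi_pos lam x)]
          exact mul_le_mul (hqR i x hx) (hgiκ x hx) (gi_pos lam x).le hRpos.le
      _ = R * κ * ∫ x in cell y ψ i, gw lam x ∂ρ := integral_const_mul _ _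
  have hmul : ∀ (ψ : ι → ℝ) i, ∫ x in cell y ψ i, q i x ∂ρ =
      (∫ x in cell y ψ i, gw lam x ∂ρ) *
        ((∫ x in cell y ψ i, q i x ∂ρ) / (∫ x in cell y ψ i, gw lam x ∂ρ)) := by
    intro ψ i
    by_cases h : ∫ x in cell y ψ i, gw lam x ∂ρ = 0
    · have h0 := hzero ψ i h
      rw [h, zero_mul]
      exact setIntegral_measure_zero _ h0
    · rw [mul_div_cancel₀ _ h]
  have hmom : ∀ i, (∫ x in cell y ψ0 i, q i x ∂ρ - ∫ x in cell y ψ1 i, q i x ∂ρ) ^ 2 /
        max (m i) (n i) ≤ 8 * (R * κ) ^ 2 * (√(a i) - √(b i)) ^ 2 +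
        2 * (√(a i) * √(b i) * ((∫ x in cell y ψ0 i, q i x ∂ρ) / a i -
          (∫ x in cell y ψ1 i, q i x ∂ρ) / b i) ^ 2) := by
    intro i
    have h3 := moment_le (ha0 i) (hb0 i) (hle ψ0 i) (hle ψ1 i) (havg ψ0 i) (havg ψ1 i)
      (c := max (m i) (n i)) rfl
    rw [← hmul ψ0 i, ← hmul ψ1 i] at h3
    exact h3
  have hHle : H ≤ ∑ i, (m i - n i) ^ 2 / max (m i) (n i) :=
    Finset.sum_le_sum fun i _ => sqrt_sub_sq_le measureReal_nonneg measureReal_nonneg
  calc ∑ i, (∫ x in cell y ψ0 i, q i x ∂ρ - ∫ x in cell y ψ1 i, q i x ∂ρ) ^ 2 / max (m i) (n i)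
      ≤ ∑ i, (8 * (R * κ) ^ 2 * (√(a i) - √(b i)) ^ 2 +
        2 * (√(a i) * √(b i) * ((∫ x in cell y ψ0 i, q i x ∂ρ) / a i -
          (∫ x in cell y ψ1 i, q i x ∂ρ) / b i) ^ 2)) := Finset.sum_le_sum fun i _ => hmom i
    _ = 8 * (R * κ) ^ 2 * S + 2 * ∑ i, (√(a i) * √(b i) *
        ((∫ x in cell y ψ0 i, q i x ∂ρ) / a i - (∫ x in cell y ψ1 i, q i x ∂ρ) / b i) ^ 2) := by
        rw [Finset.sum_add_distrib, ← Finset.mul_sum, ← Finset.mul_sum]
    _ ≤ 8 * (R * κ) ^ 2 * S + 2 * (4 * (9 / 8 * κ) ^ 2 / lam * S) := by linarith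
    _ ≤ 8 * (R * κ) ^ 2 * S + 2 * (47 * R ^ 2 * S) := by
        have := mul_le_mul_of_nonneg_right hcoef2 hS0
        linarith
    _ ≤ (9.12 * R ^ 2 + 94 * R ^ 2) * S := by
        have h3 : (R * κ) ^ 2 = κ ^ 2 * R ^ 2 := by ring
        rw [h3]
        have h4 : κ ^ 2 * R ^ 2 ≤ 1.14 * R ^ 2 := mul_le_mul_of_nonneg_right hκ2 (sq_nonneg R)
        have h5 := mul_le_mul_of_nonneg_right h4 hS0
        linarith
    _ ≤ (9.12 * R ^ 2 + 94 * R ^ 2) * (3 * H) := mul_le_mul_of_nonneg_left hSH (by positivity)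
    _ ≤ 400 * R ^ 2 * H := by
        have h5 : 0 ≤ R ^ 2 * H := mul_nonneg (sq_nonneg R) (Finset.sum_nonneg fun i _ => sq_nonneg _)
        linarith
    _ ≤ _ := mul_le_mul_of_nonneg_left hHle (by positivity)

end Crest.Agent.R082.Key
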