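import Crest.Agent.R082.Defs

/-!
Row 82: basic facts on `phi`, `cell`, `Kfun`, and existence of optimal potentials.
-/

set_option autoImplicit false

open MeasureTheory
open scoped ENNReal NNReal
open Crest.AnalysisR.OT

namespace Crest.Agent.R082

variable {d : ℕ} {ι : Type} [Fintype ι] [Nonempty ι]

theorem le_phi (y : ι → E d) (ψ : ι → ℝ) (x : E d) (i : ι) :
    inner ℝ x (y i) - ψ i ≤ phi y ψ x :=
  Finset.le_sup' (fun i => inner ℝ x (y i) - ψ i) (Finset.mem_univ i)

theorem phi_le_iff {y : ι → E d} {ψ : ι → ℝ} {x : E d} {c : ℝ} :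
    phi y ψ x ≤ c ↔ ∀ i, inner ℝ x (y i) - ψ i ≤ c := by
  simp [phi, Finset.sup'_le_iff]

theorem exists_phi_eq (y : ι → E d) (ψ : ι → ℝ) (x : E d) :
    ∃ i, phi y ψ x = inner ℝ x (y i) - ψ i := by
  obtain ⟨i, _, hi⟩ := Finset.exists_mem_eq_sup' Finset.univ_nonempty
    (fun i => inner ℝ x (y i) - ψ i)
  exact ⟨i, hi⟩

theorem phi_eq_of_mem_cell {K : Set (E d)} {y : ι → E d} {ψ : ι → ℝ} {x : E d} {i : ι}
    (hx : x ∈ cell K y ψ i) : phi y ψ x = inner ℝ x (y i) - ψ i :=
  le_antisymm (phi_le_iff.2 hx.2) (le_phi _ _ _ _)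

theorem mem_cell_iff {K : Set (E d)} {y : ι → E d} {ψ : ι → ℝ} {x : E d} {i : ι} :
    x ∈ cell K y ψ i ↔ x ∈ K ∧ phi y ψ x = inner ℝ x (y i) - ψ i := by
  constructor
  · intro h
    exact ⟨h.1, phi_eq_of_mem_cell h⟩
  · rintro ⟨h1, h2⟩
    refine ⟨h1, fun j => ?_⟩
    rw [← h2]
    exact le_phi _ _ _ _

theorem iUnion_cell (K : Set (E d)) (y : ι → E d) (ψ : ι → ℝ) : ⋃ i, cell K y ψ i = K := by
  ext x
  simp only [Set.mem_iUnion, mem_cell_iff]
  constructor
  · rintro ⟨i, h, _⟩
    exact h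
  · intro h
    obtain ⟨i, hi⟩ := exists_phi_eq y ψ x
    exact ⟨i, h, hi⟩

theorem continuous_phi (y : ι → E d) (ψ : ι → ℝ) : Continuous (phi y ψ) := by
  unfold phi
  apply Continuous.finset_sup'_apply
  intro i _
  fun_prop

omit [Fintype ι] [Nonempty ι] in
theorem isClosed_cell {K : Set (E d)} (hK : IsClosed K) (y : ι → E d) (ψ : ι → ℝ) (i : ι) :
    IsClosed (cell K y ψ i) := by
  have : cell K y ψ i = K ∩ ⋂ j, {x | inner ℝ x (y j) - ψ j ≤ inner ℝ x (y i) - ψ i} := by
    ext x
    simp [cell]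
  rw [this]
  refine hK.inter (isClosed_iInter fun j => ?_)
  exact isClosed_le (by fun_prop) (by fun_prop)

omit [Fintype ι] [Nonempty ι] in
theorem measurableSet_cell {K : Set (E d)} (hK : IsClosed K) (y : ι → E d) (ψ : ι → ℝ) (i : ι) :
    MeasurableSet (cell K y ψ i) :=
  (isClosed_cell hK y ψ i).measurableSet

omit [Fintype ι] [Nonempty ι] in
theorem convex_cell {K : Set (E d)} (hK : Convex ℝ K) (y : ι → E d) (ψ : ι → ℝ) (i : ι) :
    Convex ℝ (cell K y ψ i) := by
  intro x hx x' hx' a b ha hb hab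
  refine ⟨hK hx.1 hx'.1 ha hb hab, fun j => ?_⟩
  have h1 := hx.2 j
  have h2 := hx'.2 j
  simp only [inner_add_left, inner_smul_left, RCLike.conj_to_real]
  have e1 : ψ j = a * ψ j + b * ψ j := by rw [← add_mul, hab, one_mul]
  have e2 : ψ i = a * ψ i + b * ψ i := by rw [← add_mul, hab, one_mul]
  rw [e1, e2]
  nlinarith [mul_le_mul_of_nonneg_left h1 ha, mul_le_mul_of_nonneg_left h2 hb]

omit [Fintype ι] [Nonempty ι] in
/-- A hyperplane is a null set. -/
theorem volume_hyperplane (v : E d) (hv : v ≠ 0) (c : ℝ) :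
    volume {x : E d | inner ℝ x v = c} = 0 := by
  let s : AffineSubspace ℝ (E d) :=
    { carrier := {x : E d | inner ℝ x v = c}
      smul_vsub_vadd_mem' := by
        intro r p₁ p₂ p₃ h1 h2 h3
        simp only [Set.mem_ofPred_eq, vsub_eq_sub, vadd_eq_add, inner_add_left, inner_smul_left,
          inner_sub_left] at *
        rw [h1, h2, h3]; simp }
  have hs : s ≠ ⊤ := by
    intro h
    have h1 : ∀ x : E d, inner ℝ x v = c := by
      intro x
      have : x ∈ s := by rw [h]; trivial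
      exact this
    have h2 := h1 0
    have h3 := h1 v
    rw [inner_zero_left] at h2
    rw [← h2] at h3
    exact hv (inner_self_eq_zero.1 h3)
  exact Measure.addHaar_affineSubspace volume s hs

omit [Fintype ι] [Nonempty ι] in
theorem restrict_eq_of_compl {K : Set (E d)} {ρ : Measure (E d)} (hρK : ρ Kᶜ = 0) :
    ρ.restrict K = ρ :=
  Measure.restrict_eq_self_of_ae_mem (by rw [ae_iff]; exact hρK)

omit [Fintype ι] [Nonempty ι] in
theorem integrable_of_continuous {K : Set (E d)} (hK : IsCompact K) (ρ : Measure (E d))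
    [IsFiniteMeasure ρ] (hρK : ρ Kᶜ = 0) {F : Type*} [NormedAddCommGroup F] (f : E d → F)
    (hf : Continuous f) : Integrable f ρ := by
  rw [← restrict_eq_of_compl hρK]
  exact hf.continuousOn.integrableOn_compact hK

theorem phi_le_phi_add {y y' : ι → E d} {ψ ψ' : ι → ℝ} {x : E d} {c : ℝ}
    (h : ∀ i, inner ℝ x (y i) - ψ i ≤ inner ℝ x (y' i) - ψ' i + c) :
    phi y ψ x ≤ phi y' ψ' x + c := by
  rw [phi_le_iff]
  intro i
  have := le_phi y' ψ' x i
  linarith [h i]

theorem continuous_Kfun {K : Set (E d)} (hK : IsCompact K) (ρ : Measure (E d))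
    [IsProbabilityMeasure ρ] (hρK : ρ Kᶜ = 0) (m : ι → ℝ) (y : ι → E d) :
    Continuous (fun ψ : ι → ℝ => Kfun ρ m y ψ) := by
  unfold Kfun
  refine Continuous.add ?_ (by fun_prop)
  have hi : ∀ ψ : ι → ℝ, Integrable (phi y ψ) ρ := fun ψ =>
    integrable_of_continuous hK ρ hρK _ (continuous_phi y ψ)
  have : LipschitzWith 1 (fun ψ : ι → ℝ => ∫ x, phi y ψ x ∂ρ) := by
    apply LipschitzWith.of_le_add
    intro ψ ψ'
    have h1 : ∀ x, phi y ψ x ≤ phi y ψ' x + dist ψ ψ' := by
      intro x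
      apply phi_le_phi_add
      intro i
      have := dist_le_pi_dist ψ ψ' i
      rw [Real.dist_eq] at this
      have := abs_le.1 this
      linarith [this.1]
    have h2 := integral_mono (hi ψ) ((hi ψ').add (integrable_const (dist ψ ψ'))) h1
    refine h2.trans (le_of_eq ?_)
    rw [integral_add' (hi ψ') (integrable_const _)]
    simp
  exact this.continuous

theorem Kfun_add_const {K : Set (E d)} (hK : IsCompact K) (ρ : Measure (E d))
    [IsProbabilityMeasure ρ] (hρK : ρ Kᶜ = 0) (m : ι → ℝ) (hm1 : ∑ i, m i = 1) (y : ι → E d)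
    (ψ : ι → ℝ) (c : ℝ) : Kfun ρ m y (fun i => ψ i + c) = Kfun ρ m y ψ := by
  have h1 : ∀ x, phi y (fun i => ψ i + c) x = phi y ψ x - c := by
    intro x
    apply le_antisymm
    · rw [phi_le_iff]
      intro i
      have := le_phi y ψ x i
      linarith
    · rw [sub_le_iff_le_add, phi_le_iff]
      intro i
      have := le_phi y (fun i => ψ i + c) x i
      linarith
  unfold Kfun
  simp_rw [h1]
  rw [integral_sub (integrable_of_continuous hK ρ hρK _ (continuous_phi y ψ)) (integrable_const _)]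
  simp only [mul_add, Finset.sum_add_distrib, ← Finset.sum_mul, hm1]
  simp

/-- Existence of optimal potentials, positive weights. -/
theorem exists_minimizer (K : Set (E d)) (hK : IsCompact K) (ρ : Measure (E d))
    [IsProbabilityMeasure ρ] (hρK : ρ Kᶜ = 0)
    (m : ι → ℝ) (hm : ∀ i, 0 < m i) (hm1 : ∑ i, m i = 1) (y : ι → E d) :
    ∃ ψ : ι → ℝ, (∀ ψ' : ι → ℝ, Kfun ρ m y ψ ≤ Kfun ρ m y ψ') := by
  classical
  obtain ⟨R, hR⟩ := hK.isBounded.exists_norm_le
  have hR0 : 0 ≤ R ∨ K = ∅ := by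
    rcases K.eq_empty_or_nonempty with h | ⟨x, hx⟩
    · exact Or.inr h
    · exact Or.inl ((norm_nonneg x).trans (hR x hx))
  -- lower bound
  have hi : ∀ ψ : ι → ℝ, Integrable (phi y ψ) ρ := fun ψ =>
    integrable_of_continuous hK ρ hρK _ (continuous_phi y ψ)
  have haeK : ∀ᵐ x ∂ρ, x ∈ K := by rw [ae_iff]; exact hρK
  have hKne : K.Nonempty := by
    rcases K.eq_empty_or_nonempty with h | h
    · exfalso
      rw [h] at hρK
      simp at hρK
    · exact h
  have hR0 : 0 ≤ R := by
    rcases hR0 with h | h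
    · exact h
    · exact absurd h hKne.ne_empty
  obtain ⟨Q, hQ⟩ : ∃ Q : ℝ, ∀ i, ‖y i‖ ≤ Q :=
    ⟨∑ i, ‖y i‖, fun i => Finset.single_le_sum (f := fun i => ‖y i‖)
      (fun j _ => norm_nonneg _) (Finset.mem_univ i)⟩
  have hin : ∀ x ∈ K, ∀ i, |inner ℝ x (y i)| ≤ R * Q := by
    intro x hx i
    refine (abs_real_inner_le_norm x (y i)).trans ?_
    exact mul_le_mul (hR x hx) (hQ i) (norm_nonneg _) hR0
  have hlow : ∀ (ψ : ι → ℝ) (j : ι), (∀ i, ψ j ≤ ψ i) → ψ j = 0 → ∀ k,
      m k * ψ k - R * Q ≤ Kfun ρ m y ψ := by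
    intro ψ j hj hj0 k
    have h1 : (∫ x, (-(R * Q) : ℝ) ∂ρ) ≤ ∫ x, phi y ψ x ∂ρ := by
      apply integral_mono_ae (integrable_const _) (hi ψ)
      filter_upwards [haeK] with x hx
      have := le_phi y ψ x j
      have h2 := (abs_le.1 (hin x hx j)).1
      rw [hj0] at this
      linarith
    rw [integral_const] at h1
    simp only [probReal_univ, smul_eq_mul, one_mul] at h1
    have h2 : m k * ψ k ≤ ∑ i, m i * ψ i := by
      apply Finset.single_le_sum (f := fun i => m i * ψ i) _ (Finset.mem_univ k)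
      intro i _
      have := hj i
      rw [hj0] at this
      exact mul_nonneg (hm i).le this
    unfold Kfun
    linarith
  -- the box
  obtain ⟨k₀, hk₀⟩ := Finite.exists_min m
  set M : ℝ := max 0 ((Kfun ρ m y (fun _ => 0) + R * Q) / m k₀) with hM
  have hM0 : 0 ≤ M := le_max_left _ _
  obtain ⟨ψ, hψB, hψ⟩ := (isCompact_univ_pi (fun _ : ι => isCompact_Icc (a := (0:ℝ)) (b := M))).exists_isMinOn
    (Set.univ_pi_nonempty_iff.2 fun _ => Set.nonempty_Icc.2 hM0)
    (continuous_Kfun hK ρ hρK m y).continuousOn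
  refine ⟨ψ, fun ψ' => ?_⟩
  obtain ⟨j, hj⟩ := Finite.exists_min ψ'
  have e := Kfun_add_const hK ρ hρK m hm1 y ψ' (- ψ' j)
  rw [← e]
  set φ : ι → ℝ := fun i => ψ' i + - ψ' j with hφ
  have hφj : φ j = 0 := by simp [hφ]
  have hφ0 : ∀ i, 0 ≤ φ i := by
    intro i
    simp only [hφ]
    linarith [hj i]
  by_cases hc : ∀ k, φ k ≤ M
  · apply hψ
    rw [Set.mem_univ_pi]
    intro i
    exact ⟨hφ0 i, hc i⟩
  · push Not at hc
    obtain ⟨k, hk⟩ := hc
    have h1 := hlow φ j (fun i => by rw [hφj]; exact hφ0 i) hφj k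
    have h2 : Kfun ρ m y ψ ≤ Kfun ρ m y (fun _ => 0) := by
      apply hψ
      rw [Set.mem_univ_pi]
      intro i
      exact ⟨le_refl _, hM0⟩
    have h3 : (Kfun ρ m y (fun _ => 0) + R * Q) / m k₀ < φ k :=
      lt_of_le_of_lt (le_max_right _ _) hk
    rw [div_lt_iff₀ (hm k₀)] at h3
    have h4 : φ k * m k₀ ≤ m k * φ k := by
      rw [mul_comm]
      exact mul_le_mul_of_nonneg_right (hk₀ k) (hφ0 k)
    linarith

/-- First order conditions: upper bound for the masses of the cells. -/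
theorem measure_cell_le (K : Set (E d)) (hK : IsCompact K) (ρ : Measure (E d))
    [IsProbabilityMeasure ρ] (hρ : ρ ≪ volume) (hρK : ρ Kᶜ = 0)
    (m : ι → ℝ)
    (y : ι → E d) (hy : Function.Injective y) (ψ : ι → ℝ)
    (hψ : ∀ ψ' : ι → ℝ, Kfun ρ m y ψ ≤ Kfun ρ m y ψ') (i : ι) :
    ρ (cell K y ψ i) ≤ ENNReal.ofReal (m i) := by
  classical
  have hi : ∀ ψ : ι → ℝ, Integrable (phi y ψ) ρ := fun ψ =>
    integrable_of_continuous hK ρ hρK _ (continuous_phi y ψ)
  -- the shrunken cells
  set S : ℝ → Set (E d) := fun t =>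
    {x | x ∈ K ∧ ∀ j, j ≠ i → inner ℝ x (y j) - ψ j ≤ inner ℝ x (y i) - ψ i - t} with hS
  have hSm : ∀ t, MeasurableSet (S t) := by
    intro t
    have : S t = K ∩ ⋂ j, ⋂ (_ : j ≠ i), {x | inner ℝ x (y j) - ψ j ≤ inner ℝ x (y i) - ψ i - t} := by
      ext x
      simp [hS]
    rw [this]
    refine hK.isClosed.measurableSet.inter (MeasurableSet.iInter fun j => MeasurableSet.iInter fun _ => ?_)
    exact (isClosed_le (by fun_prop) (by fun_prop)).measurableSet
  have hSle : ∀ t, 0 < t → ρ.real (S t) ≤ m i := by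
    intro t ht
    have h0 := hψ (Function.update ψ i (ψ i + t))
    have h1 : ∀ x, phi y (Function.update ψ i (ψ i + t)) x ≤
        phi y ψ x - (S t).indicator (fun _ => t) x := by
      intro x
      by_cases hx : x ∈ S t
      · rw [Set.indicator_of_mem hx, phi_le_iff]
        intro j
        by_cases hj : j = i
        · subst hj
          rw [Function.update_self]
          have := le_phi y ψ x j
          linarith
        · rw [Function.update_of_ne hj]
          have h2 := hx.2 j hj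
          have := le_phi y ψ x i
          linarith
      · rw [Set.indicator_of_notMem hx, phi_le_iff]
        intro j
        by_cases hj : j = i
        · subst hj
          rw [Function.update_self]
          have := le_phi y ψ x j
          linarith
        · rw [Function.update_of_ne hj]
          have := le_phi y ψ x j
          linarith
    have h2 : ∫ x, phi y (Function.update ψ i (ψ i + t)) x ∂ρ ≤
        ∫ x, phi y ψ x ∂ρ - t * ρ.real (S t) := by
      have hind : Integrable ((S t).indicator (fun _ => t)) ρ :=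
        (integrable_const t).indicator (hSm t)
      refine (integral_mono (hi _) ((hi ψ).sub hind) h1).trans (le_of_eq ?_)
      rw [integral_sub' (hi ψ) hind, integral_indicator_const _ (hSm t), smul_eq_mul, mul_comm]
    have h3 : ∑ j, m j * Function.update ψ i (ψ i + t) j = ∑ j, m j * ψ j + m i * t := by
      rw [← Finset.add_sum_erase Finset.univ _ (Finset.mem_univ i),
        ← Finset.add_sum_erase Finset.univ (fun j => m j * ψ j) (Finset.mem_univ i)]
      rw [Function.update_self]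
      have : ∑ x ∈ Finset.univ.erase i, m x * Function.update ψ i (ψ i + t) x =
          ∑ x ∈ Finset.univ.erase i, m x * ψ x := by
        apply Finset.sum_congr rfl
        intro j hj
        rw [Function.update_of_ne (Finset.ne_of_mem_erase hj)]
      rw [this]
      ring
    unfold Kfun at h0
    rw [h3] at h0
    have h4 : t * ρ.real (S t) ≤ t * m i := by linarith
    exact le_of_mul_le_mul_left h4 ht
  have hSle' : ∀ t, 0 < t → ρ (S t) ≤ ENNReal.ofReal (m i) := by
    intro t ht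
    rw [← ofReal_measureReal (μ := ρ)]
    exact ENNReal.ofReal_le_ofReal (hSle t ht)
  have hmono : Monotone (fun n : ℕ => S (1 / ((n : ℝ) + 1))) := by
    intro a b hab x hx
    refine ⟨hx.1, fun j hj => (hx.2 j hj).trans ?_⟩
    have : 1 / ((b : ℝ) + 1) ≤ 1 / ((a : ℝ) + 1) := by
      apply one_div_le_one_div_of_le
      · positivity
      · have : (a : ℝ) ≤ b := by exact_mod_cast hab
        linarith
    linarith
  have hU : ρ (⋃ n : ℕ, S (1 / ((n : ℝ) + 1))) ≤ ENNReal.ofReal (m i) := by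
    rw [hmono.measure_iUnion]
    exact iSup_le fun n => hSle' _ (by positivity)
  have hsub : cell K y ψ i ⊆ (⋃ n : ℕ, S (1 / ((n : ℝ) + 1))) ∪
      ⋃ j : {j : ι // j ≠ i}, {x : E d | inner ℝ x (y i - y j) = ψ i - ψ j} := by
    intro x hx
    by_cases hc : ∃ j : ι, j ≠ i ∧ inner ℝ x (y j) - ψ j = inner ℝ x (y i) - ψ i
    · obtain ⟨j, hj, hj2⟩ := hc
      right
      rw [Set.mem_iUnion]
      refine ⟨⟨j, hj⟩, ?_⟩
      show inner ℝ x (y i - y j) = ψ i - ψ j
      rw [inner_sub_right]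
      linarith
    · push Not at hc
      left
      rw [Set.mem_iUnion]
      have h1 : ∀ j : ι, j ≠ i → inner ℝ x (y j) - ψ j < inner ℝ x (y i) - ψ i :=
        fun j hj => lt_of_le_of_ne (hx.2 j) (hc j hj)
      have h2 : ∀ j : ι, ∃ n : ℕ, j ≠ i → ∀ k : ℕ, n ≤ k →
          inner ℝ x (y j) - ψ j ≤ inner ℝ x (y i) - ψ i - 1 / ((k : ℝ) + 1) := by
        intro j
        by_cases hj : j = i
        · exact ⟨0, fun h => absurd hj h⟩
        · obtain ⟨n, hn⟩ := exists_nat_one_div_lt (sub_pos.2 (h1 j hj))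
          refine ⟨n, fun _ k hk => ?_⟩
          have : 1 / ((k : ℝ) + 1) ≤ 1 / ((n : ℝ) + 1) := by
            apply one_div_le_one_div_of_le
            · positivity
            · have : (n : ℝ) ≤ k := by exact_mod_cast hk
              linarith
          linarith
      choose n hn using h2
      refine ⟨Finset.univ.sup n, hx.1, fun j hj => ?_⟩
      exact hn j hj _ (Finset.le_sup (f := n) (Finset.mem_univ j))
  have hnull : ρ (⋃ j : {j : ι // j ≠ i}, {x : E d | inner ℝ x (y i - y j) = ψ i - ψ j}) = 0 := by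
    rw [measure_iUnion_null_iff]
    rintro ⟨j, hj⟩
    apply hρ
    apply volume_hyperplane
    intro h
    exact hj (hy (sub_eq_zero.1 h)).symm
  calc ρ (cell K y ψ i) ≤ _ := measure_mono hsub
    _ ≤ _ := measure_union_le _ _
    _ ≤ ENNReal.ofReal (m i) + 0 := add_le_add hU hnull.le
    _ = _ := add_zero _

/-- Part C. Existence of optimal potentials for a source that is absolutely continuous and carried
by a compact set, distinct atoms with positive weights. -/
theorem exists_optimal_psi (K : Set (E d)) (hK : IsCompact K) (ρ : Measure (E d))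
    [IsProbabilityMeasure ρ] (hρ : ρ ≪ volume) (hρK : ρ Kᶜ = 0)
    (m : ι → ℝ) (hm : ∀ i, 0 < m i) (hm1 : ∑ i, m i = 1)
    (y : ι → E d) (hy : Function.Injective y) :
    ∃ ψ : ι → ℝ, (∀ ψ' : ι → ℝ, Kfun ρ m y ψ ≤ Kfun ρ m y ψ') ∧
      ∀ i, ρ (cell K y ψ i) = ENNReal.ofReal (m i) := by
  obtain ⟨ψ, hψ⟩ := exists_minimizer K hK ρ hρK m hm hm1 y
  refine ⟨ψ, hψ, ?_⟩
  have h1 : ∀ i, ρ.real (cell K y ψ i) ≤ m i := by
    intro i
    have := measure_cell_le K hK ρ hρ hρK m y hy ψ hψ i
    exact ENNReal.toReal_le_of_le_ofReal (hm i).le this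
  have hK1 : ρ.real K = 1 := by
    rw [measureReal_def, (prob_compl_eq_zero_iff hK.isClosed.measurableSet).1 hρK, ENNReal.toReal_one]
  have h2 : 1 ≤ ∑ i, ρ.real (cell K y ψ i) := by
    calc (1 : ℝ) = ρ.real (⋃ i, cell K y ψ i) := by rw [iUnion_cell, hK1]
      _ ≤ _ := measureReal_iUnion_fintype_le _
  have h3 : ∑ i, (m i - ρ.real (cell K y ψ i)) = 0 := by
    apply le_antisymm
    · rw [Finset.sum_sub_distrib, hm1]
      linarith
    · exact Finset.sum_nonneg fun i _ => sub_nonneg.2 (h1 i)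
  rw [Finset.sum_eq_zero_iff_of_nonneg (fun i _ => sub_nonneg.2 (h1 i))] at h3
  intro i
  have := h3 i (Finset.mem_univ i)
  rw [← ofReal_measureReal (μ := ρ)]
  congr 1
  linarith

end Crest.Agent.R082
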