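import Mathlib
import Crest.Agent.R082.Defs
import Crest.Agent.R082.SemiDisc
import Crest.Agent.R082.Unif
import Crest.Agent.R082.Key3

/-!
Row 82, part B: first moments of Laguerre cells are controlled by their masses.
-/

set_option autoImplicit false

open MeasureTheory Set
open scoped ENNReal NNReal
open Crest.AnalysisR.OT

namespace Crest.Agent.R082

open Crest.Agent.Lib.PrekopaLeindler

variable {d : ℕ}

lemma PL_uniformProbOn {K : Set (E d)} (hKc : IsCompact K) (hKv : Convex ℝ K)
    (hKi : (interior K).Nonempty) : PL (E d) (uniformProbOn K) := by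
  unfold uniformProbOn
  refine Key.PL_smul (Key.PL_restrict (PL_euclidean d) hKc.measurableSet hKv) ?_ ?_
  · exact ENNReal.inv_ne_zero.2 hKc.measure_lt_top.ne
  · exact ENNReal.inv_ne_top.2 (volume_ne_zero_of_interior hKi)

/-- Part B (consequence of the key lemma) : first moments of Laguerre cells are controlled by
their masses. -/
theorem moment_bound (K : Set (E d)) (hKc : IsCompact K) (hKv : Convex ℝ K)
    (hKi : (interior K).Nonempty) :
    ∃ C : ℝ, 0 ≤ C ∧ ∀ (ι : Type) [Fintype ι] [Nonempty ι] (y : ι → E d) (_ : Function.Injective y)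
      (ψ ψ' : ι → ℝ),
      ∑ i, ‖(∫ x in cell K y ψ i, x ∂(uniformProbOn K)) - ∫ x in cell K y ψ' i, x ∂(uniformProbOn K)‖ ^ 2 /
          max ((uniformProbOn K).real (cell K y ψ i)) ((uniformProbOn K).real (cell K y ψ' i)) ≤
        C * ∑ i, ((uniformProbOn K).real (cell K y ψ i) - (uniformProbOn K).real (cell K y ψ' i)) ^ 2 /
          max ((uniformProbOn K).real (cell K y ψ i)) ((uniformProbOn K).real (cell K y ψ' i)) := by
  haveI := isProbabilityMeasure_uniformProbOn hKc hKi
  obtain ⟨R0, hR0⟩ := hKc.isBounded.subset_closedBall (0 : E d)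
  set R := max R0 1 with hRdef
  have hRpos : 0 < R := lt_of_lt_of_le one_pos (le_max_right _ _)
  have hKR : K ⊆ Metric.closedBall (0 : E d) R :=
    hR0.trans (Metric.closedBall_subset_closedBall (le_max_left _ _))
  have haeK := ae_mem_uniformProbOn (K := K) hKc.measurableSet
  refine ⟨400 * R ^ 2, by positivity, ?_⟩
  intro ι _ _ y hy ψ ψ'
  -- cells
  have hcelleq : ∀ (φ : ι → ℝ) i, (cell K y φ i : Set (E d)) =ᵐ[uniformProbOn K] Key.cell y φ i := by
    intro φ i
    filter_upwards [haeK] with x hx
    apply propext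
    exact ⟨fun h => h.2, fun h => ⟨hx, h⟩⟩
  have hreal : ∀ (φ : ι → ℝ) i, (uniformProbOn K).real (cell K y φ i) =
      (uniformProbOn K).real (Key.cell y φ i) := fun φ i => measureReal_congr (hcelleq φ i)
  have hnull : ∀ φ : ι → ℝ, ∀ i j, i ≠ j → uniformProbOn K (Key.cell y φ i ∩ Key.cell y φ j) = 0 := by
    intro φ i j hij
    apply uniformProbOn_ac K
    refine measure_mono_null ?_ (volume_hyperplane (y i - y j) (sub_ne_zero.2 (hy.ne hij)) (φ i - φ j))
    rintro x ⟨h1, h2⟩
    have h3 := h1 j
    have h4 := h2 i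
    change inner ℝ x (y i - y j) = φ i - φ j
    rw [inner_sub_right]
    linarith
  set P : ι → E d := fun i => (∫ x in cell K y ψ i, x ∂(uniformProbOn K)) -
    ∫ x in cell K y ψ' i, x ∂(uniformProbOn K) with hP
  set u : ι → E d := fun i => ‖P i‖⁻¹ • P i with hu
  have hu1 : ∀ i, ‖u i‖ ≤ 1 := by
    intro i
    rw [hu]; simp only [norm_smul, norm_inv, norm_norm]
    by_cases h : ‖P i‖ = 0
    · rw [h]; simp
    · rw [inv_mul_cancel₀ h]
  have hPu : ∀ i, inner ℝ (u i) (P i) = ‖P i‖ := by
    intro i
    rw [hu]; simp only [inner_smul_left, RCLike.conj_to_real, real_inner_self_eq_norm_sq]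
    by_cases h : ‖P i‖ = 0
    · rw [h]; simp
    · field_simp
  have hint : ∀ S : Set (E d), Integrable (fun x : E d => x) ((uniformProbOn K).restrict S) := by
    intro S
    refine Integrable.restrict ?_
    refine Integrable.of_bound aestronglyMeasurable_id R ?_
    filter_upwards [haeK] with x hx
    simpa using hKR hx
  have key := Key.key_lemma (ρ := uniformProbOn K) (PL_uniformProbOn hKc hKv hKi) hRpos
    (haeK.mono fun x hx => hKR hx) y ψ ψ' hnull (fun i x => inner ℝ (u i) x)
    (fun i => by fun_prop)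
    (fun i x hx => by
      refine (abs_real_inner_le_norm _ _).trans ?_
      have : ‖x‖ ≤ R := by simpa using hx
      calc ‖u i‖ * ‖x‖ ≤ 1 * R := mul_le_mul (hu1 i) this (norm_nonneg _) zero_le_one
        _ = R := one_mul R)
    (fun i x _ z _ => by
      rw [← inner_sub_right]
      refine (abs_real_inner_le_norm _ _).trans ?_
      calc ‖u i‖ * ‖x - z‖ ≤ 1 * ‖x - z‖ := mul_le_mul_of_nonneg_right (hu1 i) (norm_nonneg _)
        _ = _ := one_mul _)
  have hdiff : ∀ i, ∫ x in Key.cell y ψ i, inner ℝ (u i) x ∂(uniformProbOn K) -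
      ∫ x in Key.cell y ψ' i, inner ℝ (u i) x ∂(uniformProbOn K) = ‖P i‖ := by
    intro i
    rw [← setIntegral_congr_set (hcelleq ψ i), ← setIntegral_congr_set (hcelleq ψ' i),
      integral_inner (hint _), integral_inner (hint _), ← inner_sub_right]
    exact hPu i
  simp only [hdiff, ← hreal] at key
  exact key

end Crest.Agent.R082
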