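import Crest.Agent.R082.Cross
import Crest.Agent.R082.Key

/-!
Row 82: the cross difference estimate (X).
-/

set_option autoImplicit false

open MeasureTheory
open scoped ENNReal NNReal
open Crest.AnalysisR.OT

namespace Crest.Agent.R082

variable {d : ℕ}

/-- Part X. -/
theorem TT_cross_diff_le (K : Set (E d)) (hKc : IsCompact K) (hKv : Convex ℝ K)
    (hKi : (interior K).Nonempty) :
    ∃ C : ℝ, 0 ≤ C ∧ ∀ (ι : Type) [Fintype ι] [Nonempty ι] (m : ι → ℝ) (_ : ∀ i, 0 < m i)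
      (_ : ∑ i, m i = 1) (y z : ι → E d)
      (h : E d → ℝ) (_ : Measurable h) (_ : ∀ x, |h x - 1| ≤ 1 / 2)
      (_ : ∫ x, h x ∂(uniformProbOn K) = 1),
      TT (rhoh K h) m z - TT (rhoh K h) m y - (TT (uniformProbOn K) m z - TT (uniformProbOn K) m y) ≤
        C * Real.sqrt (∫ x, (h x - 1) ^ 2 ∂(uniformProbOn K)) *
          Real.sqrt (∑ i, m i * ‖y i - z i‖ ^ 2) := by
  obtain ⟨R, hR⟩ := hKc.isBounded.exists_norm_le
  obtain ⟨C, hC, hMB⟩ := moment_bound K hKc hKv hKi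
  refine ⟨Real.sqrt (4 * C + 4 * R ^ 2), Real.sqrt_nonneg _, ?_⟩
  intro ι _ _ m hm hm1 y z h hmeas hb h1
  exact TT_cross_diff_le_of_momentBound hKc hKi R hR C hC hMB m hm hm1 y z h hmeas hb h1

end Crest.Agent.R082
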