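import Mathlib
import Crest.Prelude.Def_QuadraticTransport

/-! S0110 helper: box volumes in the cube and the three-cell map. -/

set_option autoImplicit false
open MeasureTheory
open scoped ENNReal NNReal
open Crest.AnalysisR.OT

namespace Crest.Agent.R082.ExA

/-- the cube -/
def Q (d : ℕ) : Set (EuclideanSpace ℝ (Fin d)) := {x | ∀ i, |x i| ≤ 1}

lemma box_volume (d : ℕ) (l u : Fin d → ℝ) :
    volume {x : EuclideanSpace ℝ (Fin d) | ∀ i, l i ≤ x i ∧ x i ≤ u i}
      = ∏ i, ENNReal.ofReal (u i - l i) := by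
  have h := (EuclideanSpace.volume_preserving_symm_measurableEquiv_toLp (Fin d)).measure_preimage
    (s := Set.Icc l u) measurableSet_Icc.nullMeasurableSet
  rw [Real.volume_Icc_pi] at h
  rw [← h]
  congr 1
  ext x
  simp only [Set.mem_ofPred_eq, Set.mem_preimage, Set.mem_Icc, Pi.le_def]
  exact forall_and

lemma Q_eq (d : ℕ) : Q d = {x : EuclideanSpace ℝ (Fin d) | ∀ i, (-1:ℝ) ≤ x i ∧ x i ≤ 1} := by
  ext x
  simp [Q, abs_le]

lemma volume_Q (d : ℕ) : volume (Q d) = 2 ^ d := by
  rw [Q_eq, box_volume]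
  norm_num

lemma measurableSet_box (d : ℕ) (l u : Fin d → ℝ) :
    MeasurableSet {x : EuclideanSpace ℝ (Fin d) | ∀ i, l i ≤ x i ∧ x i ≤ u i} := by
  rw [Set.ofPred_forall]
  refine MeasurableSet.iInter fun i => ?_
  have : Measurable fun x : EuclideanSpace ℝ (Fin d) => x i := by fun_prop
  exact (measurableSet_le measurable_const this).inter (measurableSet_le this measurable_const)

lemma measurableSet_Q (d : ℕ) : MeasurableSet (Q d) := by
  rw [Q_eq]; exact measurableSet_box d _ _

/-- the volume of a box with two special sides. -/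
lemma box_volume_two (d : ℕ) (i0 i1 : Fin d) (h01 : i0 ≠ i1) (l u : Fin d → ℝ) (α β : ℝ)
    (_hα : 0 ≤ α) (_hβ : 0 ≤ β)
    (h0 : u i0 - l i0 = 2 * α) (h1 : u i1 - l i1 = 2 * β)
    (h : ∀ i, i ≠ i0 → i ≠ i1 → u i - l i = 2) :
    volume {x : EuclideanSpace ℝ (Fin d) | ∀ i, l i ≤ x i ∧ x i ≤ u i}
      = volume (Q d) * (ENNReal.ofReal α * ENNReal.ofReal β) := by
  rw [box_volume, volume_Q]
  have h2 : ∀ i, ENNReal.ofReal (u i - l i)
      = 2 * ((if i = i0 then ENNReal.ofReal α else 1) * (if i = i1 then ENNReal.ofReal β else 1)) := by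
    intro i
    by_cases hi0 : i = i0
    · subst hi0
      rw [h0, if_pos rfl, if_neg h01, mul_one, ENNReal.ofReal_mul (by norm_num)]
      norm_num
    · by_cases hi1 : i = i1
      · subst hi1
        rw [h1, if_neg hi0, if_pos rfl, one_mul, ENNReal.ofReal_mul (by norm_num)]
        norm_num
      · rw [h i hi0 hi1, if_neg hi0, if_neg hi1]
        norm_num
  simp_rw [h2]
  rw [Finset.prod_mul_distrib, Finset.prod_mul_distrib]
  simp

end Crest.Agent.R082.ExA
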