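import Mathlib
import Crest.Prelude.Def_QuadraticTransport
import Crest.Agent.R082.ExA

/-! S0110 helper: the three-cell map, its optimality and rigidity. -/

set_option autoImplicit false
open MeasureTheory
open scoped ENNReal NNReal
open Crest.AnalysisR.OT

namespace Crest.Agent.R082.ExB

open Crest.Agent.R082.ExA

variable {d : ℕ}

/-- the uniform probability measure on the cube -/
noncomputable abbrev rho (d : ℕ) : Measure (EuclideanSpace ℝ (Fin d)) := uniformProbOn (Q d)

lemma volume_Q_ne_zero : volume (Q d) ≠ 0 := by rw [volume_Q]; positivity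

lemma volume_Q_ne_top : volume (Q d) ≠ ⊤ := by rw [volume_Q]; finiteness

instance : IsProbabilityMeasure (rho d) := by
  refine ⟨?_⟩
  simp only [rho, uniformProbOn, Measure.smul_apply, smul_eq_mul, Measure.restrict_apply MeasurableSet.univ,
    Set.univ_inter]
  exact ENNReal.inv_mul_cancel volume_Q_ne_zero volume_Q_ne_top

lemma rho_apply {s : Set (EuclideanSpace ℝ (Fin d))} (hs : MeasurableSet s) :
    rho d s = (volume (Q d))⁻¹ * volume (s ∩ Q d) := by
  simp [rho, uniformProbOn, Measure.restrict_apply hs]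

lemma ae_mem_Q : ∀ᵐ x ∂(rho d), x ∈ Q d := by
  have h : ∀ᵐ x ∂(volume.restrict (Q d)), x ∈ Q d := ae_restrict_mem (measurableSet_Q d)
  exact (Measure.smul_absolutelyContinuous).ae_le h

/-- the unit vector in direction i -/
noncomputable abbrev sv (i : Fin d) : EuclideanSpace ℝ (Fin d) := EuclideanSpace.single i (1:ℝ)

open Classical in
/-- The three-cell map. -/
noncomputable def Tm (i0 i1 : Fin d) (δ t : ℝ) (x : EuclideanSpace ℝ (Fin d)) :
    EuclideanSpace ℝ (Fin d) :=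
  if |x i0| ≤ δ + t * x i1 then t • sv i1 else if 0 < x i0 then sv i0 else - sv i0

lemma measurable_coord (i : Fin d) : Measurable fun x : EuclideanSpace ℝ (Fin d) => x i := by
  fun_prop

lemma measurable_Tm (i0 i1 : Fin d) (δ t : ℝ) : Measurable (Tm i0 i1 δ t) := by
  unfold Tm
  refine Measurable.ite ?_ measurable_const (Measurable.ite ?_ measurable_const measurable_const)
  · exact measurableSet_le (by fun_prop) (by fun_prop)
  · exact measurableSet_lt (by fun_prop) (by fun_prop)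

/-- the dual potential on the source side -/
noncomputable def ph (i0 i1 : Fin d) (δ t : ℝ) (x : EuclideanSpace ℝ (Fin d)) : ℝ :=
  max (|x i0| - δ) (t * x i1)

open Classical in
/-- the dual potential on the target side -/
noncomputable def ps (i1 : Fin d) (δ t : ℝ) (y : EuclideanSpace ℝ (Fin d)) : ℝ :=
  if y = t • sv i1 then 0 else δ

/-- the duality gap -/
noncomputable def gap (i0 i1 : Fin d) (δ t : ℝ) (x y : EuclideanSpace ℝ (Fin d)) : ℝ :=
  2 * (ph i0 i1 δ t x - inner ℝ x y + ps i1 δ t y)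

/-- the three atoms as a set -/
def atoms (i0 i1 : Fin d) (t : ℝ) : Set (EuclideanSpace ℝ (Fin d)) :=
  {t • sv i1, sv i0, - sv i0}

lemma inner_sv (x : EuclideanSpace ℝ (Fin d)) (i : Fin d) : inner ℝ x (sv i) = x i := by
  rw [EuclideanSpace.inner_single_right]; simp

lemma inner_t_sv (x : EuclideanSpace ℝ (Fin d)) (i : Fin d) (t : ℝ) :
    inner ℝ x (t • sv i) = t * x i := by
  rw [inner_smul_right, inner_sv]

lemma inner_neg_sv (x : EuclideanSpace ℝ (Fin d)) (i : Fin d) :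
    inner ℝ x (- sv i) = - x i := by
  rw [inner_neg_right, inner_sv]

section distinct
variable {i0 i1 : Fin d} (h01 : i0 ≠ i1)
include h01

lemma sv_ne (t : ℝ) : sv i0 ≠ t • sv i1 := by
  intro h
  have := congrArg (fun v : EuclideanSpace ℝ (Fin d) => v i0) h
  simp [h01] at this

lemma neg_sv_ne (t : ℝ) : - sv i0 ≠ t • sv i1 := by
  intro h
  have := congrArg (fun v : EuclideanSpace ℝ (Fin d) => v i0) h
  simp [h01] at this

omit h01 in
lemma sv_ne_neg : sv i0 ≠ - sv i0 := by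
  intro h
  have := congrArg (fun v : EuclideanSpace ℝ (Fin d) => v i0) h
  simp at this
  linarith

omit h01 in
lemma gap_mid (δ t : ℝ) (x : EuclideanSpace ℝ (Fin d)) :
    gap i0 i1 δ t x (t • sv i1) = 2 * (ph i0 i1 δ t x - t * x i1) := by
  simp [gap, ps, inner_t_sv]

lemma gap_pos (δ t : ℝ) (x : EuclideanSpace ℝ (Fin d)) :
    gap i0 i1 δ t x (sv i0) = 2 * (ph i0 i1 δ t x - x i0 + δ) := by
  rw [gap, ps, if_neg (sv_ne h01 t), inner_sv]

lemma gap_neg (δ t : ℝ) (x : EuclideanSpace ℝ (Fin d)) :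
    gap i0 i1 δ t x (- sv i0) = 2 * (ph i0 i1 δ t x + x i0 + δ) := by
  rw [gap, ps, if_neg (neg_sv_ne h01 t), inner_neg_sv]
  ring

lemma gap_nonneg (δ t : ℝ) (x y : EuclideanSpace ℝ (Fin d)) (hy : y ∈ atoms i0 i1 t) :
    0 ≤ gap i0 i1 δ t x y := by
  rcases hy with rfl | rfl | rfl
  · rw [gap_mid]
    have : t * x i1 ≤ ph i0 i1 δ t x := le_max_right _ _
    linarith
  · rw [gap_pos h01]
    have : |x i0| - δ ≤ ph i0 i1 δ t x := le_max_left _ _
    have := le_abs_self (x i0)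
    linarith
  · rw [gap_neg h01]
    have : |x i0| - δ ≤ ph i0 i1 δ t x := le_max_left _ _
    have := neg_abs_le (x i0)
    linarith

lemma gap_Tm (δ t : ℝ) (x : EuclideanSpace ℝ (Fin d)) :
    gap i0 i1 δ t x (Tm i0 i1 δ t x) = 0 := by
  unfold Tm
  split_ifs with h1 h2
  · rw [gap_mid, ph, max_eq_right (by linarith)]; ring
  · rw [gap_pos h01, ph, max_eq_left (by linarith), abs_of_pos h2]; ring
  · rw [gap_neg h01, ph, max_eq_left (by linarith), abs_of_nonpos (by linarith)]; ring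

end distinct

lemma Tm_mem_atoms (i0 i1 : Fin d) (δ t : ℝ) (x : EuclideanSpace ℝ (Fin d)) :
    Tm i0 i1 δ t x ∈ atoms i0 i1 t := by
  unfold Tm atoms
  split_ifs <;> simp

lemma measurableSet_atoms (i0 i1 : Fin d) (t : ℝ) : MeasurableSet (atoms i0 i1 t) := by
  unfold atoms
  exact (Set.toFinite _).measurableSet

/-- any map with the same image measure takes values in the atoms a.e. -/
lemma ae_mem_atoms {i0 i1 : Fin d} {δ t : ℝ} {S : EuclideanSpace ℝ (Fin d) → EuclideanSpace ℝ (Fin d)}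
    (hS : Measurable S) (h : (rho d).map S = (rho d).map (Tm i0 i1 δ t)) :
    ∀ᵐ x ∂(rho d), S x ∈ atoms i0 i1 t := by
  have h1 : (rho d).map (Tm i0 i1 δ t) (atoms i0 i1 t)ᶜ = 0 := by
    rw [Measure.map_apply (measurable_Tm _ _ _ _) (measurableSet_atoms _ _ _).compl]
    convert measure_empty (μ := rho d)
    ext x
    simp [Tm_mem_atoms]
  rw [← h, Measure.map_apply hS (measurableSet_atoms _ _ _).compl] at h1
  exact h1

lemma abs_coord_le (x : EuclideanSpace ℝ (Fin d)) (hx : x ∈ Q d) (i : Fin d) : |x i| ≤ 1 := hx i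

lemma measurable_ph (i0 i1 : Fin d) (δ t : ℝ) : Measurable (ph i0 i1 δ t) := by
  unfold ph; fun_prop

lemma measurable_ps (i1 : Fin d) (δ t : ℝ) : Measurable (ps (d := d) i1 δ t) := by
  unfold ps
  exact Measurable.ite (measurableSet_singleton _) measurable_const measurable_const

/-- the cost identity -/
lemma cost_identity (i0 i1 : Fin d) (δ t : ℝ) (x y : EuclideanSpace ℝ (Fin d)) :
    ‖x - y‖ ^ 2 + (2 * δ + 2)
      = (‖x‖ ^ 2 - 2 * ph i0 i1 δ t x + 2) + (‖y‖ ^ 2 + 2 * (δ - ps i1 δ t y)) + gap i0 i1 δ t x y := by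
  rw [gap, norm_sub_sq_real]
  ring

/-- the splitting of the cost of any admissible map -/
lemma cost_split {i0 i1 : Fin d} (h01 : i0 ≠ i1) {δ t : ℝ} (hδ : 0 ≤ δ) (hδ1 : δ ≤ 1) (ht : |t| ≤ 1)
    {S : EuclideanSpace ℝ (Fin d) → EuclideanSpace ℝ (Fin d)}
    (hS : Measurable S) (h : (rho d).map S = (rho d).map (Tm i0 i1 δ t)) :
    ∫⁻ x, ‖x - S x‖ₑ ^ 2 ∂(rho d) + ENNReal.ofReal (2 * δ + 2)
      = (∫⁻ x, ENNReal.ofReal (‖x‖ ^ 2 - 2 * ph i0 i1 δ t x + 2) ∂(rho d)
        + ∫⁻ y, ENNReal.ofReal (‖y‖ ^ 2 + 2 * (δ - ps i1 δ t y)) ∂((rho d).map (Tm i0 i1 δ t)))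
        + ∫⁻ x, ENNReal.ofReal (gap i0 i1 δ t x (S x)) ∂(rho d) := by
  have hmps : Measurable (ps (d := d) i1 δ t) := measurable_ps i1 δ t
  have hmph : Measurable (ph i0 i1 δ t) := measurable_ph i0 i1 δ t
  have hps : ∀ y : EuclideanSpace ℝ (Fin d), ps i1 δ t y ≤ δ := by
    intro y; unfold ps; split_ifs <;> linarith
  rw [← h, lintegral_map (by fun_prop) hS]
  rw [← lintegral_add_left (by fun_prop), ← lintegral_add_left (by fun_prop)]
  have h1 : ENNReal.ofReal (2 * δ + 2) = ∫⁻ _x, ENNReal.ofReal (2 * δ + 2) ∂(rho d) := by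
    simp
  rw [h1, ← lintegral_add_right _ measurable_const]
  refine lintegral_congr_ae ?_
  filter_upwards [ae_mem_atoms hS h, ae_mem_Q (d := d)] with x hx hxQ
  have hg : 0 ≤ gap i0 i1 δ t x (S x) := gap_nonneg h01 δ t x _ hx
  have hph : ph i0 i1 δ t x ≤ 1 := by
    unfold ph
    have h0 := hxQ i0
    have h1 := hxQ i1
    refine max_le (by linarith) ?_
    calc t * x i1 ≤ |t * x i1| := le_abs_self _
      _ = |t| * |x i1| := abs_mul _ _
      _ ≤ 1 * 1 := by gcongr
      _ = 1 := by norm_num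
  have hx2 : 0 ≤ ‖x‖ ^ 2 - 2 * ph i0 i1 δ t x + 2 := by nlinarith [sq_nonneg ‖x‖]
  have hy2 : 0 ≤ ‖S x‖ ^ 2 + 2 * (δ - ps i1 δ t (S x)) := by
    have := hps (S x); nlinarith [sq_nonneg ‖S x‖]
  rw [← ENNReal.ofReal_add hx2 hy2, ← ENNReal.ofReal_add (by positivity) hg, ← cost_identity,
    ENNReal.ofReal_add (p := ‖x - S x‖ ^ 2) (by positivity) (by positivity),
    ENNReal.ofReal_pow (norm_nonneg _), ofReal_norm]

end Crest.Agent.R082.ExB
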