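import Mathlib
import Crest.Prelude.Def_QuadraticTransport
import Crest.Agent.R082.ExB

/-! S0110 helper: optimality, rigidity, reflection, atoms, final estimate. -/

set_option autoImplicit false
open MeasureTheory
open scoped ENNReal NNReal
open Crest.AnalysisR.OT

namespace Crest.Agent.R082.ExC

open Crest.Agent.R082.ExA Crest.Agent.R082.ExB

variable {d : ℕ}

/-- the common part of the cost -/
noncomputable def base (i0 i1 : Fin d) (δ t : ℝ) : ℝ≥0∞ :=
  (∫⁻ x, ENNReal.ofReal (‖x‖ ^ 2 - 2 * ph i0 i1 δ t x + 2) ∂(rho d)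
        + ∫⁻ y, ENNReal.ofReal (‖y‖ ^ 2 + 2 * (δ - ps i1 δ t y)) ∂((rho d).map (Tm i0 i1 δ t)))

lemma Tm_optimal {i0 i1 : Fin d} (h01 : i0 ≠ i1) {δ t : ℝ} (hδ : 0 ≤ δ) (hδ1 : δ ≤ 1) (ht : |t| ≤ 1) :
    IsOptimalMap (rho d) ((rho d).map (Tm i0 i1 δ t)) (Tm i0 i1 δ t) := by
  refine ⟨measurable_Tm _ _ _ _, rfl, fun S hS h => ?_⟩
  have h1 := cost_split h01 hδ hδ1 ht hS h
  have h2 := cost_split h01 hδ hδ1 ht (measurable_Tm i0 i1 δ t) rfl
  simp only [gap_Tm h01, ENNReal.ofReal_zero, lintegral_zero, add_zero] at h2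
  rw [← ENNReal.add_le_add_iff_right (a := ENNReal.ofReal (2 * δ + 2)) ENNReal.ofReal_ne_top, h1, h2]
  exact le_self_add

lemma bounded_norm (x : EuclideanSpace ℝ (Fin d)) (hx : x ∈ Q d) : ‖x‖ ≤ Real.sqrt d := by
  rw [EuclideanSpace.norm_eq]
  apply Real.sqrt_le_sqrt
  calc ∑ i, ‖x i‖ ^ 2 ≤ ∑ _i : Fin d, (1:ℝ) := by
        refine Finset.sum_le_sum fun i _ => ?_
        have := hx i
        rw [Real.norm_eq_abs]
        nlinarith [abs_nonneg (x i)]
    _ = d := by simp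

lemma cost_ne_top {i0 i1 : Fin d} {δ t : ℝ} (ht : |t| ≤ 1) :
    ∫⁻ x, ‖x - Tm i0 i1 δ t x‖ₑ ^ 2 ∂(rho d) ≠ ⊤ := by
  have h : ∫⁻ x, ‖x - Tm i0 i1 δ t x‖ₑ ^ 2 ∂(rho d)
      ≤ ∫⁻ _x, ENNReal.ofReal ((Real.sqrt d + 1) ^ 2) ∂(rho d) := by
    refine lintegral_mono_ae ?_
    filter_upwards [ae_mem_Q (d := d)] with x hx
    rw [← ofReal_norm, ← ENNReal.ofReal_pow (norm_nonneg _)]
    apply ENNReal.ofReal_le_ofReal
    have h1 : ‖Tm i0 i1 δ t x‖ ≤ 1 := by
      rcases Tm_mem_atoms i0 i1 δ t x with h | h | h <;> rw [h]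
      · rw [norm_smul]; simpa using ht
      · simp
      · simp
    have h2 : ‖x - Tm i0 i1 δ t x‖ ≤ Real.sqrt d + 1 :=
      (norm_sub_le _ _).trans (add_le_add (bounded_norm x hx) h1)
    gcongr
  refine ne_top_of_le_ne_top ?_ h
  simp

/-- rigidity of optimal maps -/
lemma optimal_gap_zero {i0 i1 : Fin d} (h01 : i0 ≠ i1) {δ t : ℝ} (hδ : 0 ≤ δ) (hδ1 : δ ≤ 1)
    (ht : |t| ≤ 1) {S : EuclideanSpace ℝ (Fin d) → EuclideanSpace ℝ (Fin d)}
    (hS : IsOptimalMap (rho d) ((rho d).map (Tm i0 i1 δ t)) S) :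
    ∀ᵐ x ∂(rho d), S x ∈ atoms i0 i1 t ∧ gap i0 i1 δ t x (S x) = 0 := by
  obtain ⟨hSm, hSmap, hSopt⟩ := hS
  have h1 := cost_split h01 hδ hδ1 ht hSm hSmap
  have h2 := cost_split h01 hδ hδ1 ht (measurable_Tm i0 i1 δ t) rfl
  simp only [gap_Tm h01, ENNReal.ofReal_zero, lintegral_zero, add_zero] at h2
  have h3 := hSopt _ (measurable_Tm i0 i1 δ t) rfl
  have h4 : (base i0 i1 δ t) ≠ ⊤ := by
    rw [base, ← h2]
    exact ENNReal.add_ne_top.2 ⟨cost_ne_top ht, ENNReal.ofReal_ne_top⟩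
  have h5 : base i0 i1 δ t + ∫⁻ x, ENNReal.ofReal (gap i0 i1 δ t x (S x)) ∂(rho d)
      ≤ base i0 i1 δ t + 0 := by
    rw [add_zero, base, ← h1, ← h2]
    gcongr
  have h6 : ∫⁻ x, ENNReal.ofReal (gap i0 i1 δ t x (S x)) ∂(rho d) = 0 := by
    have := (ENNReal.add_le_add_iff_left h4).1 h5
    exact le_antisymm this (zero_le)
  have hm : Measurable fun x => ENNReal.ofReal (gap i0 i1 δ t x (S x)) := by
    unfold gap
    have := measurable_ph i0 i1 δ t
    have := (measurable_ps (d := d) i1 δ t).comp hSm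
    have h : Measurable fun x : EuclideanSpace ℝ (Fin d) => inner ℝ x (S x) :=
      measurable_id.inner hSm
    simp only [Function.comp_def] at this
    fun_prop
  rw [lintegral_eq_zero_iff hm] at h6
  filter_upwards [h6, ae_mem_atoms hSm hSmap] with x hx hxa
  refine ⟨hxa, le_antisymm ?_ (gap_nonneg h01 δ t x _ hxa)⟩
  simpa using hx

open Classical in
/-- reflection of one coordinate -/
noncomputable def Rf (i1 : Fin d) : EuclideanSpace ℝ (Fin d) ≃ₗᵢ[ℝ] EuclideanSpace ℝ (Fin d) :=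
  LinearIsometryEquiv.piLpCongrRight 2 (fun i => if i = i1 then LinearIsometryEquiv.neg ℝ else
    LinearIsometryEquiv.refl ℝ ℝ)

lemma Rf_apply_self (i1 : Fin d) (x : EuclideanSpace ℝ (Fin d)) : Rf i1 x i1 = - x i1 := by
  simp [Rf]

lemma Rf_apply_ne (i1 : Fin d) (x : EuclideanSpace ℝ (Fin d)) {i : Fin d} (h : i ≠ i1) :
    Rf i1 x i = x i := by
  simp [Rf, h]

lemma Rf_sv_self (i1 : Fin d) (t : ℝ) : Rf i1 (t • sv i1) = (-t) • sv i1 := by
  ext i
  by_cases h : i = i1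
  · subst h; simp [Rf_apply_self]
  · rw [Rf_apply_ne _ _ h]; simp [h]

lemma Rf_sv_ne {i0 i1 : Fin d} (h01 : i0 ≠ i1) : Rf i1 (sv i0) = sv i0 := by
  ext i
  by_cases h : i = i1
  · subst h; simp [Rf_apply_self, h01.symm]
  · rw [Rf_apply_ne _ _ h]

lemma Rf_preimage_Q (i1 : Fin d) : Rf i1 ⁻¹' (Q d) = Q d := by
  ext x
  simp only [Set.mem_preimage, Q, Set.mem_ofPred_eq]
  refine forall_congr' fun i => ?_
  by_cases h : i = i1
  · subst h; rw [Rf_apply_self, abs_neg]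
  · rw [Rf_apply_ne _ _ h]

lemma rho_map_Rf (i1 : Fin d) : (rho d).map (Rf i1) = rho d := by
  have h1 := (LinearIsometryEquiv.measurePreserving (Rf i1)).restrict_preimage (measurableSet_Q d)
  rw [Rf_preimage_Q] at h1
  have h2 : Measure.map (Rf i1) (volume.restrict (Q d)) = volume.restrict (Q d) := h1.map_eq
  simp only [rho, uniformProbOn, Measure.map_smul, h2]

lemma measurable_Rf (i1 : Fin d) : Measurable (Rf i1) := (Rf i1).continuous.measurable

/-- the reflected map -/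
lemma Tm_reflect {i0 i1 : Fin d} (h01 : i0 ≠ i1) (δ t : ℝ) (x : EuclideanSpace ℝ (Fin d)) :
    Tm i0 i1 δ (-t) (Rf i1 x) = Rf i1 (Tm i0 i1 δ t x) := by
  unfold Tm
  rw [Rf_apply_self, Rf_apply_ne _ _ h01]
  have h : -t * -x i1 = t * x i1 := by ring
  rw [h]
  split_ifs
  · rw [Rf_sv_self]
  · rw [Rf_sv_ne h01]
  · rw [map_neg, Rf_sv_ne h01]

lemma map_Tm_neg {i0 i1 : Fin d} (h01 : i0 ≠ i1) (δ t : ℝ) :
    (rho d).map (Tm i0 i1 δ (-t)) = ((rho d).map (Tm i0 i1 δ t)).map (Rf i1) := by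
  rw [Measure.map_map (measurable_Rf i1) (measurable_Tm _ _ _ _)]
  conv_lhs => rw [← rho_map_Rf i1]
  rw [Measure.map_map (measurable_Tm _ _ _ _) (measurable_Rf i1)]
  congr 1
  funext x
  exact Tm_reflect h01 δ t x

/-- the coupling -/
noncomputable def cpl (i0 i1 : Fin d) (δ t : ℝ) :
    Measure (EuclideanSpace ℝ (Fin d) × EuclideanSpace ℝ (Fin d)) :=
  ((rho d).map (Tm i0 i1 δ t)).map (fun y => (y, Rf i1 y))

lemma cpl_isPairCoupling {i0 i1 : Fin d} (h01 : i0 ≠ i1) (δ t : ℝ) :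
    IsPairCoupling ((rho d).map (Tm i0 i1 δ t)) ((rho d).map (Tm i0 i1 δ (-t))) (cpl i0 i1 δ t) := by
  have hm : Measurable (fun y : EuclideanSpace ℝ (Fin d) => (y, Rf i1 y)) :=
    measurable_id.prodMk (measurable_Rf i1)
  constructor
  · rw [cpl, Measure.map_map measurable_fst hm]
    exact Measure.map_id
  · rw [cpl, Measure.map_map measurable_snd hm, map_Tm_neg h01]
    rfl

/-- the middle cell -/
def midCell (i0 i1 : Fin d) (δ t : ℝ) : Set (EuclideanSpace ℝ (Fin d)) :=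
  {x | |x i0| ≤ δ + t * x i1}

lemma measurableSet_midCell (i0 i1 : Fin d) (δ t : ℝ) : MeasurableSet (midCell i0 i1 δ t) :=
  measurableSet_le (by fun_prop) (by fun_prop)

lemma quadCost_cpl {i0 i1 : Fin d} (h01 : i0 ≠ i1) (δ t : ℝ) :
    quadCost (cpl i0 i1 δ t) = ENNReal.ofReal (4 * t ^ 2) * rho d (midCell i0 i1 δ t) := by
  have hm : Measurable (fun y : EuclideanSpace ℝ (Fin d) => (y, Rf i1 y)) :=
    measurable_id.prodMk (measurable_Rf i1)
  have hm2 : Measurable fun p : EuclideanSpace ℝ (Fin d) × EuclideanSpace ℝ (Fin d) =>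
      ‖p.1 - p.2‖ₑ ^ 2 := by fun_prop
  rw [quadCost, cpl, lintegral_map hm2 hm, lintegral_map (by
    have := hm2.comp hm
    exact this) (measurable_Tm _ _ _ _)]
  rw [← lintegral_indicator_const (measurableSet_midCell i0 i1 δ t)]
  refine lintegral_congr fun x => ?_
  by_cases hx : x ∈ midCell i0 i1 δ t
  · rw [Set.indicator_of_mem hx]
    have hx' : |x i0| ≤ δ + t * x i1 := hx
    have h1 : Tm i0 i1 δ t x = t • sv i1 := by
      unfold Tm; rw [if_pos hx']
    rw [h1, Rf_sv_self, ← ofReal_norm, ← ENNReal.ofReal_pow (norm_nonneg _)]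
    congr 1
    have : t • sv i1 - (-t) • sv i1 = (2 * t) • sv i1 := by
      rw [← sub_smul]; congr 1; ring
    rw [this, norm_smul]
    simp [mul_pow]
    norm_num
  · rw [Set.indicator_of_notMem hx]
    have hx' : ¬ |x i0| ≤ δ + t * x i1 := hx
    have h1 : Rf i1 (Tm i0 i1 δ t x) = Tm i0 i1 δ t x := by
      unfold Tm
      rw [if_neg hx']
      split_ifs
      · exact Rf_sv_ne h01
      · rw [map_neg, Rf_sv_ne h01]
    rw [h1]; simp

/-- upper bound for the mass of the middle cell -/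
lemma midCell_le {i0 i1 : Fin d} (h01 : i0 ≠ i1) {δ t : ℝ} (hδ : 0 ≤ δ) (ht : |t| ≤ δ) :
    rho d (midCell i0 i1 δ t) ≤ ENNReal.ofReal (2 * δ) := by
  rw [rho_apply (measurableSet_midCell _ _ _ _)]
  classical
  set l : Fin d → ℝ := fun i => if i = i0 then - (2 * δ) else -1 with hl
  set u : Fin d → ℝ := fun i => if i = i0 then (2 * δ) else 1 with hu
  have h1 : midCell i0 i1 δ t ∩ Q d ⊆ {x | ∀ i, l i ≤ x i ∧ x i ≤ u i} := by
    rintro x ⟨hx, hxQ⟩ i
    have hx' : |x i0| ≤ δ + t * x i1 := hx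
    have h2 := hxQ i
    by_cases h : i = i0
    · subst h
      simp only [hl, hu, if_true]
      have h3 : t * x i1 ≤ δ := by
        calc t * x i1 ≤ |t * x i1| := le_abs_self _
          _ = |t| * |x i1| := abs_mul _ _
          _ ≤ δ * 1 := by gcongr; exact hxQ i1
          _ = δ := by ring
      have := abs_le.1 (hx'.trans (by linarith : δ + t * x i1 ≤ 2 * δ))
      exact this
    · simp only [hl, hu, h, if_false]
      exact abs_le.1 h2
  calc (volume (Q d))⁻¹ * volume (midCell i0 i1 δ t ∩ Q d)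
      ≤ (volume (Q d))⁻¹ * volume {x : EuclideanSpace ℝ (Fin d) | ∀ i, l i ≤ x i ∧ x i ≤ u i} := by
        gcongr
    _ = (volume (Q d))⁻¹ * (volume (Q d) * (ENNReal.ofReal (2 * δ) * ENNReal.ofReal 1)) := by
        rw [box_volume_two d i0 i1 h01 l u (2 * δ) 1 (by linarith) (by norm_num)]
        · simp only [hl, hu, if_true]; ring
        · simp only [hl, hu, h01.symm, if_false]; ring
        · intro i hi0 hi1
          simp only [hl, hu, hi0, if_false]; ring
    _ = ENNReal.ofReal (2 * δ) := by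
        rw [← mul_assoc, ENNReal.inv_mul_cancel volume_Q_ne_zero volume_Q_ne_top]
        simp

/-- the comparison box -/
def cbox (i0 i1 : Fin d) (δ : ℝ) : Set (EuclideanSpace ℝ (Fin d)) :=
  {x | (∀ i, |x i| ≤ 1) ∧ 5 / 8 * δ ≤ x i0 ∧ x i0 ≤ 11 / 8 * δ ∧ 1 / 2 ≤ x i1}

lemma measurableSet_cbox (i0 i1 : Fin d) (δ : ℝ) : MeasurableSet (cbox i0 i1 δ) := by
  have h : cbox i0 i1 δ = Q d ∩ ({x | 5 / 8 * δ ≤ x i0} ∩ ({x | x i0 ≤ 11 / 8 * δ} ∩ {x | 1 / 2 ≤ x i1})) := by
    rfl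
  rw [h]
  refine (measurableSet_Q d).inter (MeasurableSet.inter ?_ (MeasurableSet.inter ?_ ?_))
  · exact measurableSet_le measurable_const (by fun_prop)
  · exact measurableSet_le (by fun_prop) measurable_const
  · exact measurableSet_le measurable_const (by fun_prop)

lemma cbox_ge {i0 i1 : Fin d} (h01 : i0 ≠ i1) {δ : ℝ} (hδ : 0 < δ) (hδ1 : δ ≤ 1 / 4) :
    ENNReal.ofReal (3 / 32 * δ) ≤ rho d (cbox i0 i1 δ) := by
  rw [rho_apply (measurableSet_cbox _ _ _)]
  classical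
  set l : Fin d → ℝ := fun i => if i = i0 then 5 / 8 * δ else if i = i1 then 1 / 2 else -1 with hl
  set u : Fin d → ℝ := fun i => if i = i0 then 11 / 8 * δ else 1 with hu
  have h1 : {x : EuclideanSpace ℝ (Fin d) | ∀ i, l i ≤ x i ∧ x i ≤ u i} ⊆ cbox i0 i1 δ ∩ Q d := by
    intro x hx
    have hQ : ∀ i, |x i| ≤ 1 := by
      intro i
      have h2 := hx i
      rw [abs_le]
      by_cases hi0 : i = i0
      · subst hi0
        simp only [hl, hu, if_true] at h2
        constructor <;> linarith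
      · by_cases hi1 : i = i1
        · subst hi1
          simp only [hl, hu, hi0, if_true, if_false] at h2
          constructor <;> linarith
        · simp only [hl, hu, hi0, hi1, if_false] at h2
          exact h2
    have h0 := hx i0
    have h1 := hx i1
    simp only [hl, hu, if_true, h01.symm, if_false] at h0 h1
    exact ⟨⟨hQ, h0.1, h0.2, h1.1⟩, hQ⟩
  calc ENNReal.ofReal (3 / 32 * δ)
      = (volume (Q d))⁻¹ * (volume (Q d) * (ENNReal.ofReal (3 / 8 * δ) * ENNReal.ofReal (1 / 4))) := by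
        rw [← mul_assoc, ENNReal.inv_mul_cancel volume_Q_ne_zero volume_Q_ne_top, one_mul,
          ← ENNReal.ofReal_mul (by positivity)]
        congr 1; ring
    _ = (volume (Q d))⁻¹ * volume {x : EuclideanSpace ℝ (Fin d) | ∀ i, l i ≤ x i ∧ x i ≤ u i} := by
        rw [box_volume_two d i0 i1 h01 l u (3 / 8 * δ) (1 / 4) (by positivity) (by norm_num)]
        · simp only [hl, hu, if_true]; ring
        · simp only [hl, hu, h01.symm, if_true, if_false]; ring
        · intro i hi0 hi1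
          simp only [hl, hu, hi0, hi1, if_false]; ring
    _ ≤ _ := by gcongr

/-- a map with three values has a three-atomic image -/
lemma map_eq_sum {X : Type*} [MeasurableSpace X] (P : Measure X) [IsProbabilityMeasure P]
    {T : X → EuclideanSpace ℝ (Fin d)} (hT : Measurable T) (y : Fin 3 → EuclideanSpace ℝ (Fin d))
    (hy : Function.Injective y) (hTy : ∀ x, ∃ i, T x = y i) :
    P.map T = ∑ i, ENNReal.ofReal (P.real (T ⁻¹' {y i})) • Measure.dirac (y i) := by
  classical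
  ext s hs
  rw [Measure.map_apply hT hs]
  simp only [Measure.coe_finsetSum, Finset.sum_apply, Measure.smul_apply, smul_eq_mul,
    ofReal_measureReal, Measure.dirac_apply' _ hs]
  have h1 : T ⁻¹' s = ⋃ i ∈ (Finset.univ.filter fun i => y i ∈ s), T ⁻¹' {y i} := by
    ext x
    simp only [Set.mem_preimage, Finset.mem_filter, Finset.mem_univ, true_and, Set.mem_iUnion,
      Set.mem_singleton_iff, exists_prop]
    constructor
    · intro hx
      obtain ⟨i, hi⟩ := hTy x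
      exact ⟨i, hi ▸ hx, hi⟩
    · rintro ⟨i, hi, hxi⟩
      rw [hxi]; exact hi
  rw [h1, measure_biUnion_finset]
  · rw [Finset.sum_filter]
    refine Finset.sum_congr rfl fun i _ => ?_
    by_cases h : y i ∈ s
    · simp [h]
    · simp [h]
  · intro i _ j _ hij
    refine Set.disjoint_left.2 fun x hxi hxj => hij (hy ?_)
    simp only [Set.mem_preimage, Set.mem_singleton_iff] at hxi hxj
    rw [← hxi, ← hxj]
  · intro i _
    exact hT (measurableSet_singleton _)

/-- open subsets of the cube have positive mass -/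
lemma rho_pos_of_open {U s : Set (EuclideanSpace ℝ (Fin d))} (hU : IsOpen U) (hne : U.Nonempty)
    (hUQ : U ⊆ Q d) (hUs : U ⊆ s) : 0 < (rho d).real s := by
  have h1 : 0 < rho d U := by
    rw [rho_apply hU.measurableSet, Set.inter_eq_left.2 hUQ]
    exact ENNReal.mul_pos (ENNReal.inv_ne_zero.2 volume_Q_ne_top) (hU.measure_pos _ hne).ne'
  have h2 : 0 < rho d s := h1.trans_le (measure_mono hUs)
  exact ENNReal.toReal_pos h2.ne' (measure_ne_top _ _)

lemma isOpen_cube : IsOpen {x : EuclideanSpace ℝ (Fin d) | ∀ i, |x i| < 1} := by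
  rw [Set.ofPred_forall]
  exact isOpen_iInter_of_finite fun i => isOpen_lt (by fun_prop) continuous_const

/-- the three atoms in order -/
noncomputable def at3 (i0 i1 : Fin d) (t : ℝ) : Fin 3 → EuclideanSpace ℝ (Fin d) :=
  ![t • sv i1, sv i0, - sv i0]

lemma at3_injective {i0 i1 : Fin d} (h01 : i0 ≠ i1) (t : ℝ) : Function.Injective (at3 i0 i1 t) := by
  intro i j hij
  have h1 := sv_ne h01 t
  have h2 := neg_sv_ne h01 t
  have h3 := sv_ne_neg (i0 := i0)
  fin_cases i <;> fin_cases j <;> simp only [at3, Fin.zero_eta, Fin.mk_one, Fin.reduceFinMk,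
    Matrix.cons_val_zero, Matrix.cons_val_one, Matrix.cons_val] at hij ⊢
  · exact absurd hij h1.symm
  · exact absurd hij h2.symm
  · exact absurd hij h1
  · exact absurd hij h3
  · exact absurd hij h2
  · exact absurd hij h3.symm

lemma threeAtomic {i0 i1 : Fin d} (h01 : i0 ≠ i1) {δ t : ℝ} (hδ : 0 < δ) (hδ1 : δ ≤ 1 / 4)
    (ht : |t| ≤ δ) : IsThreeAtomic ((rho d).map (Tm i0 i1 δ t)) := by
  have htx : ∀ x : EuclideanSpace ℝ (Fin d), x ∈ Q d → |t * x i1| ≤ δ := by
    intro x hx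
    rw [abs_mul]
    calc |t| * |x i1| ≤ δ * 1 := by gcongr; exact hx i1
      _ = δ := mul_one _
  refine ⟨at3 i0 i1 t, at3_injective h01 t,
    fun i => (rho d).real (Tm i0 i1 δ t ⁻¹' {at3 i0 i1 t i}), ?_, ?_⟩
  · intro i
    fin_cases i
    · -- middle cell
      refine rho_pos_of_open (U := {x | ∀ i, |x i| < 1} ∩ ({x | |x i0| < δ / 2} ∩ {x | |x i1| < 1 / 2}))
        ?_ ⟨0, ?_⟩ ?_ ?_
      · exact isOpen_cube.inter ((isOpen_lt (by fun_prop) continuous_const).inter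
          (isOpen_lt (by fun_prop) continuous_const))
      · simp; exact hδ
      · exact fun x hx i => (hx.1 i).le
      · rintro x ⟨hx1, hx2, hx3⟩
        have h2 : |x i0| < δ / 2 := hx2
        have h3 : |x i1| < 1 / 2 := hx3
        have h4 : |t * x i1| ≤ δ * (1 / 2) := by
          rw [abs_mul]; gcongr
        have h5 := neg_abs_le (t * x i1)
        have h6 : |x i0| ≤ δ + t * x i1 := by linarith
        simp only [Set.mem_preimage, Set.mem_singleton_iff]
        show Tm i0 i1 δ t x = t • sv i1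
        unfold Tm; rw [if_pos h6]
    · refine rho_pos_of_open (U := {x | ∀ i, |x i| < 1} ∩ {x | 2 * δ < x i0})
        ?_ ⟨EuclideanSpace.single i0 (3 / 4 : ℝ), ?_, ?_⟩ ?_ ?_
      · exact isOpen_cube.inter (isOpen_lt continuous_const (by fun_prop))
      · intro i
        by_cases h : i = i0
        · subst h; simp; norm_num [abs_of_pos]
        · simp [h]
      · simp; linarith
      · exact fun x hx i => (hx.1 i).le
      · rintro x ⟨hx1, hx2⟩
        have h2 : 2 * δ < x i0 := hx2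
        have h3 := htx x (fun i => (hx1 i).le)
        have h4 := le_abs_self (t * x i1)
        have h5 := le_abs_self (x i0)
        have h6 : ¬ |x i0| ≤ δ + t * x i1 := by
          intro h; linarith
        simp only [Set.mem_preimage, Set.mem_singleton_iff]
        show Tm i0 i1 δ t x = sv i0
        unfold Tm; rw [if_neg h6, if_pos (by linarith)]
    · refine rho_pos_of_open (U := {x | ∀ i, |x i| < 1} ∩ {x | x i0 < - (2 * δ)})
        ?_ ⟨EuclideanSpace.single i0 (-3 / 4 : ℝ), ?_, ?_⟩ ?_ ?_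
      · exact isOpen_cube.inter (isOpen_lt (by fun_prop) continuous_const)
      · intro i
        by_cases h : i = i0
        · subst h; simp; rw [abs_lt]; norm_num
        · simp [h]
      · simp; linarith
      · exact fun x hx i => (hx.1 i).le
      · rintro x ⟨hx1, hx2⟩
        have h2 : x i0 < - (2 * δ) := hx2
        have h3 := htx x (fun i => (hx1 i).le)
        have h4 := le_abs_self (t * x i1)
        have h5 := neg_le_abs (x i0)
        have h6 : ¬ |x i0| ≤ δ + t * x i1 := by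
          intro h; linarith
        simp only [Set.mem_preimage, Set.mem_singleton_iff]
        show Tm i0 i1 δ t x = - sv i0
        unfold Tm; rw [if_neg h6, if_neg (by linarith)]
  · refine map_eq_sum (rho d) (measurable_Tm _ _ _ _) _ (at3_injective h01 t) fun x => ?_
    rcases Tm_mem_atoms i0 i1 δ t x with h | h | h
    · exact ⟨0, h⟩
    · exact ⟨1, h⟩
    · exact ⟨2, h⟩

lemma probabilityOn {i0 i1 : Fin d} {δ t : ℝ} (ht : |t| ≤ 1) :
    IsProbabilityOn (Q d) ((rho d).map (Tm i0 i1 δ t)) := by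
  refine ⟨Measure.isProbabilityMeasure_map (measurable_Tm _ _ _ _).aemeasurable, ?_⟩
  rw [Measure.map_apply (measurable_Tm _ _ _ _) (measurableSet_Q d).compl]
  convert measure_empty (μ := rho d)
  ext x
  simp only [Set.mem_preimage, Set.mem_compl_iff, Set.mem_empty_iff_false, iff_false, not_not]
  have hsv : ∀ (i j : Fin d) (c : ℝ), |c| ≤ 1 → |(c • sv i : EuclideanSpace ℝ (Fin d)) j| ≤ 1 := by
    intro i j c hc
    by_cases h : j = i
    · subst h; simpa using hc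
    · simp [h]
  rcases Tm_mem_atoms i0 i1 δ t x with h | h | h <;> rw [h] <;> intro j
  · exact hsv i1 j t ht
  · simpa using hsv i0 j 1 (by simp)
  · simpa using hsv i0 j (-1) (by simp)

/-- values of optimal maps on the comparison box, positive tilt -/
lemma value_pos {i0 i1 : Fin d} (h01 : i0 ≠ i1) {δ : ℝ} (hδ : 0 < δ)
    {x y : EuclideanSpace ℝ (Fin d)} (hx : x ∈ cbox i0 i1 δ) (hy : y ∈ atoms i0 i1 δ)
    (hg : gap i0 i1 δ δ x y = 0) : y = δ • sv i1 := by
  obtain ⟨hQ, h1, h2, h3⟩ := hx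
  have h4 : δ * x i1 ≤ ph i0 i1 δ δ x := le_max_right _ _
  have h5 : δ * (1 / 2) ≤ δ * x i1 := by gcongr
  rcases hy with rfl | rfl | rfl
  · rfl
  · rw [gap_pos h01] at hg
    exfalso; linarith
  · rw [gap_neg h01] at hg
    exfalso; linarith

/-- values of optimal maps on the comparison box, negative tilt -/
lemma value_neg {i0 i1 : Fin d} (h01 : i0 ≠ i1) {δ : ℝ} (hδ : 0 < δ)
    {x y : EuclideanSpace ℝ (Fin d)} (hx : x ∈ cbox i0 i1 δ) (hy : y ∈ atoms i0 i1 (-δ))
    (hg : gap i0 i1 δ (-δ) x y = 0) : y = sv i0 := by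
  obtain ⟨hQ, h1, h2, h3⟩ := hx
  have h4 : |x i0| - δ ≤ ph i0 i1 δ (-δ) x := le_max_left _ _
  have h5 : δ * (1 / 2) ≤ δ * x i1 := by gcongr
  have h6 := le_abs_self (x i0)
  rcases hy with rfl | rfl | rfl
  · rw [gap_mid] at hg
    exfalso; linarith
  · rfl
  · rw [gap_neg h01] at hg
    exfalso; linarith

lemma dist_lower {i0 i1 : Fin d} (h01 : i0 ≠ i1) (δ : ℝ) :
    (1 : ℝ≥0∞) ≤ ‖δ • sv i1 - sv i0‖ₑ ^ 2 := by
  have h1 : (1:ℝ) ≤ ‖δ • sv i1 - sv i0‖ := by
    have := PiLp.norm_apply_le (δ • sv i1 - sv i0) i0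
    simpa [h01] using this
  rw [← ofReal_norm, ← ENNReal.ofReal_pow (norm_nonneg _), ← ENNReal.ofReal_one]
  apply ENNReal.ofReal_le_ofReal
  nlinarith

lemma main_lower {i0 i1 : Fin d} (h01 : i0 ≠ i1) {δ : ℝ} (hδ : 0 < δ) (hδ1 : δ ≤ 1 / 4)
    {S1 S2 : EuclideanSpace ℝ (Fin d) → EuclideanSpace ℝ (Fin d)}
    (hS1 : IsOptimalMap (rho d) ((rho d).map (Tm i0 i1 δ δ)) S1)
    (hS2 : IsOptimalMap (rho d) ((rho d).map (Tm i0 i1 δ (-δ))) S2) :
    ENNReal.ofReal (3 / 32 * δ) ≤ ∫⁻ x, ‖S1 x - S2 x‖ₑ ^ 2 ∂(rho d) := by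
  refine (cbox_ge h01 hδ hδ1).trans ?_
  have hδabs : |δ| ≤ 1 := by rw [abs_of_pos hδ]; linarith
  have hδabs' : |-δ| ≤ 1 := by rw [abs_neg]; exact hδabs
  rw [← lintegral_indicator_one (measurableSet_cbox i0 i1 δ)]
  refine lintegral_mono_ae ?_
  filter_upwards [optimal_gap_zero h01 hδ.le (by linarith) hδabs hS1,
    optimal_gap_zero h01 hδ.le (by linarith) hδabs' hS2] with x h1 h2
  by_cases hx : x ∈ cbox i0 i1 δ
  · rw [Set.indicator_of_mem hx, value_pos h01 hδ hx h1.1 h1.2, value_neg h01 hδ hx h2.1 h2.2]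
    exact dist_lower h01 δ
  · rw [Set.indicator_of_notMem hx]
    exact zero_le

lemma exists_delta (α : ℝ) (hα : 1 / 3 < α) (C : ℝ≥0) :
    ∃ δ : ℝ, 0 < δ ∧ δ ≤ 1 / 4 ∧
      (C : ℝ≥0∞) * (ENNReal.ofReal (8 * δ ^ 3)) ^ α < ENNReal.ofReal (3 / 32 * δ) := by
  have hα0 : 0 < α := by linarith
  have hpos : 0 < 3 * α - 1 := by linarith
  have hc : ContinuousAt (fun δ : ℝ => (C:ℝ) * 8 ^ α * δ ^ (3 * α - 1)) 0 := by
    refine ContinuousAt.mul continuousAt_const ?_
    exact Real.continuousAt_rpow_const _ _ (Or.inr hpos.le)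
  have h0 : (fun δ : ℝ => (C:ℝ) * 8 ^ α * δ ^ (3 * α - 1)) 0 < 3 / 32 := by
    simp only [Real.zero_rpow hpos.ne', mul_zero]; norm_num
  have h1 : ∀ᶠ δ : ℝ in nhds 0, (C:ℝ) * 8 ^ α * δ ^ (3 * α - 1) < 3 / 32 :=
    hc.eventually_lt continuousAt_const h0
  have h2 : ∀ᶠ δ : ℝ in nhdsWithin 0 (Set.Ioi 0), (C:ℝ) * 8 ^ α * δ ^ (3 * α - 1) < 3 / 32 :=
    h1.filter_mono nhdsWithin_le_nhds
  have h3 : ∀ᶠ δ : ℝ in nhdsWithin 0 (Set.Ioi 0), δ ∈ Set.Ioc (0:ℝ) (1 / 4) :=
    Ioc_mem_nhdsGT (by norm_num)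
  obtain ⟨δ, h4, h5⟩ := (h2.and h3).exists
  refine ⟨δ, h5.1, h5.2, ?_⟩
  have hδ := h5.1
  rw [ENNReal.ofReal_rpow_of_pos (by positivity), ← ENNReal.ofReal_coe_nnreal,
    ← ENNReal.ofReal_mul (by positivity)]
  apply (ENNReal.ofReal_lt_ofReal_iff (by positivity)).2
  have h6 : (8 * δ ^ 3) ^ α = 8 ^ α * (δ ^ (3 * α - 1) * δ) := by
    rw [Real.mul_rpow (by norm_num) (by positivity), ← Real.rpow_natCast δ 3, ← Real.rpow_mul hδ.le]
    congr 1
    rw [← Real.rpow_add_one hδ.ne']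
    congr 1
    push_cast; ring
  rw [h6]
  calc (C:ℝ) * (8 ^ α * (δ ^ (3 * α - 1) * δ)) = (C * 8 ^ α * δ ^ (3 * α - 1)) * δ := by ring
    _ < 3 / 32 * δ := by gcongr

end Crest.Agent.R082.ExC
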