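import Crest.Agent.R082.Defs

/-!
Row 82, part E1: measurable maps with prescribed cell by cell images.
-/

set_option autoImplicit false

open MeasureTheory Set Filter
open scoped ENNReal NNReal Topology
open Crest.AnalysisR.OT

namespace Crest.Agent.R082

/-- The distribution function of an atomless law on the line pushes it to the uniform law. -/
theorem exists_uniformize_real (P : Measure ℝ) [IsProbabilityMeasure P] (hP : ∀ x, P {x} = 0) :
    ∃ F : ℝ → unitInterval, Measurable F ∧ P.map F = volume := by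
  set c : ℝ → ℝ := fun x => ProbabilityTheory.cdf P x with hc
  have hc0 : ∀ x, 0 ≤ c x := fun x => ProbabilityTheory.cdf_nonneg P x
  have hc1 : ∀ x, c x ≤ 1 := fun x => ProbabilityTheory.cdf_le_one P x
  have hmono : Monotone c := ProbabilityTheory.monotone_cdf P
  have hcP : ∀ x, ENNReal.ofReal (c x) = P (Iic x) := fun x => ProbabilityTheory.ofReal_cdf P x
  have hcr : ∀ x, ContinuousWithinAt c (Ici x) x := fun x =>
    (ProbabilityTheory.cdf P).right_continuous x
  let F : ℝ → unitInterval := fun x => ⟨c x, hc0 x, hc1 x⟩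
  have hFm : Measurable F := by
    apply Measurable.subtype_mk
    exact hmono.measurable
  refine ⟨F, hFm, ?_⟩
  have : IsProbabilityMeasure (P.map F) := Measure.isProbabilityMeasure_map hFm.aemeasurable
  refine Measure.ext_of_Iic _ _ (fun t => ?_)
  rw [Measure.map_apply hFm measurableSet_Iic, unitInterval.volume_Iic]
  have hpre : F ⁻¹' (Iic t) = {x | c x ≤ t.1} := by
    ext x; simp [F, ← Subtype.coe_le_coe]
  rw [hpre]
  by_cases ht1 : t.1 = 1
  · have : {x | c x ≤ t.1} = univ := by
      ext x; simp [ht1, hc1 x]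
    rw [this, ht1]; simp
  have ht1' : t.1 < 1 := lt_of_le_of_ne t.2.2 ht1
  by_cases hne : {x | c x ≤ t.1}.Nonempty
  · -- bounded above
    have hbd : BddAbove {x | c x ≤ t.1} := by
      have h1 := (ProbabilityTheory.tendsto_cdf_atTop P).eventually (lt_mem_nhds ht1')
      obtain ⟨b, hb⟩ := (h1.and (eventually_ge_atTop 0)).exists
      refine ⟨b, fun x hx => ?_⟩
      by_contra hlt
      push Not at hlt
      exact absurd (lt_of_lt_of_le hb.1 (hmono hlt.le)) (not_lt.mpr hx)
    set s := sSup {x | c x ≤ t.1} with hs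
    -- c s = t
    have hlt : ∀ x, x < s → c x ≤ t.1 := by
      intro x hx
      obtain ⟨y, hy, hxy⟩ := exists_lt_of_lt_csSup hne hx
      exact (hmono hxy.le).trans hy
    have hgt : ∀ x, s < x → t.1 < c x := by
      intro x hx
      by_contra h
      push Not at h
      exact absurd (le_csSup hbd h) (not_le.mpr hx)
    have hge : t.1 ≤ c s := by
      have h1 : Tendsto c (𝓝[>] s) (𝓝 (c s)) :=
        (hcr s).mono_left (nhdsWithin_mono _ Ioi_subset_Ici_self)
      refine ge_of_tendsto h1 ?_
      filter_upwards [self_mem_nhdsWithin] with x hx using (hgt x hx).le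
    have hIio : P (Iio s) ≤ ENNReal.ofReal t.1 := by
      have hU : Iio s = ⋃ n : ℕ, Iic (s - 1 / ((n : ℝ) + 1)) := by
        ext x
        simp only [mem_Iio, mem_iUnion, mem_Iic]
        constructor
        · intro hx
          obtain ⟨n, hn⟩ := exists_nat_one_div_lt (sub_pos.mpr hx)
          exact ⟨n, by linarith⟩
        · rintro ⟨n, hn⟩
          have : (0 : ℝ) < 1 / ((n : ℝ) + 1) := by positivity
          linarith
      have hmonoU : Monotone (fun n : ℕ => Iic (s - 1 / ((n : ℝ) + 1))) := by
        intro m n hmn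
        apply Iic_subset_Iic.mpr
        have : (1 : ℝ) / ((n : ℝ) + 1) ≤ 1 / ((m : ℝ) + 1) := by
          apply one_div_le_one_div_of_le (by positivity)
          have : (m : ℝ) ≤ n := by exact_mod_cast hmn
          linarith
        linarith
      rw [hU, hmonoU.measure_iUnion]
      refine iSup_le (fun n => ?_)
      rw [← hcP]
      apply ENNReal.ofReal_le_ofReal
      apply hlt
      have : (0 : ℝ) < 1 / ((n : ℝ) + 1) := by positivity
      linarith
    have hIic : P (Iic s) ≤ ENNReal.ofReal t.1 := by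
      have : Iic s = Iio s ∪ {s} := by
        ext x; simp [le_iff_lt_or_eq]
      rw [this]
      refine (measure_union_le _ _).trans ?_
      rw [hP s, add_zero]
      exact hIio
    have hcs : c s = t.1 := by
      apply le_antisymm _ hge
      rw [← hcP] at hIic
      exact (ENNReal.ofReal_le_ofReal_iff t.2.1).mp hIic
    have hset : {x | c x ≤ t.1} = Iic s := by
      ext x
      simp only [mem_ofPred_eq, mem_Iic]
      constructor
      · intro hx
        exact le_csSup hbd hx
      · intro hx
        rw [← hcs]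
        exact hmono hx
    rw [hset, ← hcP, hcs]
  · rw [not_nonempty_iff_eq_empty] at hne
    rw [hne, measure_empty]
    have : t.1 ≤ 0 := by
      refine ge_of_tendsto (ProbabilityTheory.tendsto_cdf_atBot P) ?_
      refine Eventually.of_forall (fun x => ?_)
      by_contra h
      push Not at h
      have : x ∈ {x | c x ≤ t.1} := h.le
      rw [hne] at this
      exact this
    rw [ENNReal.ofReal_of_nonpos this]

theorem volume_coord_eq_zero {d : ℕ} (i : Fin d) (a : ℝ) :
    (volume : Measure (E d)) {x | x i = a} = 0 := by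
  have h := (EuclideanSpace.volume_preserving_symm_measurableEquiv_toLp (Fin d))
  have h2 : (volume : Measure (Fin d → ℝ)) {f | f i = a} = 0 := by
    rw [volume_pi]
    exact Measure.pi_hyperplane (fun _ => (volume : Measure ℝ)) i a
  have hms : MeasurableSet {f : Fin d → ℝ | f i = a} :=
    measurableSet_eq_fun (measurable_pi_apply i) measurable_const
  have h3 := h.measure_preimage hms.nullMeasurableSet
  rw [h2] at h3
  exact h3

/-- Uniformization of a probability law that is absolutely continuous. -/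
theorem exists_uniformize {d : ℕ} (hd : 0 < d) (ρ : Measure (E d)) [IsProbabilityMeasure ρ]
    (hρ : ρ ≪ volume) : ∃ U : E d → unitInterval, Measurable U ∧ ρ.map U = volume := by
  have hm : Measurable (fun x : E d => x ⟨0, hd⟩) := by fun_prop
  have : IsProbabilityMeasure (ρ.map (fun x : E d => x ⟨0, hd⟩)) :=
    Measure.isProbabilityMeasure_map hm.aemeasurable
  obtain ⟨F, hF, hFP⟩ := exists_uniformize_real (ρ.map (fun x : E d => x ⟨0, hd⟩)) (by
    intro a
    rw [Measure.map_apply hm (measurableSet_singleton a)]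
    exact hρ (volume_coord_eq_zero ⟨0, hd⟩ a))
  refine ⟨F ∘ (fun x : E d => x ⟨0, hd⟩), hF.comp hm, ?_⟩
  rw [← Measure.map_map hF hm, hFP]

/-- Existence of a measurable transport map from an absolutely continuous measure. -/
theorem exists_map_eq {d : ℕ} (hd : 0 < d) (ρ μ : Measure (E d)) [IsFiniteMeasure ρ]
    [IsFiniteMeasure μ] (hρ : ρ ≪ volume) (h : ρ univ = μ univ) :
    ∃ S : E d → E d, Measurable S ∧ ρ.map S = μ := by
  by_cases h0 : ρ univ = 0
  · refine ⟨id, measurable_id, ?_⟩
    have h1 : ρ = 0 := Measure.measure_univ_eq_zero.mp h0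
    have h2 : μ = 0 := Measure.measure_univ_eq_zero.mp (h ▸ h0)
    rw [h1, h2, Measure.map_zero]
  · have hfin : ρ univ ≠ ∞ := measure_ne_top ρ univ
    have hρ' : IsProbabilityMeasure ((ρ univ)⁻¹ • ρ) := by
      constructor
      rw [Measure.smul_apply, smul_eq_mul, ENNReal.inv_mul_cancel h0 hfin]
    have hμ' : IsProbabilityMeasure ((ρ univ)⁻¹ • μ) := by
      constructor
      rw [Measure.smul_apply, smul_eq_mul, ← h, ENNReal.inv_mul_cancel h0 hfin]
    obtain ⟨U, hU, hUm⟩ := exists_uniformize hd ((ρ univ)⁻¹ • ρ)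
      (hρ.smul_left _)
    obtain ⟨f, hf, hfm⟩ := Measure.exists_measurable_map_eq ((ρ univ)⁻¹ • μ)
    refine ⟨f ∘ U, hf.comp hU, ?_⟩
    have h3 : ((ρ univ)⁻¹ • ρ).map (f ∘ U) = (ρ univ)⁻¹ • μ := by
      rw [← Measure.map_map hf hU, hUm, hfm]
    have h4 : (ρ univ) • (((ρ univ)⁻¹ • ρ).map (f ∘ U)) = (ρ univ) • ((ρ univ)⁻¹ • μ) := by
      rw [h3]
    rw [Measure.map_smul, smul_smul, smul_smul, ENNReal.mul_inv_cancel h0 hfin, one_smul,
      one_smul] at h4
    exact h4

/-- Part E1. Measurable maps with prescribed cell by cell images. -/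
theorem exists_exact_map {d : ℕ} (hd : 0 < d) {ι : Type} [Fintype ι] (ρ μ : Measure (E d))
    [IsFiniteMeasure ρ] [IsFiniteMeasure μ] (hρ : ρ ≪ volume)
    (A : ι → Set (E d)) (hA : ∀ i, MeasurableSet (A i))
    (hAd : ∀ i j, i ≠ j → ρ (A i ∩ A j) = 0) (hAu : ρ (⋃ i, A i)ᶜ = 0)
    (B : ι → Set (E d)) (hB : ∀ i, MeasurableSet (B i))
    (hBd : ∀ i j, i ≠ j → μ (B i ∩ B j) = 0) (hBu : μ (⋃ i, B i)ᶜ = 0)
    (hAB : ∀ i, ρ (A i) = μ (B i)) :
    ∃ S : E d → E d, Measurable S ∧ ρ.map S = μ ∧ ∀ i, ∀ᵐ x ∂ρ, x ∈ A i → S x ∈ B i := by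
  classical
  have hS : ∀ i, ∃ S : E d → E d, Measurable S ∧ (ρ.restrict (A i)).map S = μ.restrict (B i) := by
    intro i
    apply exists_map_eq hd
    · exact Measure.absolutelyContinuous_of_le Measure.restrict_le_self |>.trans hρ
    · rw [Measure.restrict_apply_univ, Measure.restrict_apply_univ, hAB]
  choose S hSm hSmap using hS
  -- disjointified cells
  let A' : ι → Set (E d) := fun i => A i \ ⋃ j ∈ (Finset.univ.erase i : Finset ι), A j
  have hA' : ∀ i, MeasurableSet (A' i) := fun i =>
    (hA i).diff (Finset.measurableSet_biUnion _ (fun j _ => hA j))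
  let G : E d → E d := fun x => ∑ i, (A' i).indicator (S i) x
  have hGm : Measurable G := by
    apply Finset.measurable_sum
    intro i _
    exact (hSm i).indicator (hA' i)
  have hGeq : ∀ i, ∀ x ∈ A' i, G x = S i x := by
    intro i x hx
    have : ∀ j ∈ Finset.univ, j ≠ i → (A' j).indicator (S j) x = 0 := by
      intro j _ hji
      apply indicator_of_notMem
      intro hxj
      apply hxj.2
      simp only [Finset.mem_erase, Finset.mem_univ, and_true, mem_iUnion]
      exact ⟨i, fun h => hji h.symm, hx.1⟩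
    show ∑ j, (A' j).indicator (S j) x = S i x
    rw [Finset.sum_eq_single i this (fun h => absurd (Finset.mem_univ i) h)]
    exact indicator_of_mem hx _
  have hGae : ∀ i, ∀ᵐ x ∂ρ, x ∈ A i → G x = S i x := by
    intro i
    have hnull : ρ (⋃ j ∈ (Finset.univ.erase i : Finset ι), (A i ∩ A j)) = 0 := by
      refine (measure_biUnion_null_iff (Finset.univ.erase i).countable_toSet).mpr ?_
      intro j hj
      apply hAd
      have : j ≠ i := by simpa using hj
      exact this.symm
    rw [← compl_mem_ae_iff] at hnull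
    filter_upwards [hnull] with x hx hxA
    apply hGeq
    refine ⟨hxA, fun hx2 => hx ?_⟩
    simp only [mem_iUnion] at hx2 ⊢
    obtain ⟨j, hj, hxj⟩ := hx2
    exact ⟨j, hj, hxA, hxj⟩
  refine ⟨G, hGm, ?_, ?_⟩
  · ext V hV
    rw [Measure.map_apply hGm hV]
    have e1 : ρ (G ⁻¹' V) = ∑ i, ρ (A i ∩ G ⁻¹' V) := by
      have h1 : ρ (G ⁻¹' V) = ρ (⋃ i, (A i ∩ G ⁻¹' V)) := by
        rw [← iUnion_inter]
        apply le_antisymm _ (measure_mono inter_subset_right)
        calc ρ (G ⁻¹' V) ≤ ρ (((⋃ i, A i) ∩ G ⁻¹' V) ∪ (⋃ i, A i)ᶜ) := by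
              apply measure_mono
              intro x hx
              by_cases h : x ∈ ⋃ i, A i
              · exact Or.inl ⟨h, hx⟩
              · exact Or.inr h
          _ ≤ ρ ((⋃ i, A i) ∩ G ⁻¹' V) + ρ (⋃ i, A i)ᶜ := measure_union_le _ _
          _ = ρ ((⋃ i, A i) ∩ G ⁻¹' V) := by rw [hAu, add_zero]
      rw [h1, measure_iUnion₀, tsum_fintype]
      · intro i j hij
        apply measure_mono_null _ (hAd i j hij)
        intro x hx
        exact ⟨hx.1.1, hx.2.1⟩
      · intro i
        exact ((hA i).inter (hGm hV)).nullMeasurableSet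
    have e2 : μ V = ∑ i, μ (B i ∩ V) := by
      have h1 : μ V = μ (⋃ i, (B i ∩ V)) := by
        rw [← iUnion_inter]
        apply le_antisymm _ (measure_mono inter_subset_right)
        calc μ V ≤ μ (((⋃ i, B i) ∩ V) ∪ (⋃ i, B i)ᶜ) := by
              apply measure_mono
              intro x hx
              by_cases h : x ∈ ⋃ i, B i
              · exact Or.inl ⟨h, hx⟩
              · exact Or.inr h
          _ ≤ μ ((⋃ i, B i) ∩ V) + μ (⋃ i, B i)ᶜ := measure_union_le _ _
          _ = μ ((⋃ i, B i) ∩ V) := by rw [hBu, add_zero]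
      rw [h1, measure_iUnion₀, tsum_fintype]
      · intro i j hij
        apply measure_mono_null _ (hBd i j hij)
        intro x hx
        exact ⟨hx.1.1, hx.2.1⟩
      · intro i
        exact ((hB i).inter hV).nullMeasurableSet
    rw [e1, e2]
    refine Finset.sum_congr rfl (fun i _ => ?_)
    have e3 : ρ (A i ∩ G ⁻¹' V) = ρ (A i ∩ (S i) ⁻¹' V) := by
      apply measure_congr
      filter_upwards [hGae i] with x hx
      apply propext
      show (x ∈ A i ∧ G x ∈ V) ↔ (x ∈ A i ∧ S i x ∈ V)
      constructor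
      · rintro ⟨h1, h2⟩
        rw [hx h1] at h2
        exact ⟨h1, h2⟩
      · rintro ⟨h1, h2⟩
        rw [← hx h1] at h2
        exact ⟨h1, h2⟩
    rw [e3]
    have e4 : (Measure.map (S i) (ρ.restrict (A i))) V = (μ.restrict (B i)) V := by
      rw [hSmap i]
    rw [Measure.map_apply (hSm i) hV, Measure.restrict_apply (hSm i hV),
      Measure.restrict_apply hV] at e4
    rw [inter_comm, e4, inter_comm]
  · intro i
    have e4 : (Measure.map (S i) (ρ.restrict (A i))) (B i)ᶜ = (μ.restrict (B i)) (B i)ᶜ := by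
      rw [hSmap i]
    rw [Measure.map_apply (hSm i) (hB i).compl, Measure.restrict_apply (hSm i (hB i).compl),
      Measure.restrict_apply (hB i).compl, compl_inter_self, measure_empty] at e4
    rw [← compl_mem_ae_iff] at e4
    filter_upwards [hGae i, e4] with x hx1 hx2 hxA
    rw [hx1 hxA]
    by_contra hn
    exact hx2 ⟨hn, hxA⟩

end Crest.Agent.R082
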