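import Mathlib

/-!
Row 82: translations of a convex body, shrunken bodies and integrals over them.
-/

set_option autoImplicit false

open MeasureTheory Set
open scoped ENNReal NNReal RealInnerProductSpace

namespace Crest.Agent.R082.Translate

variable {d : ℕ}

local notation "E" => EuclideanSpace ℝ (Fin d)

/-- the shrunken body -/
def shrink (K : Set (EuclideanSpace ℝ (Fin d))) (x₀ : EuclideanSpace ℝ (Fin d)) (t : ℝ) :
    Set (EuclideanSpace ℝ (Fin d)) :=
  AffineMap.homothety x₀ (1 - t) '' K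

lemma mem_of_mem_shrink {K : Set (EuclideanSpace ℝ (Fin d))} (hKv : Convex ℝ K)
    {x₀ : EuclideanSpace ℝ (Fin d)} {r₀ : ℝ} (hball : Metric.closedBall x₀ r₀ ⊆ K)
    {t : ℝ} (ht0 : 0 < t) (ht1 : t ≤ 1) {x v : EuclideanSpace ℝ (Fin d)}
    (hx : x ∈ shrink K x₀ t) (hv : ‖v‖ ≤ t * r₀) : x + v ∈ K := by
  obtain ⟨z, hz, rfl⟩ := hx
  have h1 : x₀ + t⁻¹ • v ∈ K := by
    apply hball
    rw [Metric.mem_closedBall, dist_eq_norm]
    simp only [add_sub_cancel_left]
    rw [norm_smul, Real.norm_eq_abs, abs_of_pos (inv_pos.mpr ht0)]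
    rw [inv_mul_le_iff₀ ht0]
    exact hv
  have h2 := hKv hz h1 (by linarith : (0:ℝ) ≤ 1 - t) ht0.le (by ring)
  convert h2 using 1
  rw [AffineMap.homothety_apply, smul_add, smul_smul, mul_inv_cancel₀ ht0.ne', one_smul]
  simp only [vsub_eq_sub, vadd_eq_add, smul_sub]
  module

lemma shrink_subset {K : Set (EuclideanSpace ℝ (Fin d))} (hKv : Convex ℝ K)
    {x₀ : EuclideanSpace ℝ (Fin d)} {r₀ : ℝ} (hr₀ : 0 ≤ r₀) (hball : Metric.closedBall x₀ r₀ ⊆ K)
    {t : ℝ} (ht0 : 0 < t) (ht1 : t ≤ 1) : shrink K x₀ t ⊆ K := by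
  intro x hx
  have := mem_of_mem_shrink hKv hball ht0 ht1 hx (v := 0) (by simp; positivity)
  simpa using this

lemma isCompact_shrink {K : Set (EuclideanSpace ℝ (Fin d))} (hKc : IsCompact K)
    (x₀ : EuclideanSpace ℝ (Fin d)) (t : ℝ) : IsCompact (shrink K x₀ t) := by
  apply hKc.image
  exact (AffineMap.homothety x₀ (1 - t)).continuous_of_finiteDimensional

lemma volume_shrink {K : Set (EuclideanSpace ℝ (Fin d))}
    (x₀ : EuclideanSpace ℝ (Fin d)) {t : ℝ} (ht1 : t ≤ 1) :
    volume.real (shrink K x₀ t) = (1 - t) ^ d * volume.real K := by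
  rw [shrink, Measure.real, Measure.addHaar_image_homothety, ENNReal.toReal_mul]
  simp only [finrank_euclideanSpace, Fintype.card_fin]
  rw [ENNReal.toReal_ofReal (abs_nonneg _), abs_of_nonneg (pow_nonneg (by linarith) _)]
  rfl

/-- If `A ⊆ K` is a measurable set with `vol K - vol A ≤ η`, then the integral over `A` of a
function bounded by `M` is close to the integral over `K`. -/
lemma abs_setIntegral_sub_le {K A : Set (EuclideanSpace ℝ (Fin d))}
    (hKf : volume K ≠ ∞) (hAm : MeasurableSet A) (hAK : A ⊆ K) {η M : ℝ} (hM : 0 ≤ M)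
    (hvol : volume.real K - volume.real A ≤ η)
    {g : EuclideanSpace ℝ (Fin d) → ℝ} (hg : IntegrableOn g K)
    (hgM : ∀ᵐ x ∂(volume.restrict K), |g x| ≤ M) :
    |(∫ x in K, g x) - ∫ x in A, g x| ≤ M * η := by
  rw [← setIntegral_sdiff hAm hg hAK]
  have h2 : volume (K \ A) < ∞ := lt_of_le_of_lt (measure_mono sdiff_subset) hKf.lt_top
  have h1 := norm_setIntegral_le_of_norm_le_const_ae (f := g) (C := M) h2
    (ae_mono (Measure.restrict_mono sdiff_subset le_rfl) hgM)
  rw [measureReal_sdiff hAK hAm hKf] at h1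
  exact h1.trans (mul_le_mul_of_nonneg_left hvol hM)

lemma setIntegral_comp_add (N : Set (EuclideanSpace ℝ (Fin d))) (v : EuclideanSpace ℝ (Fin d))
    (g : EuclideanSpace ℝ (Fin d) → ℝ) :
    ∫ x in N, g (x + v) = ∫ x in (fun x => x + v) '' N, g x :=
  ((measurePreserving_add_right volume v).setIntegral_image_emb
    (measurableEmbedding_addRight v) g N).symm

lemma ae_comp_add {K N : Set (EuclideanSpace ℝ (Fin d))} (hK : MeasurableSet K)
    (hN : MeasurableSet N) {v : EuclideanSpace ℝ (Fin d)}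
    (hNK : ∀ x ∈ N, x + v ∈ K) {P : EuclideanSpace ℝ (Fin d) → Prop}
    (hP : ∀ᵐ x ∂(volume.restrict K), P x) : ∀ᵐ x ∂(volume.restrict N), P (x + v) := by
  rw [ae_restrict_iff' hK] at hP
  rw [ae_restrict_iff' hN]
  have := (measurePreserving_add_right volume v).quasiMeasurePreserving.ae hP
  filter_upwards [this] with x hx hxN
  exact hx (hNK x hxN)

lemma integrableOn_comp_add {K N : Set (EuclideanSpace ℝ (Fin d))}
    {v : EuclideanSpace ℝ (Fin d)}
    (hNK : ∀ x ∈ N, x + v ∈ K) {g : EuclideanSpace ℝ (Fin d) → ℝ}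
    (hg : IntegrableOn g K) : IntegrableOn (fun x => g (x + v)) N := by
  have h1 : IntegrableOn g ((fun x => x + v) '' N) :=
    hg.mono_set (by rintro _ ⟨x, hx, rfl⟩; exact hNK x hx)
  exact ((measurePreserving_add_right volume v).integrableOn_image
    (measurableEmbedding_addRight v)).1 h1

lemma volume_image_add (N : Set (EuclideanSpace ℝ (Fin d))) (v : EuclideanSpace ℝ (Fin d)) :
    volume.real ((fun x => x + v) '' N) = volume.real N := by
  rw [Measure.real, Measure.real]
  congr 1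
  rw [image_add_right]
  exact measure_preimage_add_right _ _ _

lemma vol_shrink_ge {K : Set (EuclideanSpace ℝ (Fin d))} {x₀ : EuclideanSpace ℝ (Fin d)} {t : ℝ} (ht1 : t ≤ 1) :
    volume.real K - volume.real (shrink K x₀ t) ≤ d * t * volume.real K := by
  rw [volume_shrink x₀ ht1]
  have h1 : 1 - d * t ≤ (1 - t) ^ d := by
    have := one_add_mul_le_pow (a := -t) (by linarith) d
    have h2 : (1 + -t) = 1 - t := by ring
    rw [h2] at this
    linarith
  have h3 : 0 ≤ volume.real K := measureReal_nonneg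
  nlinarith


end Crest.Agent.R082.Translate
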