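import Crest.Agent.R082.Defs
import Crest.Agent.R082.Translate

/-!
Row 82: the final estimate from the shift monotonicity and the shift inequality.
-/

set_option autoImplicit false

open MeasureTheory Set
open scoped ENNReal NNReal
open Crest.AnalysisR.OT
open Crest.Agent.R082.Translate

namespace Crest.Agent.R082.Final

variable {d : ℕ}

/-- clipping to `[0, M]` -/
noncomputable def clip (M s : ℝ) : ℝ := min (max s 0) M

lemma clip_nonneg {M s : ℝ} (hM : 0 ≤ M) : 0 ≤ clip M s := le_min (le_max_right _ _) hM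

lemma clip_le {M s : ℝ} : clip M s ≤ M := min_le_right _ _

lemma abs_clip_sub_clip_le (M s t : ℝ) : |clip M s - clip M t| ≤ |s - t| := by
  unfold clip
  calc |min (max s 0) M - min (max t 0) M| ≤ |max s 0 - max t 0| := by
        simpa using abs_min_sub_min_le_max (max s 0) M (max t 0) M
    _ ≤ |s - t| := by
        simpa using abs_max_sub_max_le_max s 0 t 0

/-- the test density -/
noncomputable def pfun (K : Set (E d)) (M : ℝ) (a b : E d → ℝ) (h : E d) (x : E d) : ℝ :=
  open Classical in if x ∈ K ∧ x + h ∈ K then clip M (a x - b (x + h)) else 0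

lemma pfun_nonneg {K : Set (E d)} {M : ℝ} (hM : 0 ≤ M) (a b : E d → ℝ) (h x : E d) :
    0 ≤ pfun K M a b h x := by
  unfold pfun
  split_ifs
  · exact clip_nonneg hM
  · exact le_rfl

lemma pfun_le {K : Set (E d)} {M : ℝ} (hM : 0 ≤ M) (a b : E d → ℝ) (h x : E d) :
    pfun K M a b h x ≤ M := by
  unfold pfun
  split_ifs
  · exact clip_le
  · exact hM

lemma measurable_pfun {K : Set (E d)} (hK : MeasurableSet K) {M : ℝ} {a b : E d → ℝ}
    (ha : Measurable a) (hb : Measurable b) (h : E d) : Measurable (pfun K M a b h) := by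
  unfold pfun
  refine Measurable.ite ?_ ?_ measurable_const
  · exact hK.inter (measurable_add_const h hK)
  · unfold clip
    exact ((ha.sub (hb.comp (measurable_add_const h))).max measurable_const).min measurable_const

lemma integrableOn_of_bound {K : Set (E d)} (hKf : volume K ≠ ∞) {f : E d → ℝ} (hf : Measurable f)
    {M : ℝ} (hfM : ∀ᵐ x ∂(volume.restrict K), |f x| ≤ M) : IntegrableOn f K := by
  refine Integrable.mono' (g := fun _ => M) (integrableOn_const hKf) hf.aestronglyMeasurable ?_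
  filter_upwards [hfM] with x hx
  rwa [Real.norm_eq_abs]

section core

variable {K : Set (E d)} {x₀ : E d} {r₀ : ℝ}

/-- `∫_N (b(x+h) - b(x)) ≤ 2 L d t V` -/
lemma integral_shift_sub_le (hKc : IsCompact K) (hKv : Convex ℝ K) (_ : 0 < r₀)
    (hball : Metric.closedBall x₀ r₀ ⊆ K) {L : ℝ} (hL : 0 ≤ L)
    {b : E d → ℝ} (hb : Measurable b) (hbL : ∀ᵐ x ∂(volume.restrict K), |b x| ≤ L)
    {t : ℝ} (ht0 : 0 < t) (ht1 : t ≤ 1) {h₁ h₂ : E d} (hh₁ : ‖h₁‖ ≤ t * r₀) (hh₂ : ‖h₂‖ ≤ t * r₀) :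
    ∫ x in shrink K x₀ t, (b (x + h₁) - b (x + h₂)) ≤ 2 * L * (d * t * volume.real K) := by
  set N := shrink K x₀ t with hN
  have hKf : volume K ≠ ∞ := hKc.measure_lt_top.ne
  have hNm : MeasurableSet N := (isCompact_shrink hKc x₀ t).measurableSet
  have h1 : ∀ x ∈ N, x + h₁ ∈ K := fun x hx => mem_of_mem_shrink hKv hball ht0 ht1 hx hh₁
  have h2 : ∀ x ∈ N, x + h₂ ∈ K := fun x hx => mem_of_mem_shrink hKv hball ht0 ht1 hx hh₂
  have hbi : IntegrableOn b K := integrableOn_of_bound hKf hb hbL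
  have hv := vol_shrink_ge (K := K) (x₀ := x₀) ht1
  rw [integral_sub (integrableOn_comp_add h1 hbi) (integrableOn_comp_add h2 hbi)]
  rw [setIntegral_comp_add N h₁ b, setIntegral_comp_add N h₂ b]
  have b1 := abs_setIntegral_sub_le (A := (fun x => x + h₁) '' N)
    (η := d * t * volume.real K) hKf
    ((measurableEmbedding_addRight h₁).measurableSet_image.2 hNm)
    (by rintro _ ⟨x, hx, rfl⟩; exact h1 x hx) hL (by rw [volume_image_add]; exact hv) hbi hbL
  have b2 := abs_setIntegral_sub_le (A := (fun x => x + h₂) '' N)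
    (η := d * t * volume.real K) hKf
    ((measurableEmbedding_addRight h₂).measurableSet_image.2 hNm)
    (by rintro _ ⟨x, hx, rfl⟩; exact h2 x hx) hL (by rw [volume_image_add]; exact hv) hbi hbL
  have := (abs_le.1 b1).1
  have := (abs_le.1 b2).2
  linarith

lemma core_one (hKc : IsCompact K) (hKv : Convex ℝ K) (hr₀ : 0 < r₀)
    (hball : Metric.closedBall x₀ r₀ ⊆ K) {L : ℝ} (hL : 0 ≤ L)
    {a b : E d → ℝ} (ha : Measurable a) (hb : Measurable b)
    (haL : ∀ᵐ x ∂(volume.restrict K), |a x| ≤ L) (hbL : ∀ᵐ x ∂(volume.restrict K), |b x| ≤ L)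
    {r : ℝ} (hr : 0 < r) (hrr : r ≤ r₀) {h : E d} (hh : ‖h‖ = r)
    (hamono : ∀ᵐ x ∂(volume : Measure (E d)), x ∈ K → x + h ∈ K → a x ≤ a (x + h))
    (hbmono : ∀ᵐ x ∂(volume : Measure (E d)), x ∈ K → x + h ∈ K → b x ≤ b (x + h)) :
    ∫ x in K, (pfun K (2 * L) a b h (x - h) - pfun K (2 * L) a b h x) ^ 2 ≤
      12 * L ^ 2 * (d * (r / r₀) * volume.real K) := by
  set t := r / r₀ with ht
  have ht0 : 0 < t := by positivity
  have ht1 : t ≤ 1 := by rw [ht, div_le_one hr₀]; exact hrr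
  have htr : t * r₀ = r := by rw [ht]; field_simp
  set N := shrink K x₀ t with hN
  have hKm := hKc.measurableSet
  have hKf : volume K ≠ ∞ := hKc.measure_lt_top.ne
  have hNm : MeasurableSet N := (isCompact_shrink hKc x₀ t).measurableSet
  have hNK : N ⊆ K := shrink_subset hKv hr₀.le hball ht0 ht1
  have n1 : ‖h‖ ≤ t * r₀ := by rw [htr, hh]
  have n2 : ‖-h‖ ≤ t * r₀ := by rw [norm_neg]; exact n1
  have n3 : ‖(0 : E d)‖ ≤ t * r₀ := by rw [norm_zero]; positivity
  have hp : ∀ x ∈ N, x + h ∈ K := fun x hx => mem_of_mem_shrink hKv hball ht0 ht1 hx n1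
  have hm : ∀ x ∈ N, x + -h ∈ K := fun x hx => mem_of_mem_shrink hKv hball ht0 ht1 hx n2
  have h0 : ∀ x ∈ N, x + 0 ∈ K := fun x hx => mem_of_mem_shrink hKv hball ht0 ht1 hx n3
  have hM : (0 : ℝ) ≤ 2 * L := by positivity
  set p := pfun K (2 * L) a b h with hpdef
  have hpm : Measurable p := measurable_pfun hKm ha hb h
  have hFm : Measurable (fun x => (p (x - h) - p x) ^ 2) :=
    ((hpm.comp (measurable_sub_const h)).sub hpm).pow_const 2
  have hpa : ∀ x, |p (x - h) - p x| ≤ 2 * L := by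
    intro x
    have := pfun_nonneg hM a b h x (K := K)
    have := pfun_nonneg hM a b h (x - h) (K := K)
    have := pfun_le hM a b h x (K := K)
    have := pfun_le hM a b h (x - h) (K := K)
    rw [abs_le]; constructor <;> linarith
  have hFb : ∀ x, |(p (x - h) - p x) ^ 2| ≤ 4 * L ^ 2 := by
    intro x
    rw [abs_of_nonneg (sq_nonneg _), ← sq_abs]
    nlinarith [hpa x, abs_nonneg (p (x - h) - p x)]
  have hFi : IntegrableOn (fun x => (p (x - h) - p x) ^ 2) K :=
    integrableOn_of_bound hKf hFm (M := 4 * L ^ 2) (Filter.Eventually.of_forall hFb)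
  have hv := vol_shrink_ge (K := K) (x₀ := x₀) ht1
  have c1 : (∫ x in K, (p (x - h) - p x) ^ 2) - ∫ x in N, (p (x - h) - p x) ^ 2 ≤
      4 * L ^ 2 * (d * t * volume.real K) :=
    (le_abs_self _).trans (abs_setIntegral_sub_le hKf hNm hNK (by positivity) hv hFi
      (Filter.Eventually.of_forall hFb))
  have hai : IntegrableOn a K := integrableOn_of_bound hKf ha haL
  have hbi : IntegrableOn b K := integrableOn_of_bound hKf hb hbL
  have hA : IntegrableOn (fun x => a (x + 0) - a (x + -h)) N :=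
    (integrableOn_comp_add h0 hai).sub (integrableOn_comp_add hm hai)
  have hB : IntegrableOn (fun x => b (x + h) - b (x + 0)) N :=
    (integrableOn_comp_add hp hbi).sub (integrableOn_comp_add h0 hbi)
  have key : ∀ᵐ x ∂(volume.restrict N), (p (x - h) - p x) ^ 2 ≤
      2 * L * ((a (x + 0) - a (x + -h)) + (b (x + h) - b (x + 0))) := by
    have hamono' := (measurePreserving_add_right volume (-h)).quasiMeasurePreserving.ae hamono
    filter_upwards [ae_restrict_of_ae hamono', ae_restrict_of_ae hbmono,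
      ae_restrict_mem hNm] with x h1 h2 hx
    have g1 : x - h = x + -h := sub_eq_add_neg _ _
    have g2 : x + -h + h = x := by abel
    have h3 := h1 (hm x hx) (by rw [g2]; exact hNK hx)
    rw [g2] at h3
    have h4 := h2 (hNK hx) (hp x hx)
    have e1 : p x = clip (2 * L) (a x - b (x + h)) := by
      rw [hpdef]; unfold pfun; rw [if_pos ⟨hNK hx, hp x hx⟩]
    have e2 : p (x - h) = clip (2 * L) (a (x + -h) - b x) := by
      rw [hpdef]; unfold pfun
      rw [g1, g2, if_pos ⟨hm x hx, hNK hx⟩]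
    have e3 : |p (x - h) - p x| ≤ (a x - a (x + -h)) + (b (x + h) - b x) := by
      rw [e1, e2]
      refine (abs_clip_sub_clip_le _ _ _).trans ?_
      rw [abs_le]; constructor <;> linarith
    rw [add_zero, ← sq_abs]
    have e4 := hpa x
    nlinarith [abs_nonneg (p (x - h) - p x)]
  have c2 : ∫ x in N, (p (x - h) - p x) ^ 2 ≤
      2 * L * (2 * L * (d * t * volume.real K) + 2 * L * (d * t * volume.real K)) := by
    calc ∫ x in N, (p (x - h) - p x) ^ 2
        ≤ ∫ x in N, 2 * L * ((a (x + 0) - a (x + -h)) + (b (x + h) - b (x + 0))) :=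
          integral_mono_ae (hFi.mono_set hNK) ((hA.add hB).const_mul _) key
      _ = 2 * L * ((∫ x in N, (a (x + 0) - a (x + -h))) + ∫ x in N, (b (x + h) - b (x + 0))) := by
          rw [integral_const_mul, integral_add hA hB]
      _ ≤ _ := by
          refine mul_le_mul_of_nonneg_left (add_le_add ?_ ?_) hM
          · exact integral_shift_sub_le hKc hKv hr₀ hball hL ha haL ht0 ht1 n3 n2
          · exact integral_shift_sub_le hKc hKv hr₀ hball hL hb hbL ht0 ht1 n1 n3
  have c3 : 2 * L * (2 * L * (d * t * volume.real K) + 2 * L * (d * t * volume.real K)) +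
    4 * L ^ 2 * (d * t * volume.real K) = 12 * L ^ 2 * (d * t * volume.real K) := by ring
  linarith

lemma core_two (hKc : IsCompact K) (hKv : Convex ℝ K) (hr₀ : 0 < r₀)
    (hball : Metric.closedBall x₀ r₀ ⊆ K) {L : ℝ} (hL : 0 ≤ L)
    {a b : E d → ℝ} (ha : Measurable a) (hb : Measurable b)
    (haL : ∀ᵐ x ∂(volume.restrict K), |a x| ≤ L) (hbL : ∀ᵐ x ∂(volume.restrict K), |b x| ≤ L)
    {r : ℝ} (hr : 0 < r) (hrr : r ≤ r₀) {h : E d} (hh : ‖h‖ = r)
    (hbmono : ∀ᵐ x ∂(volume : Measure (E d)), x ∈ K → x + h ∈ K → b x ≤ b (x + h)) :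
    ∫ x in K, (max (a x - b x) 0) ^ 2 ≤ 2 * (∫ x in K, pfun K (2 * L) a b h x ^ 2) +
      12 * L ^ 2 * (d * (r / r₀) * volume.real K) := by
  set t := r / r₀ with ht
  have ht0 : 0 < t := by positivity
  have ht1 : t ≤ 1 := by rw [ht, div_le_one hr₀]; exact hrr
  have htr : t * r₀ = r := by rw [ht]; field_simp
  set N := shrink K x₀ t with hN
  have hKm := hKc.measurableSet
  have hKf : volume K ≠ ∞ := hKc.measure_lt_top.ne
  have hNm : MeasurableSet N := (isCompact_shrink hKc x₀ t).measurableSet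
  have hNK : N ⊆ K := shrink_subset hKv hr₀.le hball ht0 ht1
  have n1 : ‖h‖ ≤ t * r₀ := by rw [htr, hh]
  have n3 : ‖(0 : E d)‖ ≤ t * r₀ := by rw [norm_zero]; positivity
  have hp : ∀ x ∈ N, x + h ∈ K := fun x hx => mem_of_mem_shrink hKv hball ht0 ht1 hx n1
  have h0 : ∀ x ∈ N, x + 0 ∈ K := fun x hx => mem_of_mem_shrink hKv hball ht0 ht1 hx n3
  have hM : (0 : ℝ) ≤ 2 * L := by positivity
  set p := pfun K (2 * L) a b h with hpdef
  have hpm : Measurable p := measurable_pfun hKm ha hb h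
  have hp2b : ∀ x, |p x ^ 2| ≤ 4 * L ^ 2 := by
    intro x
    rw [abs_of_nonneg (sq_nonneg _)]
    have g1 := pfun_nonneg hM a b h x (K := K)
    have g2 := pfun_le hM a b h x (K := K)
    rw [← hpdef] at g1 g2
    nlinarith
  have hp2i : IntegrableOn (fun x => p x ^ 2) K :=
    integrableOn_of_bound hKf (hpm.pow_const 2) (M := 4 * L ^ 2)
      (Filter.Eventually.of_forall hp2b)
  have hFm : Measurable (fun x => (max (a x - b x) 0) ^ 2) :=
    ((ha.sub hb).max measurable_const).pow_const 2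
  have hFb : ∀ᵐ x ∂(volume.restrict K), |(max (a x - b x) 0) ^ 2| ≤ 4 * L ^ 2 := by
    filter_upwards [haL, hbL] with x h1 h2
    rw [abs_of_nonneg (sq_nonneg _)]
    rw [abs_le] at h1 h2
    have g1 : max (a x - b x) 0 ≤ 2 * L := max_le (by linarith) hM
    have g2 : 0 ≤ max (a x - b x) 0 := le_max_right _ _
    nlinarith
  have hFi : IntegrableOn (fun x => (max (a x - b x) 0) ^ 2) K :=
    integrableOn_of_bound hKf hFm hFb
  have hv := vol_shrink_ge (K := K) (x₀ := x₀) ht1
  have c1 : (∫ x in K, (max (a x - b x) 0) ^ 2) - ∫ x in N, (max (a x - b x) 0) ^ 2 ≤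
      4 * L ^ 2 * (d * t * volume.real K) :=
    (le_abs_self _).trans (abs_setIntegral_sub_le hKf hNm hNK (by positivity) hv hFi hFb)
  have hbi : IntegrableOn b K := integrableOn_of_bound hKf hb hbL
  have hB : IntegrableOn (fun x => b (x + h) - b (x + 0)) N :=
    (integrableOn_comp_add hp hbi).sub (integrableOn_comp_add h0 hbi)
  have key : ∀ᵐ x ∂(volume.restrict N), (max (a x - b x) 0) ^ 2 ≤
      2 * p x ^ 2 + 4 * L * (b (x + h) - b (x + 0)) := by
    filter_upwards [ae_restrict_of_ae hbmono, ae_restrict_mem hNm,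
      ae_mono (Measure.restrict_mono hNK le_rfl) haL,
      ae_mono (Measure.restrict_mono hNK le_rfl) hbL,
      ae_comp_add hKm hNm hp hbL] with x h1 hx h2 h3 h4
    have h5 := h1 (hNK hx) (hp x hx)
    rw [add_zero]
    have e1 : p x = clip (2 * L) (a x - b (x + h)) := by
      rw [hpdef]; unfold pfun; rw [if_pos ⟨hNK hx, hp x hx⟩]
    rw [abs_le] at h2 h3 h4
    have e2 : p x = max (a x - b (x + h)) 0 := by
      rw [e1, clip, min_eq_left]
      exact max_le (by linarith) hM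
    rw [e2]
    have g0 : 0 ≤ max (a x - b (x + h)) 0 := le_max_right _ _
    have g1 : max (a x - b x) 0 ≤ max (a x - b (x + h)) 0 + (b (x + h) - b x) := by
      apply max_le
      · linarith [le_max_left (a x - b (x + h)) 0]
      · linarith
    have g2 : 0 ≤ max (a x - b x) 0 := le_max_right _ _
    have g3 : b (x + h) - b x ≤ 2 * L := by linarith
    have g4 : 0 ≤ b (x + h) - b x := by linarith
    set P := max (a x - b (x + h)) 0
    set δ := b (x + h) - b x
    have g5 : (max (a x - b x) 0) ^ 2 ≤ (P + δ) ^ 2 := pow_le_pow_left₀ g2 g1 2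
    nlinarith [sq_nonneg (P - δ)]
  have c2 : ∫ x in N, (max (a x - b x) 0) ^ 2 ≤
      2 * (∫ x in K, p x ^ 2) + 4 * L * (2 * L * (d * t * volume.real K)) := by
    calc ∫ x in N, (max (a x - b x) 0) ^ 2
        ≤ ∫ x in N, (2 * p x ^ 2 + 4 * L * (b (x + h) - b (x + 0))) :=
          integral_mono_ae (hFi.mono_set hNK)
            (((hp2i.mono_set hNK).const_mul 2).add (hB.const_mul _)) key
      _ = 2 * (∫ x in N, p x ^ 2) + 4 * L * ∫ x in N, (b (x + h) - b (x + 0)) := by
          have i1 : Integrable (fun x => 2 * p x ^ 2) (volume.restrict N) :=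
            (hp2i.mono_set hNK).const_mul 2
          have i2 : Integrable (fun x => 4 * L * (b (x + h) - b (x + 0))) (volume.restrict N) :=
            hB.const_mul _
          rw [integral_add i1 i2, integral_const_mul, integral_const_mul]
      _ ≤ _ := by
          refine add_le_add ?_ ?_
          · refine mul_le_mul_of_nonneg_left ?_ (by norm_num)
            exact setIntegral_mono_set hp2i (Filter.Eventually.of_forall fun x => sq_nonneg _)
              (LE.le.eventuallyLE hNK)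
          · refine mul_le_mul_of_nonneg_left ?_ (by positivity)
            exact integral_shift_sub_le hKc hKv hr₀ hball hL hb hbL ht0 ht1 n1 n3
  have c3 : 4 * L * (2 * L * (d * t * volume.real K)) +
    4 * L ^ 2 * (d * t * volume.real K) = 12 * L ^ 2 * (d * t * volume.real K) := by ring
  linarith

lemma integral_uniform (f : E d → ℝ) :
    ∫ x, f x ∂(uniformProbOn K) = (volume.real K)⁻¹ * ∫ x in K, f x := by
  unfold uniformProbOn
  rw [integral_smul_measure, ENNReal.toReal_inv, smul_eq_mul]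
  rfl

lemma integral_pfun_mul (hKc : IsCompact K) {L : ℝ} (hL : 0 ≤ L)
    {a b : E d → ℝ}
    (haL : ∀ᵐ x ∂(volume.restrict K), |a x| ≤ L) (hbL : ∀ᵐ x ∂(volume.restrict K), |b x| ≤ L)
    (r : ℝ) (h : E d) :
    ∫ x in K, pfun K (2 * L) a b h x * (r * (a x - b (x + h))) =
      r * ∫ x in K, pfun K (2 * L) a b h x ^ 2 := by
  have hKm := hKc.measurableSet
  rw [← integral_const_mul]
  refine integral_congr_ae ?_
  have h1 : ∀ᵐ x ∂(volume.restrict K), x + h ∈ K → |b (x + h)| ≤ L := by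
    have h2 : ∀ᵐ x ∂(volume : Measure (E d)), x ∈ K → |b x| ≤ L := (ae_restrict_iff' hKm).1 hbL
    exact ae_restrict_of_ae
      ((measurePreserving_add_right volume h).quasiMeasurePreserving.ae h2)
  filter_upwards [haL, h1, ae_restrict_mem hKm] with x h2 h3 hx
  unfold pfun
  split_ifs with hc
  · have h4 := h3 hc.2
    rw [abs_le] at h2 h4
    have e2 : clip (2 * L) (a x - b (x + h)) = max (a x - b (x + h)) 0 := by
      rw [clip, min_eq_left]
      exact max_le (by linarith) (by positivity)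
    rw [e2]
    rcases le_total (a x - b (x + h)) 0 with h5 | h5
    · rw [max_eq_right h5]; ring
    · rw [max_eq_left h5]; ring
  · ring

lemma one_side (hKc : IsCompact K) (hKv : Convex ℝ K) (hr₀ : 0 < r₀)
    (hball : Metric.closedBall x₀ r₀ ⊆ K) {L : ℝ} (hL : 0 ≤ L)
    {a b : E d → ℝ} (ha : Measurable a) (hb : Measurable b)
    (haL : ∀ᵐ x ∂(volume.restrict K), |a x| ≤ L) (hbL : ∀ᵐ x ∂(volume.restrict K), |b x| ≤ L)
    {r : ℝ} (hr : 0 < r) (hrr : r ≤ r₀) {h : E d} (hh : ‖h‖ = r)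
    (hamono : ∀ᵐ x ∂(volume : Measure (E d)), x ∈ K → x + h ∈ K → a x ≤ a (x + h))
    (hbmono : ∀ᵐ x ∂(volume : Measure (E d)), x ∈ K → x + h ∈ K → b x ≤ b (x + h))
    {C Q : ℝ} (hC : 0 ≤ C) (hQ : 0 ≤ Q)
    (hshift : ∫ x, pfun K (2 * L) a b h x * (r * (a x - b (x + h))) ∂(uniformProbOn K) ≤
      C * Real.sqrt (∫ x, (pfun K (2 * L) a b h (x - h) - pfun K (2 * L) a b h x) ^ 2
        ∂(uniformProbOn K)) * Q) :
    ∫ x, (max (a x - b x) 0) ^ 2 ∂(uniformProbOn K) ≤
      2 * (C * Real.sqrt (12 * L ^ 2 * d / r₀)) * ((Real.sqrt r)⁻¹ * Q) +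
        12 * L ^ 2 * (d / r₀) * r := by
  have hV : 0 < volume.real K := by
    have h1 : 0 < volume (Metric.closedBall x₀ r₀) := Metric.measure_closedBall_pos _ _ hr₀
    exact ENNReal.toReal_pos (lt_of_lt_of_le h1 (measure_mono hball)).ne'
      hKc.measure_lt_top.ne
  rw [integral_uniform, integral_uniform, integral_pfun_mul hKc hL haL hbL] at hshift
  rw [integral_uniform]
  have c1 := core_one hKc hKv hr₀ hball hL ha hb haL hbL hr hrr hh hamono hbmono
  have c2 := core_two hKc hKv hr₀ hball hL ha hb haL hbL hr hrr hh hbmono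
  set V := volume.real K
  set P := ∫ x in K, pfun K (2 * L) a b h x ^ 2
  set D := ∫ x in K, (pfun K (2 * L) a b h (x - h) - pfun K (2 * L) a b h x) ^ 2
  have c3 : V⁻¹ * D ≤ 12 * L ^ 2 * d / r₀ * r := by
    calc V⁻¹ * D ≤ V⁻¹ * (12 * L ^ 2 * (d * (r / r₀) * V)) :=
          mul_le_mul_of_nonneg_left c1 (inv_nonneg.2 hV.le)
      _ = _ := by field_simp
  have c4 : Real.sqrt (V⁻¹ * D) ≤ Real.sqrt (12 * L ^ 2 * d / r₀) * Real.sqrt r := by
    rw [← Real.sqrt_mul (by positivity)]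
    exact Real.sqrt_le_sqrt c3
  have hsr : 0 < Real.sqrt r := Real.sqrt_pos.2 hr
  have c5 : V⁻¹ * P ≤ C * Real.sqrt (12 * L ^ 2 * d / r₀) * ((Real.sqrt r)⁻¹ * Q) := by
    have c6 : r * (V⁻¹ * P) ≤ C * (Real.sqrt (12 * L ^ 2 * d / r₀) * Real.sqrt r) * Q := by
      calc r * (V⁻¹ * P) = V⁻¹ * (r * P) := by ring
        _ ≤ C * Real.sqrt (V⁻¹ * D) * Q := hshift
        _ ≤ _ := by gcongr
    have c7 : V⁻¹ * P ≤ r⁻¹ * (C * (Real.sqrt (12 * L ^ 2 * d / r₀) * Real.sqrt r) * Q) := by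
      rw [le_inv_mul_iff₀ hr]; exact c6
    refine c7.trans (le_of_eq ?_)
    have c8 : r⁻¹ * Real.sqrt r = (Real.sqrt r)⁻¹ := by
      have := Real.mul_self_sqrt hr.le
      field_simp
      nlinarith
    calc _ = C * Real.sqrt (12 * L ^ 2 * d / r₀) * ((r⁻¹ * Real.sqrt r) * Q) := by ring
      _ = _ := by rw [c8]
  calc V⁻¹ * ∫ x in K, (max (a x - b x) 0) ^ 2
      ≤ V⁻¹ * (2 * P + 12 * L ^ 2 * (d * (r / r₀) * V)) :=
        mul_le_mul_of_nonneg_left c2 (inv_nonneg.2 hV.le)
    _ = 2 * (V⁻¹ * P) + 12 * L ^ 2 * (d / r₀) * r := by field_simp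
    _ ≤ 2 * (C * Real.sqrt (12 * L ^ 2 * d / r₀) * ((Real.sqrt r)⁻¹ * Q)) +
        12 * L ^ 2 * (d / r₀) * r := by gcongr
    _ = _ := by ring

end core

/-- from the estimate for all radii to the one third power -/
lemma optimise {A B I q : ℝ} (hB : 0 ≤ B) (hq : 0 ≤ q)
    (h : ∀ r : ℝ, 0 < r → I ≤ A * ((Real.sqrt r)⁻¹ * Real.sqrt q) + B * r) :
    I ≤ (A + B) * q ^ (1 / 3 : ℝ) := by
  rcases hq.eq_or_lt with h0 | hpos
  · rw [← h0, Real.zero_rpow (by norm_num), mul_zero]
    by_contra hcon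
    push Not at hcon
    have h1 := h (I / (2 * (B + 1))) (by positivity)
    rw [← h0, Real.sqrt_zero, mul_zero, mul_zero, zero_add] at h1
    have h2 : B * (I / (2 * (B + 1))) = B / (B + 1) * (I / 2) := by field_simp
    have h3 : B / (B + 1) ≤ 1 := by rw [div_le_one (by positivity)]; linarith
    rw [h2] at h1
    nlinarith
  · have hr : 0 < q ^ (1 / 3 : ℝ) := Real.rpow_pos_of_pos hpos _
    have h1 := h _ hr
    have h2 : (Real.sqrt (q ^ (1 / 3 : ℝ)))⁻¹ * Real.sqrt q = q ^ (1 / 3 : ℝ) := by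
      rw [Real.sqrt_eq_rpow, Real.sqrt_eq_rpow, ← Real.rpow_mul hq, ← Real.rpow_neg hq,
        ← Real.rpow_add hpos]
      norm_num
    rw [h2] at h1
    linarith


lemma ae_uniform_iff {K : Set (E d)} (hKf : volume K ≠ ∞) {P : E d → Prop} :
    (∀ᵐ x ∂(uniformProbOn K), P x) ↔ ∀ᵐ x ∂(volume.restrict K), P x := by
  unfold uniformProbOn
  exact Measure.ae_ennreal_smul_measure_iff (ENNReal.inv_ne_zero.2 hKf)

lemma ae_mem_of_map {ρ μ : Measure (E d)} {Y : Set (E d)} (hY : MeasurableSet Y)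
    (hμ : IsProbabilityOn Y μ) {T : E d → E d} (hT : Measurable T) (hmap : ρ.map T = μ) :
    ∀ᵐ x ∂ρ, T x ∈ Y := by
  have h1 : ρ (T ⁻¹' Yᶜ) = 0 := by
    rw [← Measure.map_apply hT hY.compl, hmap]; exact hμ.2
  rw [ae_iff]
  exact h1

lemma quadCost_swap (π : Measure (E d × E d)) : quadCost (π.map Prod.swap) = quadCost π := by
  unfold quadCost
  rw [lintegral_map _ measurable_swap]
  · refine lintegral_congr fun p => ?_
    have h1 : ‖p.2 - p.1‖ₑ = ‖p.1 - p.2‖ₑ := by rw [← enorm_neg, neg_sub]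
    rw [Prod.fst_swap, Prod.snd_swap, h1]
  · fun_prop

lemma isPairCoupling_swap {μ ν : Measure (E d)} {π : Measure (E d × E d)}
    (h : IsPairCoupling μ ν π) : IsPairCoupling ν μ (π.map Prod.swap) := by
  refine ⟨?_, ?_⟩
  · rw [Measure.map_map measurable_fst measurable_swap]; exact h.2
  · rw [Measure.map_map measurable_snd measurable_swap]; exact h.1

lemma norm_sq_eq_sum (x : E d) :
    ‖x‖ ^ 2 = ∑ i, (inner ℝ (EuclideanSpace.single i (1 : ℝ)) x) ^ 2 := by
  rw [EuclideanSpace.norm_sq_eq]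
  refine Finset.sum_congr rfl fun i _ => ?_
  rw [EuclideanSpace.inner_single_left]
  simp

/-- Part G: the final estimate from the shift monotonicity (F1) and the shift inequality (F2). -/
theorem final_estimate_of (K : Set (E d)) (hKc : IsCompact K) (hKv : Convex ℝ K)
    (hKi : (interior K).Nonempty) (Y : Set (E d)) (hYc : IsCompact Y)
    (hF1 : ∀ (μ : Measure (E d)), IsProbabilityOn Y μ → ∀ T : E d → E d,
      IsOptimalMap (uniformProbOn K) μ T → ∀ h : E d,
      ∀ᵐ x ∂(volume : Measure (E d)), x ∈ K → x + h ∈ K → 0 ≤ inner ℝ h (T (x + h) - T x))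
    (hF2 : ∃ C : ℝ, 0 ≤ C ∧ ∀ (μ ν : Measure (E d)), IsProbabilityOn Y μ → IsProbabilityOn Y ν →
      ∀ (Tμ Tν : E d → E d), IsOptimalMap (uniformProbOn K) μ Tμ →
      IsOptimalMap (uniformProbOn K) ν Tν →
      ∀ (π : Measure (E d × E d)), IsPairCoupling μ ν π → ∀ (h : E d) (p : E d → ℝ),
      Measurable p → (∀ x, 0 ≤ p x) → (∃ M, ∀ x, p x ≤ M) → (∀ x, p x ≠ 0 → x ∈ K ∧ x + h ∈ K) →
      ∫ x, p x * inner ℝ h (Tμ x - Tν (x + h)) ∂(uniformProbOn K) ≤
        C * Real.sqrt (∫ x, (p (x - h) - p x) ^ 2 ∂(uniformProbOn K)) *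
          Real.sqrt (quadCost π).toReal) :
    ∃ C : ℝ≥0, ∀ μ ν : Measure (E d), IsProbabilityOn Y μ → IsProbabilityOn Y ν →
      ∀ Tμ Tν : E d → E d,
        IsOptimalMap (uniformProbOn K) μ Tμ → IsOptimalMap (uniformProbOn K) ν Tν →
        ∀ π : Measure (E d × E d), IsPairCoupling μ ν π →
          ∫⁻ x, ‖Tμ x - Tν x‖ₑ ^ 2 ∂(uniformProbOn K) ≤ C * quadCost π ^ (1 / 3 : ℝ) := by
  obtain ⟨x₀, hx₀⟩ := hKi
  obtain ⟨r₀, hr₀, hball⟩ :=
    Metric.nhds_basis_closedBall.mem_iff.1 (mem_interior_iff_mem_nhds.1 hx₀)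
  obtain ⟨L', hL'⟩ := hYc.isBounded.exists_norm_le
  set L := max L' 0 with hLdef
  have hL : 0 ≤ L := le_max_right _ _
  have hYL : ∀ y ∈ Y, ‖y‖ ≤ L := fun y hy => (hL' y hy).trans (le_max_left _ _)
  obtain ⟨C, hC, hF2⟩ := hF2
  have hKf : volume K ≠ ∞ := hKc.measure_lt_top.ne
  have hV : 0 < volume.real K := by
    have h1 : 0 < volume (Metric.closedBall x₀ r₀) := Metric.measure_closedBall_pos _ _ hr₀
    exact ENNReal.toReal_pos (lt_of_lt_of_le h1 (measure_mono hball)).ne'
      hKc.measure_lt_top.ne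
  set A₁ : ℝ := 2 * (C * Real.sqrt (12 * L ^ 2 * d / r₀)) with hA₁
  set B₁ : ℝ := 12 * L ^ 2 * (d / r₀) with hB₁
  have hA₁0 : 0 ≤ A₁ := by positivity
  have hB₁0 : 0 ≤ B₁ := by positivity
  set A : ℝ := d * (2 * A₁) with hA
  set B : ℝ := d * (2 * B₁) + 4 * L ^ 2 / r₀ with hB
  have hA0 : 0 ≤ A := by positivity
  have hB0 : 0 ≤ B := by positivity
  refine ⟨(A + B + 1).toNNReal, ?_⟩
  intro μ ν hμ hν Tμ Tν hTμ hTν π hπ
  set ρ := uniformProbOn K with hρ
  -- infinite cost is trivial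
  rcases eq_or_ne (quadCost π) ∞ with hinf | hfin
  · rw [hinf, ENNReal.top_rpow_of_pos (by norm_num), ENNReal.mul_top]
    · exact le_top
    · rw [Ne, ENNReal.coe_eq_zero, Real.toNNReal_eq_zero]
      push Not
      positivity
  -- a.e. bounds
  have hYm := hYc.measurableSet
  have bdμ : ∀ᵐ x ∂(volume.restrict K), ‖Tμ x‖ ≤ L := by
    rw [← ae_uniform_iff hKf]
    filter_upwards [ae_mem_of_map hYm hμ hTμ.1 hTμ.2.1] with x hx using hYL _ hx
  have bdν : ∀ᵐ x ∂(volume.restrict K), ‖Tν x‖ ≤ L := by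
    rw [← ae_uniform_iff hKf]
    filter_upwards [ae_mem_of_map hYm hν hTν.1 hTν.2.1] with x hx using hYL _ hx
  have : IsProbabilityMeasure ρ := by
    refine ⟨?_⟩
    rw [hρ, uniformProbOn, Measure.smul_apply, Measure.restrict_apply_univ, smul_eq_mul]
    refine ENNReal.inv_mul_cancel ?_ hKf
    intro h0
    rw [Measure.real, h0, ENNReal.toReal_zero] at hV
    exact lt_irrefl _ hV
  have hρV : ∀ {f : E d → ℝ} {M : ℝ}, Measurable f →
      (∀ᵐ x ∂(volume.restrict K), |f x| ≤ M) → Integrable f ρ := by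
    intro f M hf hM
    refine Integrable.mono' (g := fun _ => M) (integrable_const M) hf.aestronglyMeasurable ?_
    rw [ae_uniform_iff hKf]
    filter_upwards [hM] with x hx
    rwa [Real.norm_eq_abs]
  have hsm : ∀ {T : E d → E d}, Measurable T → ∀ i : Fin d,
      Measurable (fun x => inner ℝ (EuclideanSpace.single i (1 : ℝ)) (T x)) :=
    fun hT i => measurable_const.inner hT
  have hsb : ∀ {T : E d → E d}, (∀ᵐ x ∂(volume.restrict K), ‖T x‖ ≤ L) → ∀ i : Fin d,
      ∀ᵐ x ∂(volume.restrict K), |inner ℝ (EuclideanSpace.single i (1 : ℝ)) (T x)| ≤ L := by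
    intro T hT i
    filter_upwards [hT] with x hx
    calc |inner ℝ (EuclideanSpace.single i (1 : ℝ)) (T x)|
        ≤ ‖(EuclideanSpace.single i (1 : ℝ) : E d)‖ * ‖T x‖ := abs_real_inner_le_norm _ _
      _ ≤ L := by simpa using hx
  set q := (quadCost π).toReal with hq
  have hq0 : 0 ≤ q := ENNReal.toReal_nonneg
  -- one side, small radii
  have hside : ∀ (μ ν : Measure (E d)), IsProbabilityOn Y μ → IsProbabilityOn Y ν →
      ∀ (Tμ Tν : E d → E d), IsOptimalMap ρ μ Tμ → IsOptimalMap ρ ν Tν →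
      (∀ᵐ x ∂(volume.restrict K), ‖Tμ x‖ ≤ L) → (∀ᵐ x ∂(volume.restrict K), ‖Tν x‖ ≤ L) →
      ∀ (π : Measure (E d × E d)), IsPairCoupling μ ν π → ∀ (i : Fin d) (r : ℝ), 0 < r → r ≤ r₀ →
      ∫ x, (max (inner ℝ (EuclideanSpace.single i (1 : ℝ)) (Tμ x) -
        inner ℝ (EuclideanSpace.single i (1 : ℝ)) (Tν x)) 0) ^ 2 ∂ρ ≤
        A₁ * ((Real.sqrt r)⁻¹ * Real.sqrt (quadCost π).toReal) + B₁ * r := by
    intro μ ν hμ hν Tμ Tν hTμ hTν bdμ bdν π hπ i r hr hrr
    set e : E d := EuclideanSpace.single i (1 : ℝ) with he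
    have hen : ‖e‖ = 1 := by simp [he]
    set h : E d := r • e with hh
    have hhn : ‖h‖ = r := by rw [hh, norm_smul, hen, Real.norm_eq_abs, abs_of_pos hr, mul_one]
    have mono : ∀ {μ : Measure (E d)}, IsProbabilityOn Y μ → ∀ {T : E d → E d},
        IsOptimalMap ρ μ T →
        ∀ᵐ x ∂(volume : Measure (E d)), x ∈ K → x + h ∈ K →
          inner ℝ e (T x) ≤ inner ℝ e (T (x + h)) := by
      intro μ hμ T hT
      filter_upwards [hF1 μ hμ T hT h] with x hx h1 h2
      have h3 := hx h1 h2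
      rw [hh, inner_smul_left, inner_sub_right] at h3
      simp only [conj_trivial] at h3
      have h4 := nonneg_of_mul_nonneg_right h3 hr
      rw [← hh] at h4
      linarith
    have hs := hF2 μ ν hμ hν Tμ Tν hTμ hTν π hπ h
      (pfun K (2 * L) (fun x => inner ℝ e (Tμ x)) (fun x => inner ℝ e (Tν x)) h)
      (measurable_pfun hKc.measurableSet (hsm hTμ.1 i) (hsm hTν.1 i) h)
      (pfun_nonneg (by positivity) _ _ _) ⟨2 * L, pfun_le (by positivity) _ _ _⟩
      (by
        intro x hx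
        by_contra hcon
        exact hx (by unfold pfun; rw [if_neg hcon]))
    have hs' : ∫ x, pfun K (2 * L) (fun x => inner ℝ e (Tμ x)) (fun x => inner ℝ e (Tν x)) h x *
        (r * ((fun x => inner ℝ e (Tμ x)) x - (fun x => inner ℝ e (Tν x)) (x + h)))
          ∂(uniformProbOn K) ≤
        C * Real.sqrt (∫ x, (pfun K (2 * L) (fun x => inner ℝ e (Tμ x))
          (fun x => inner ℝ e (Tν x)) h (x - h) - pfun K (2 * L) (fun x => inner ℝ e (Tμ x))
          (fun x => inner ℝ e (Tν x)) h x) ^ 2 ∂(uniformProbOn K)) *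
          Real.sqrt (quadCost π).toReal := by
      refine le_trans (le_of_eq ?_) hs
      refine integral_congr_ae (Filter.Eventually.of_forall fun x => ?_)
      simp only
      rw [hh, inner_smul_left, inner_sub_right]
      simp
    exact one_side hKc hKv hr₀ hball hL (hsm hTμ.1 i) (hsm hTν.1 i) (hsb bdμ i) (hsb bdν i)
      hr hrr hhn (mono hμ hTμ) (mono hν hTν) hC (Real.sqrt_nonneg _) hs'
  -- full estimate, all radii
  have hint : ∀ i : Fin d, Integrable (fun x =>
      (inner ℝ (EuclideanSpace.single i (1 : ℝ)) (Tμ x - Tν x)) ^ 2) ρ := by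
    intro i
    refine hρV (M := (2 * L) ^ 2) ((hsm (hTμ.1.sub hTν.1) i).pow_const 2) ?_
    filter_upwards [hsb bdμ i, hsb bdν i] with x h1 h2
    rw [abs_of_nonneg (sq_nonneg _), inner_sub_right]
    rw [abs_le] at h1 h2
    apply sq_le_sq'
    · linarith
    · linarith
  have hnorm : Integrable (fun x => ‖Tμ x - Tν x‖ ^ 2) ρ := by
    simp_rw [norm_sq_eq_sum]
    exact integrable_finsetSum _ fun i _ => hint i
  have hall : ∀ r : ℝ, 0 < r → ∫ x, ‖Tμ x - Tν x‖ ^ 2 ∂ρ ≤
      A * ((Real.sqrt r)⁻¹ * Real.sqrt q) + B * r := by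
    intro r hr
    rcases le_total r r₀ with hrr | hrr
    · have h1 : ∫ x, ‖Tμ x - Tν x‖ ^ 2 ∂ρ = ∑ i : Fin d, ∫ x,
          (inner ℝ (EuclideanSpace.single i (1 : ℝ)) (Tμ x - Tν x)) ^ 2 ∂ρ := by
        simp_rw [norm_sq_eq_sum]
        rw [integral_finsetSum]
        intro i _
        exact hint i
      have h2 : ∀ i : Fin d, ∫ x,
          (inner ℝ (EuclideanSpace.single i (1 : ℝ)) (Tμ x - Tν x)) ^ 2 ∂ρ ≤
          2 * A₁ * ((Real.sqrt r)⁻¹ * Real.sqrt q) + 2 * B₁ * r := by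
        intro i
        have g1 := hside μ ν hμ hν Tμ Tν hTμ hTν bdμ bdν π hπ i r hr hrr
        have g2 := hside ν μ hν hμ Tν Tμ hTν hTμ bdν bdμ _ (isPairCoupling_swap hπ) i r hr hrr
        rw [quadCost_swap] at g2
        have i1 : Integrable (fun x => (max (inner ℝ (EuclideanSpace.single i (1 : ℝ)) (Tμ x) -
            inner ℝ (EuclideanSpace.single i (1 : ℝ)) (Tν x)) 0) ^ 2) ρ := by
          refine hρV (M := (2 * L) ^ 2)
            ((((hsm hTμ.1 i).sub (hsm hTν.1 i)).max measurable_const).pow_const 2) ?_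
          filter_upwards [hsb bdμ i, hsb bdν i] with x h1 h2
          rw [abs_of_nonneg (sq_nonneg _)]
          rw [abs_le] at h1 h2
          exact pow_le_pow_left₀ (le_max_right _ _) (max_le (by linarith) (by linarith)) 2
        have i2 : Integrable (fun x => (max (inner ℝ (EuclideanSpace.single i (1 : ℝ)) (Tν x) -
            inner ℝ (EuclideanSpace.single i (1 : ℝ)) (Tμ x)) 0) ^ 2) ρ := by
          refine hρV (M := (2 * L) ^ 2)
            ((((hsm hTν.1 i).sub (hsm hTμ.1 i)).max measurable_const).pow_const 2) ?_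
          filter_upwards [hsb bdμ i, hsb bdν i] with x h1 h2
          rw [abs_of_nonneg (sq_nonneg _)]
          rw [abs_le] at h1 h2
          exact pow_le_pow_left₀ (le_max_right _ _) (max_le (by linarith) (by linarith)) 2
        have g3 : ∫ x, (inner ℝ (EuclideanSpace.single i (1 : ℝ)) (Tμ x - Tν x)) ^ 2 ∂ρ =
            (∫ x, (max (inner ℝ (EuclideanSpace.single i (1 : ℝ)) (Tμ x) -
            inner ℝ (EuclideanSpace.single i (1 : ℝ)) (Tν x)) 0) ^ 2 ∂ρ) +
            ∫ x, (max (inner ℝ (EuclideanSpace.single i (1 : ℝ)) (Tν x) -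
            inner ℝ (EuclideanSpace.single i (1 : ℝ)) (Tμ x)) 0) ^ 2 ∂ρ := by
          rw [← integral_add i1 i2]
          refine integral_congr_ae (Filter.Eventually.of_forall fun x => ?_)
          simp only
          rw [inner_sub_right]
          set s := inner ℝ (EuclideanSpace.single i (1 : ℝ)) (Tμ x)
          set u := inner ℝ (EuclideanSpace.single i (1 : ℝ)) (Tν x)
          rcases le_total s u with hsu | hsu
          · rw [max_eq_right (by linarith : s - u ≤ 0), max_eq_left (by linarith : 0 ≤ u - s)]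
            ring
          · rw [max_eq_left (by linarith : 0 ≤ s - u), max_eq_right (by linarith : u - s ≤ 0)]
            ring
        rw [g3]
        linarith
      rw [h1]
      calc _ ≤ ∑ i : Fin d, (2 * A₁ * ((Real.sqrt r)⁻¹ * Real.sqrt q) + 2 * B₁ * r) :=
            Finset.sum_le_sum fun i _ => h2 i
        _ = d * (2 * A₁) * ((Real.sqrt r)⁻¹ * Real.sqrt q) + d * (2 * B₁) * r := by
            rw [Finset.sum_const, Finset.card_univ, Fintype.card_fin, nsmul_eq_mul]; ring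
        _ ≤ A * ((Real.sqrt r)⁻¹ * Real.sqrt q) + B * r := by
            have : 0 ≤ 4 * L ^ 2 / r₀ * r := by positivity
            rw [hA, hB]
            linarith
    · have h1 : ∫ x, ‖Tμ x - Tν x‖ ^ 2 ∂ρ ≤ ∫ _x, (2 * L) ^ 2 ∂ρ := by
        refine integral_mono_ae hnorm (integrable_const _) ?_
        rw [Filter.EventuallyLE, ae_uniform_iff hKf]
        filter_upwards [bdμ, bdν] with x h1 h2
        exact pow_le_pow_left₀ (norm_nonneg _) ((norm_sub_le _ _).trans (by linarith)) 2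
      rw [integral_const, probReal_univ, one_smul] at h1
      have h2 : (2 * L) ^ 2 ≤ 4 * L ^ 2 / r₀ * r := by
        rw [div_mul_eq_mul_div, le_div_iff₀ hr₀]
        have : (2 * L) ^ 2 = 4 * L ^ 2 := by ring
        rw [this]
        exact mul_le_mul_of_nonneg_left hrr (by positivity)
      have h3 : 0 ≤ A * ((Real.sqrt r)⁻¹ * Real.sqrt q) := by positivity
      have h4 : 0 ≤ d * (2 * B₁) * r := by positivity
      rw [hB]
      linarith
  have hfinal := optimise hB0 hq0 hall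
  -- conversion to extended nonnegative reals
  have hconv : ∫⁻ x, ‖Tμ x - Tν x‖ₑ ^ 2 ∂ρ = ENNReal.ofReal (∫ x, ‖Tμ x - Tν x‖ ^ 2 ∂ρ) := by
    rw [ofReal_integral_eq_lintegral_ofReal hnorm (Filter.Eventually.of_forall fun x => by positivity)]
    refine lintegral_congr fun x => ?_
    rw [ENNReal.ofReal_pow (norm_nonneg _), ofReal_norm]
  rw [hconv]
  have hq' : quadCost π = ENNReal.ofReal q := (ENNReal.ofReal_toReal hfin).symm
  rw [hq', ENNReal.ofReal_rpow_of_nonneg hq0 (by norm_num)]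
  have hcoe : (((A + B + 1).toNNReal : ℝ≥0) : ℝ≥0∞) = ENNReal.ofReal (A + B + 1) := rfl
  rw [hcoe, ← ENNReal.ofReal_mul (by positivity)]
  refine ENNReal.ofReal_le_ofReal (hfinal.trans ?_)
  refine mul_le_mul_of_nonneg_right (by linarith) (Real.rpow_nonneg hq0 _)

end Crest.Agent.R082.Final
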