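import Crest.Agent.R082.SemiDisc
import Crest.Agent.R082.ExactMap

/-!
Row 82 (S0109), part E2: optimal maps are almost optimal for discretised targets.
-/

set_option autoImplicit false

open MeasureTheory
open scoped ENNReal NNReal
open Crest.AnalysisR.OT

namespace Crest.Agent.R082.GapAux

variable {d : ℕ}

theorem isProb_uniform (K : Set (E d)) (hKc : IsCompact K) (hKi : (interior K).Nonempty) :
    IsProbabilityMeasure (uniformProbOn K) := by
  have h0 : (volume K) ≠ 0 := by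
    intro h
    have h1 : 0 < volume (interior K) := isOpen_interior.measure_pos volume hKi
    exact absurd (measure_mono_null interior_subset h) h1.ne'
  have ht : volume K ≠ ⊤ := hKc.measure_lt_top.ne
  constructor
  simp only [uniformProbOn, Measure.smul_apply, Measure.restrict_apply MeasurableSet.univ,
    Set.univ_inter, smul_eq_mul]
  exact ENNReal.inv_mul_cancel h0 ht

theorem uniform_ac (K : Set (E d)) : uniformProbOn K ≪ (volume : Measure (E d)) := by
  intro s hs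
  simp only [uniformProbOn, Measure.smul_apply, smul_eq_mul]
  have : (volume.restrict K) s = 0 := Measure.absolutelyContinuous_of_le Measure.restrict_le_self hs
  simp [this]

theorem uniform_compl (K : Set (E d)) (hK : MeasurableSet K) : uniformProbOn K Kᶜ = 0 := by
  simp [uniformProbOn, Measure.restrict_apply hK.compl]

theorem uniform_ae_mem (K : Set (E d)) (hK : MeasurableSet K) :
    ∀ᵐ x ∂(uniformProbOn K), x ∈ K := by
  rw [ae_iff]
  exact uniform_compl K hK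

variable {ι : Type} [Fintype ι] [Nonempty ι]

omit [Fintype ι] [Nonempty ι] in
theorem isClosed_cell (K : Set (E d)) (hK : IsClosed K) (y : ι → E d) (ψ : ι → ℝ) (i : ι) :
    IsClosed (cell K y ψ i) := by
  have : cell K y ψ i = K ∩ ⋂ j, {x | inner ℝ x (y j) - ψ j ≤ inner ℝ x (y i) - ψ i} := by
    ext x; simp [cell]
  rw [this]
  refine hK.inter (isClosed_iInter fun j => ?_)
  exact isClosed_le (by fun_prop) (by fun_prop)

theorem iUnion_cell (K : Set (E d)) (y : ι → E d) (ψ : ι → ℝ) :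
    (⋃ i, cell K y ψ i) = K := by
  apply Set.Subset.antisymm
  · exact Set.iUnion_subset fun i x hx => hx.1
  · intro x hx
    obtain ⟨i, -, hi⟩ := Finset.exists_max_image Finset.univ
      (fun j => inner ℝ x (y j) - ψ j) Finset.univ_nonempty
    exact Set.mem_iUnion.2 ⟨i, hx, fun j => hi j (Finset.mem_univ j)⟩

theorem phi_eq_of_mem (K : Set (E d)) (y : ι → E d) (ψ : ι → ℝ) (i : ι) (x : E d)
    (hx : x ∈ cell K y ψ i) : phi y ψ x = inner ℝ x (y i) - ψ i := by
  apply le_antisymm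
  · exact Finset.sup'_le _ _ fun j _ => hx.2 j
  · exact Finset.le_sup' (fun j => inner ℝ x (y j) - ψ j) (Finset.mem_univ i)

omit [Nonempty ι] in
/-- If finitely many sets of total mass one cover the space up to a null set, they are pairwise
almost disjoint. -/
theorem ae_disjoint_of_sum_eq (ρ : Measure (E d)) [IsProbabilityMeasure ρ]
    (A : ι → Set (E d)) (hA : ∀ i, MeasurableSet (A i)) (hAu : ρ (⋃ i, A i)ᶜ = 0)
    (hs : ∑ i, ρ.real (A i) = 1) (i j : ι) (hij : i ≠ j) : ρ (A i ∩ A j) = 0 := by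
  classical
  have hU : ρ.real (⋃ i, A i) = 1 := by
    have h1 : ρ (⋃ i, A i) = 1 := by
      rw [← prob_compl_eq_zero_iff (MeasurableSet.iUnion hA)]
      exact hAu
    simp [Measure.real, h1]
  have hsub : (⋃ k, A k) ⊆ (A i ∪ A j) ∪ ⋃ k ∈ (Finset.univ.erase i).erase j, A k := by
    intro x hx
    obtain ⟨k, hk⟩ := Set.mem_iUnion.1 hx
    by_cases h1 : k = i
    · subst h1; exact Or.inl (Or.inl hk)
    by_cases h2 : k = j
    · subst h2; exact Or.inl (Or.inr hk)
    · refine Or.inr ?_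
      simp only [Set.mem_iUnion]
      exact ⟨k, by simp [h1, h2], hk⟩
  have h2 : ρ.real (⋃ k, A k) ≤ ρ.real (A i ∪ A j) +
      ∑ k ∈ (Finset.univ.erase i).erase j, ρ.real (A k) := by
    refine (measureReal_mono hsub).trans ?_
    refine (measureReal_union_le _ _).trans ?_
    gcongr
    exact measureReal_biUnion_finset_le _ _
  have h3 : ρ.real (A i ∪ A j) + ρ.real (A i ∩ A j) = ρ.real (A i) + ρ.real (A j) :=
    measureReal_union_add_inter (hA j)
  have h4 : ∑ k, ρ.real (A k) = ρ.real (A i) + (ρ.real (A j) +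
      ∑ k ∈ (Finset.univ.erase i).erase j, ρ.real (A k)) := by
    rw [← Finset.add_sum_erase _ _ (Finset.mem_univ i),
      ← Finset.add_sum_erase (Finset.univ.erase i) _ (a := j) (by simp [hij.symm])]
  have h5 : ρ.real (A i ∩ A j) ≤ 0 := by linarith
  have h6 : ρ.real (A i ∩ A j) = 0 := le_antisymm h5 measureReal_nonneg
  exact (measureReal_eq_zero_iff).1 h6


omit [Fintype ι] [Nonempty ι] in
theorem integrable_inner_of_bdd (ρ : Measure (E d)) [IsFiniteMeasure ρ] (R : ℝ)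
    (hK : ∀ᵐ x ∂ρ, ‖x‖ ≤ R) (S : E d → E d) (hS : Measurable S) (hSR : ∀ᵐ x ∂ρ, ‖S x‖ ≤ R) :
    Integrable (fun x => inner ℝ x (S x)) ρ := by
  refine Integrable.of_bound (C := R * R) ?_ ?_
  · exact (measurable_id.inner hS).aestronglyMeasurable
  · filter_upwards [hK, hSR] with x h1 h2
    refine (norm_inner_le_norm x (S x)).trans ?_
    exact mul_le_mul h1 h2 (norm_nonneg _) ((norm_nonneg _).trans h1)

omit [Fintype ι] [Nonempty ι] in
theorem cost_real (ρ μ : Measure (E d)) [IsProbabilityMeasure ρ] (R : ℝ)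
    (hK : ∀ᵐ x ∂ρ, ‖x‖ ≤ R) (hμR : ∀ᵐ w ∂μ, ‖w‖ ≤ R) (S : E d → E d) (hS : Measurable S)
    (hmap : ρ.map S = μ) :
    Integrable (fun x : E d => ‖x - S x‖ ^ 2) ρ ∧ ∫ x, ‖x - S x‖ ^ 2 ∂ρ =
      ∫ x, ‖x‖ ^ 2 ∂ρ - 2 * ∫ x, inner ℝ x (S x) ∂ρ + ∫ w, ‖w‖ ^ 2 ∂μ := by
  have hSR : ∀ᵐ x ∂ρ, ‖S x‖ ≤ R := by
    subst hmap
    exact ae_of_ae_map hS.aemeasurable hμR
  have hi := integrable_inner_of_bdd ρ R hK S hS hSR
  have hx : Integrable (fun x : E d => ‖x‖ ^ 2) ρ := by
    refine Integrable.of_bound (C := R ^ 2) ?_ ?_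
    · fun_prop
    · filter_upwards [hK] with x h1
      rw [Real.norm_of_nonneg (by positivity)]
      gcongr
  have hSi : Integrable (fun x : E d => ‖S x‖ ^ 2) ρ := by
    refine Integrable.of_bound (C := R ^ 2) ?_ ?_
    · exact (hS.norm.pow_const 2).aestronglyMeasurable
    · filter_upwards [hSR] with x h1
      rw [Real.norm_of_nonneg (by positivity)]
      gcongr
  have hmapint : ∫ w, ‖w‖ ^ 2 ∂μ = ∫ x, ‖S x‖ ^ 2 ∂ρ := by
    subst hmap
    rw [integral_map hS.aemeasurable (by fun_prop)]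
  rw [hmapint]
  have hexp : ∀ x : E d, ‖x - S x‖ ^ 2 = ‖x‖ ^ 2 - 2 * inner ℝ x (S x) + ‖S x‖ ^ 2 :=
    fun x => norm_sub_sq_real x (S x)
  have hint : Integrable (fun x : E d => ‖x - S x‖ ^ 2) ρ := by
    simp only [hexp]
    exact (hx.sub (hi.const_mul 2)).add hSi
  refine ⟨hint, ?_⟩
  simp only [hexp]
  have e1 := integral_add (μ := ρ) (f := fun x : E d => ‖x‖ ^ 2 - 2 * inner ℝ x (S x))
    (g := fun x => ‖S x‖ ^ 2) (hx.sub (hi.const_mul 2)) hSi
  have e2 := integral_sub (μ := ρ) (f := fun x : E d => ‖x‖ ^ 2)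
    (g := fun x => 2 * inner ℝ x (S x)) hx (hi.const_mul 2)
  rw [e1, e2, integral_const_mul]

omit [Fintype ι] [Nonempty ι] in
/-- Optimal maps maximise the correlation. -/
theorem inner_le_of_optimal (ρ μ : Measure (E d)) [IsProbabilityMeasure ρ] (R : ℝ)
    (hK : ∀ᵐ x ∂ρ, ‖x‖ ≤ R) (hμR : ∀ᵐ w ∂μ, ‖w‖ ≤ R) (T : E d → E d)
    (hT : IsOptimalMap ρ μ T) (S : E d → E d) (hS : Measurable S) (hmap : ρ.map S = μ) :
    ∫ x, inner ℝ x (S x) ∂ρ ≤ ∫ x, inner ℝ x (T x) ∂ρ := by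
  have h := hT.2.2 S hS hmap
  obtain ⟨i1, e1⟩ := cost_real ρ μ R hK hμR T hT.1 hT.2.1
  obtain ⟨i2, e2⟩ := cost_real ρ μ R hK hμR S hS hmap
  have conv : ∀ V : E d → E d, Integrable (fun x : E d => ‖x - V x‖ ^ 2) ρ →
      ∫⁻ x, ‖x - V x‖ₑ ^ 2 ∂ρ = ENNReal.ofReal (∫ x, ‖x - V x‖ ^ 2 ∂ρ) := by
    intro V hV
    rw [ofReal_integral_eq_lintegral_ofReal hV (ae_of_all _ fun x => by positivity)]
    refine lintegral_congr fun x => ?_
    rw [← ofReal_norm, ENNReal.ofReal_pow (norm_nonneg _)]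
  rw [conv T i1, conv S i2] at h
  have h2 := (ENNReal.ofReal_le_ofReal_iff (integral_nonneg fun x => by positivity)).1 h
  linarith

/-- The Kantorovich functional at a potential, cell by cell. -/
theorem Kfun_eq_sum (K : Set (E d)) (hKc : IsCompact K) (ρ : Measure (E d))
    [IsProbabilityMeasure ρ] (hρK : ρ Kᶜ = 0) (m : ι → ℝ) (hm : ∀ i, 0 ≤ m i)
    (hm1 : ∑ i, m i = 1) (y : ι → E d) (ψ : ι → ℝ)
    (hψ : ∀ i, ρ (cell K y ψ i) = ENNReal.ofReal (m i)) :
    Kfun ρ m y ψ = ∑ i, ∫ x in cell K y ψ i, inner ℝ x (y i) ∂ρ := by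
  have hmeas : ∀ i, MeasurableSet (cell K y ψ i) :=
    fun i => (isClosed_cell K hKc.isClosed y ψ i).measurableSet
  have hreal : ∀ i, ρ.real (cell K y ψ i) = m i := by
    intro i
    rw [Measure.real, hψ i, ENNReal.toReal_ofReal (hm i)]
  have hU : ρ (⋃ i, cell K y ψ i)ᶜ = 0 := by rw [iUnion_cell]; exact hρK
  have hdis : Pairwise (Function.onFun (AEDisjoint ρ) (cell K y ψ)) := by
    intro i j hij
    exact ae_disjoint_of_sum_eq ρ _ hmeas hU (by simp [hreal, hm1]) i j hij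
  obtain ⟨R, hR⟩ := hKc.isBounded.exists_norm_le
  have hx : ∀ᵐ x ∂ρ, x ∈ K := by rw [ae_iff]; exact hρK
  have hinner : ∀ i, Integrable (fun x : E d => inner ℝ x (y i)) ρ := by
    intro i
    refine Integrable.of_bound (C := R * ‖y i‖) (by fun_prop) ?_
    filter_upwards [hx] with x h1
    exact (norm_inner_le_norm x (y i)).trans (by gcongr; exact hR x h1)
  have hphi : Integrable (phi y ψ) ρ := by
    have hcont : Continuous (phi y ψ) := by
      unfold phi
      exact Continuous.finset_sup'_apply _ (fun i _ => by fun_prop)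
    obtain ⟨C, hC⟩ := (hKc.image hcont).isBounded.exists_norm_le
    refine Integrable.of_bound (C := C) hcont.aestronglyMeasurable ?_
    filter_upwards [hx] with x h1
    exact hC _ ⟨x, h1, rfl⟩
  have hrestr : ρ.restrict (⋃ i, cell K y ψ i) = ρ := by
    rw [iUnion_cell]
    exact Measure.restrict_eq_self_of_ae_mem hx
  have e1 : ∫ x, phi y ψ x ∂ρ = ∑ i, ∫ x in cell K y ψ i, phi y ψ x ∂ρ := by
    have := integral_iUnion_ae (μ := ρ) (s := cell K y ψ) (f := phi y ψ)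
      (fun i => (hmeas i).nullMeasurableSet) hdis (by rw [IntegrableOn, hrestr]; exact hphi)
    rw [hrestr, tsum_fintype] at this
    exact this
  have e2 : ∀ i, ∫ x in cell K y ψ i, phi y ψ x ∂ρ =
      ∫ x in cell K y ψ i, inner ℝ x (y i) ∂ρ - m i * ψ i := by
    intro i
    have : ∫ x in cell K y ψ i, phi y ψ x ∂ρ =
        ∫ x in cell K y ψ i, (inner ℝ x (y i) - ψ i) ∂ρ :=
      setIntegral_congr_fun (hmeas i) fun x hx => phi_eq_of_mem K y ψ i x hx
    rw [this, integral_sub (hinner i).integrableOn (integrable_const _).integrableOn,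
      setIntegral_const, hreal i, smul_eq_mul]
  unfold Kfun
  rw [e1]
  simp only [e2, Finset.sum_sub_distrib]
  ring

omit [Nonempty ι] in
theorem integral_eq_sum (ρ : Measure (E d)) [IsProbabilityMeasure ρ] (A : ι → Set (E d))
    (hA : ∀ i, MeasurableSet (A i)) (hAd : ∀ i j, i ≠ j → ρ (A i ∩ A j) = 0)
    (hAu : ρ (⋃ i, A i)ᶜ = 0) (f : E d → ℝ) (hf : Integrable f ρ) :
    ∫ x, f x ∂ρ = ∑ i, ∫ x in A i, f x ∂ρ := by
  have hrestr : ρ.restrict (⋃ i, A i) = ρ := by
    refine Measure.restrict_eq_self_of_ae_mem ?_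
    rw [ae_iff]
    exact hAu
  have := integral_iUnion_ae (μ := ρ) (s := A) (f := f)
    (fun i => (hA i).nullMeasurableSet) (fun i j hij => hAd i j hij)
    (by rw [IntegrableOn, hrestr]; exact hf)
  rw [hrestr, tsum_fintype] at this
  exact this

omit [Nonempty ι] in
/-- Comparison of `∫ ⟪x, S x⟫` with the discretised version. -/
theorem discretise (ρ : Measure (E d)) [IsProbabilityMeasure ρ] (R : ℝ) (hR : 0 ≤ R)
    (hKR : ∀ᵐ x ∂ρ, ‖x‖ ≤ R) (A : ι → Set (E d)) (hA : ∀ i, MeasurableSet (A i))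
    (hAd : ∀ i j, i ≠ j → ρ (A i ∩ A j) = 0) (hAu : ρ (⋃ i, A i)ᶜ = 0)
    (S : E d → E d) (hS : Measurable S) (hSR : ∀ᵐ x ∂ρ, ‖S x‖ ≤ R) (y : ι → E d) (δ : ℝ)
    (hy : ∀ i, ∀ᵐ x ∂ρ, x ∈ A i → ‖S x - y i‖ ≤ δ) :
    |∫ x, inner ℝ x (S x) ∂ρ - ∑ i, ∫ x in A i, inner ℝ x (y i) ∂ρ| ≤ R * δ := by
  have hi := integrable_inner_of_bdd ρ R hKR S hS hSR
  have hinner : ∀ i, Integrable (fun x : E d => inner ℝ x (y i)) ρ := by
    intro i
    refine Integrable.of_bound (C := R * ‖y i‖) (by fun_prop) ?_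
    filter_upwards [hKR] with x h1
    exact (norm_inner_le_norm x (y i)).trans (by gcongr)
  rw [integral_eq_sum ρ A hA hAd hAu _ hi, ← Finset.sum_sub_distrib]
  have hsum : ∑ i, ρ.real (A i) = 1 := by
    have := integral_eq_sum ρ A hA hAd hAu (fun _ => (1 : ℝ)) (integrable_const _)
    simp only [integral_const, smul_eq_mul, mul_one, probReal_univ] at this
    rw [this]
    simp
  have hterm : ∀ i, |∫ x in A i, inner ℝ x (S x) ∂ρ - ∫ x in A i, inner ℝ x (y i) ∂ρ| ≤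
      R * δ * ρ.real (A i) := by
    intro i
    rw [← integral_sub hi.integrableOn (hinner i).integrableOn, ← Real.norm_eq_abs]
    refine norm_setIntegral_le_of_norm_le_const_ae (C := R * δ) (measure_lt_top ρ (A i)) ?_
    rw [ae_restrict_iff' (hA i)]
    filter_upwards [hy i, hKR] with x h1 h2 h3
    rw [← inner_sub_right]
    refine (norm_inner_le_norm _ _).trans ?_
    exact mul_le_mul h2 (h1 h3) (norm_nonneg _) hR
  calc |∑ i, (∫ x in A i, inner ℝ x (S x) ∂ρ - ∫ x in A i, inner ℝ x (y i) ∂ρ)|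
      ≤ ∑ i, |∫ x in A i, inner ℝ x (S x) ∂ρ - ∫ x in A i, inner ℝ x (y i) ∂ρ| :=
        Finset.abs_sum_le_sum_abs _ _
    _ ≤ ∑ i, R * δ * ρ.real (A i) := Finset.sum_le_sum fun i _ => hterm i
    _ = R * δ := by rw [← Finset.mul_sum, hsum, mul_one]

end Crest.Agent.R082.GapAux

namespace Crest.Agent.R082

variable {d : ℕ}

/-- Part E2. Optimal maps are almost optimal for discretised targets. -/
theorem gap_of_isOptimalMap (hd : 0 < d) (K : Set (E d)) (hKc : IsCompact K) (_hKv : Convex ℝ K)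
    (hKi : (interior K).Nonempty) (Y : Set (E d)) (R : ℝ) (hKR : ∀ x ∈ K, ‖x‖ ≤ R)
    (hYR : ∀ x ∈ Y, ‖x‖ ≤ R) (μ : Measure (E d)) (hμ : IsProbabilityOn Y μ) (T : E d → E d)
    (hT : IsOptimalMap (uniformProbOn K) μ T) {ι : Type} [Fintype ι] [Nonempty ι]
    (B : ι → Set (E d)) (hB : ∀ i, MeasurableSet (B i))
    (hBd : ∀ i j, i ≠ j → Disjoint (B i) (B j)) (hBu : μ (⋃ i, B i)ᶜ = 0)
    (hBpos : ∀ i, 0 < μ.real (B i)) (y : ι → E d) (hy : Function.Injective y) (δ : ℝ) (_hδ : 0 ≤ δ)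
    (hyB : ∀ i, ∀ w ∈ B i, ‖w - y i‖ ≤ δ) :
    ∃ ψ : ι → ℝ, (∀ ψ' : ι → ℝ, Kfun (uniformProbOn K) (fun i => μ.real (B i)) y ψ ≤
        Kfun (uniformProbOn K) (fun i => μ.real (B i)) y ψ') ∧
      Kfun (uniformProbOn K) (fun i => μ.real (B i)) y ψ ≤
        (∑ i, ∫ x in T ⁻¹' (B i), inner ℝ x (y i) ∂(uniformProbOn K)) + 2 * R * δ := by
  have hρ : IsProbabilityMeasure (uniformProbOn K) := GapAux.isProb_uniform K hKc hKi
  have hμp : IsProbabilityMeasure μ := hμ.1
  have hR : 0 ≤ R := by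
    obtain ⟨x, hx⟩ := hKi
    exact (norm_nonneg x).trans (hKR x (interior_subset hx))
  have hKm := hKc.isClosed.measurableSet
  have hKn := GapAux.uniform_compl K hKm
  have hac := GapAux.uniform_ac K
  have hxK := GapAux.uniform_ae_mem K hKm
  have hxR : ∀ᵐ x ∂(uniformProbOn K), ‖x‖ ≤ R := hxK.mono fun x hx => hKR x hx
  have hμR : ∀ᵐ w ∂μ, ‖w‖ ≤ R := by
    have : ∀ᵐ w ∂μ, w ∈ Y := by rw [ae_iff]; exact hμ.2
    exact this.mono fun x hx => hYR x hx
  set ρ := uniformProbOn K with hρdef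
  have hBsum : ∑ i, μ (B i) = 1 := by
    have h1 : μ (⋃ i, B i) = 1 := by
      rw [← prob_compl_eq_zero_iff (MeasurableSet.iUnion hB)]
      exact hBu
    rw [← h1, measure_iUnion (fun i j hij => hBd i j hij) hB, tsum_fintype]
  have hm1 : ∑ i, μ.real (B i) = 1 := by
    simp only [Measure.real]
    rw [← ENNReal.toReal_sum (fun i _ => measure_ne_top μ _), hBsum]
    simp
  obtain ⟨ψ, hmin, hcell⟩ := exists_optimal_psi K hKc ρ hac hKn (fun i => μ.real (B i)) hBpos hm1 y hy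
  refine ⟨ψ, hmin, ?_⟩
  have hmeas : ∀ i, MeasurableSet (cell K y ψ i) :=
    fun i => (GapAux.isClosed_cell K hKc.isClosed y ψ i).measurableSet
  have hU : ρ (⋃ i, cell K y ψ i)ᶜ = 0 := by rw [GapAux.iUnion_cell]; exact hKn
  have hreal : ∀ i, ρ.real (cell K y ψ i) = μ.real (B i) := by
    intro i
    rw [Measure.real, hcell i, ENNReal.toReal_ofReal measureReal_nonneg]
  have hcd : ∀ i j, i ≠ j → ρ (cell K y ψ i ∩ cell K y ψ j) = 0 := fun i j hij =>
    GapAux.ae_disjoint_of_sum_eq ρ _ hmeas hU (by simp only [hreal, hm1]) i j hij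
  obtain ⟨S, hS, hSmap, hSB⟩ := exists_exact_map hd ρ μ hac (cell K y ψ) hmeas hcd hU B hB
    (fun i j hij => by rw [(hBd i j hij).inter_eq]; simp) hBu
    (fun i => by rw [hcell i, ofReal_measureReal])
  have hSR : ∀ᵐ x ∂ρ, ‖S x‖ ≤ R := by
    have h := hμR
    rw [← hSmap] at h
    exact ae_of_ae_map hS.aemeasurable h
  have hTR : ∀ᵐ x ∂ρ, ‖T x‖ ≤ R := by
    have h := hμR
    rw [← hT.2.1] at h
    exact ae_of_ae_map hT.1.aemeasurable h
  have h1 := GapAux.Kfun_eq_sum K hKc ρ hKn (fun i => μ.real (B i)) (fun i => (hBpos i).le) hm1 y ψ hcell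
  have h2 := GapAux.discretise ρ R hR hxR (cell K y ψ) hmeas hcd hU S hS hSR y δ
    (fun i => (hSB i).mono fun x hx hxi => hyB i _ (hx hxi))
  have h3 := GapAux.discretise ρ R hR hxR (fun i => T ⁻¹' (B i)) (fun i => hT.1 (hB i))
    (fun i j hij => by
      rw [← Set.preimage_inter, (hBd i j hij).inter_eq]; simp)
    (by
      rw [← Set.preimage_iUnion, ← Set.preimage_compl,
        ← Measure.map_apply hT.1 (MeasurableSet.iUnion hB).compl, hT.2.1]
      exact hBu)
    T hT.1 hTR y δ (fun i => ae_of_all _ fun x hxi => hyB i _ hxi)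
  have h4 := GapAux.inner_le_of_optimal ρ μ R hxR hμR T hT S hS hSmap
  rw [h1]
  have h2' := abs_le.1 h2
  have h3' := abs_le.1 h3
  linarith [h2'.1, h3'.2]

end Crest.Agent.R082
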