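import Crest.Agent.R082.Translate

/-!
Interpolation inequality for (sub)gradients of convex functions on a convex body, proved by
translations only. (Not used by the final proof of row 82.)
-/

set_option autoImplicit false

open MeasureTheory Set
open scoped ENNReal NNReal RealInnerProductSpace

namespace Crest.Agent.R082.Interp

open Crest.Agent.R082.Translate

variable {d : ℕ}

local notation "E" => EuclideanSpace ℝ (Fin d)

/-- the subgradient property on `K` -/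
def SubgradOn (K : Set (EuclideanSpace ℝ (Fin d))) (φ : EuclideanSpace ℝ (Fin d) → ℝ)
    (T : EuclideanSpace ℝ (Fin d) → EuclideanSpace ℝ (Fin d)) : Prop :=
  ∀ᵐ x ∂(volume.restrict K), ∀ z ∈ K, φ x + ⟪T x, z - x⟫ ≤ φ z

section main

variable {K : Set (EuclideanSpace ℝ (Fin d))} {x₀ : EuclideanSpace ℝ (Fin d)} {r₀ : ℝ}

lemma integral_secondDiff_le (hKc : IsCompact K) (hKv : Convex ℝ K) (hr₀ : 0 < r₀)
    (hball : Metric.closedBall x₀ r₀ ⊆ K) {L : ℝ} (hL : 0 ≤ L)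
    {φ : EuclideanSpace ℝ (Fin d) → ℝ} (hφ : ContinuousOn φ K)
    {T : EuclideanSpace ℝ (Fin d) → EuclideanSpace ℝ (Fin d)} (hTm : Measurable T)
    (hTL : ∀ᵐ x ∂(volume.restrict K), ‖T x‖ ≤ L) (hT : SubgradOn K φ T)
    {e : EuclideanSpace ℝ (Fin d)} (he : ‖e‖ = 1) {r : ℝ} (hr : 0 < r) (hrr : r ≤ r₀) :
    ∫ x in shrink K x₀ (r / r₀), (φ (x + r • e) - 2 * φ x + φ (x - r • e)) ≤
      2 * d * L * volume.real K * r ^ 2 / r₀ := by
  set t := r / r₀ with ht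
  have ht0 : 0 < t := by positivity
  have ht1 : t ≤ 1 := by rw [ht, div_le_one hr₀]; exact hrr
  set N := shrink K x₀ t with hN
  have hKm := hKc.measurableSet
  have hKf : volume K ≠ ∞ := hKc.measure_lt_top.ne
  have hNc : IsCompact N := isCompact_shrink hKc x₀ t
  have hNm := hNc.measurableSet
  have htr : t * r₀ = r := by rw [ht]; field_simp
  have hNK : N ⊆ K := shrink_subset hKv hr₀.le hball ht0 ht1
  have hp : ∀ x ∈ N, x + r • e ∈ K := fun x hx =>
    mem_of_mem_shrink hKv hball ht0 ht1 hx (by rw [norm_smul, he, Real.norm_eq_abs,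
      abs_of_pos hr, htr, mul_one])
  have hm : ∀ x ∈ N, x + (-(r • e)) ∈ K := fun x hx =>
    mem_of_mem_shrink hKv hball ht0 ht1 hx (by rw [norm_neg, norm_smul, he, Real.norm_eq_abs,
      abs_of_pos hr, htr, mul_one])
  have hφi : IntegrableOn φ K := hφ.integrableOn_compact hKc
  have hgi : IntegrableOn (fun x => ⟪T x, e⟫) K := by
    refine Integrable.mono' (g := fun _ => L) ?_ ?_ ?_
    · exact integrableOn_const hKf
    · exact (hTm.inner measurable_const).aestronglyMeasurable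
    · filter_upwards [hTL] with x hx
      calc ‖⟪T x, e⟫‖ ≤ ‖T x‖ * ‖e‖ := norm_inner_le_norm _ _
        _ ≤ L := by rw [he, mul_one]; exact hx
  have hgL : ∀ᵐ x ∂(volume.restrict K), |⟪T x, e⟫| ≤ L := by
    filter_upwards [hTL] with x hx
    calc |⟪T x, e⟫| ≤ ‖T x‖ * ‖e‖ := abs_real_inner_le_norm _ _
        _ ≤ L := by rw [he, mul_one]; exact hx
  have key : ∀ᵐ x ∂(volume.restrict N), φ (x + r • e) - 2 * φ x + φ (x - r • e) ≤
      r * (⟪T (x + r • e), e⟫ - ⟪T (x + (-(r • e))), e⟫) := by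
    filter_upwards [ae_comp_add hKm hNm hp hT, ae_comp_add hKm hNm hm hT,
      ae_restrict_mem hNm] with x h1 h2 hx
    have h3 := h1 x (hNK hx)
    have h4 := h2 x (hNK hx)
    have e1 : x - (x + r • e) = (-r) • e := by module
    have e2 : x - (x + -(r • e)) = r • e := by module
    rw [e1, inner_smul_right] at h3
    rw [e2, inner_smul_right] at h4
    rw [sub_eq_add_neg x]
    linarith
  have hI1 := integrableOn_comp_add hp hφi
  have hI2 := integrableOn_comp_add hm hφi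
  have hI3 := integrableOn_comp_add hp hgi
  have hI4 := integrableOn_comp_add hm hgi
  have hI5 : IntegrableOn φ N := hφi.mono_set hNK
  have hle : ∫ x in N, (φ (x + r • e) - 2 * φ x + φ (x - r • e)) ≤
      ∫ x in N, r * (⟪T (x + r • e), e⟫ - ⟪T (x + (-(r • e))), e⟫) := by
    refine integral_mono_ae ?_ ?_ key
    · simp_rw [sub_eq_add_neg _ (r • e)]
      exact (hI1.sub (hI5.const_mul 2)).add hI2
    · exact (hI3.sub hI4).const_mul r
  refine hle.trans ?_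
  rw [integral_const_mul, integral_sub hI3 hI4]
  have s1 := setIntegral_comp_add N (r • e) (fun x => ⟪T x, e⟫)
  have s2 := setIntegral_comp_add N (-(r • e)) (fun x => ⟪T x, e⟫)
  rw [s1, s2]
  have hv := vol_shrink_ge (K := K) (x₀ := x₀) ht1
  have b1 := abs_setIntegral_sub_le (A := (fun x => x + r • e) '' N)
    (η := d * t * volume.real K) hKf
    ((measurableEmbedding_addRight (r • e)).measurableSet_image.2 hNm)
    (by rintro _ ⟨x, hx, rfl⟩; exact hp x hx) hL (by rw [volume_image_add]; exact hv) hgi hgL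
  have b2 := abs_setIntegral_sub_le (A := (fun x => x + -(r • e)) '' N)
    (η := d * t * volume.real K) hKf
    ((measurableEmbedding_addRight (-(r • e))).measurableSet_image.2 hNm)
    (by rintro _ ⟨x, hx, rfl⟩; exact hm x hx) hL (by rw [volume_image_add]; exact hv) hgi hgL
  have b3 : (∫ x in (fun x => x + r • e) '' N, ⟪T x, e⟫) -
      ∫ x in (fun x => x + -(r • e)) '' N, ⟪T x, e⟫ ≤ 2 * (L * (d * t * volume.real K)) := by
    have := (abs_le.1 b1).1
    have := (abs_le.1 b2).2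
    linarith
  calc _ ≤ r * (2 * (L * (d * t * volume.real K))) := mul_le_mul_of_nonneg_left b3 hr.le
    _ = _ := by rw [ht]; ring


/-- one direction, small radius -/
lemma interp_dir (hKc : IsCompact K) (hKv : Convex ℝ K) (hr₀ : 0 < r₀)
    (hball : Metric.closedBall x₀ r₀ ⊆ K) {L : ℝ} (hL : 0 ≤ L)
    {φ₀ φ₁ : EuclideanSpace ℝ (Fin d) → ℝ} (hφ₀ : ContinuousOn φ₀ K) (hφ₁ : ContinuousOn φ₁ K)
    {T₀ T₁ : EuclideanSpace ℝ (Fin d) → EuclideanSpace ℝ (Fin d)} (hTm₀ : Measurable T₀)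
    (hTm₁ : Measurable T₁)
    (hTL₀ : ∀ᵐ x ∂(volume.restrict K), ‖T₀ x‖ ≤ L) (hTL₁ : ∀ᵐ x ∂(volume.restrict K), ‖T₁ x‖ ≤ L)
    (hT₀ : SubgradOn K φ₀ T₀) (hT₁ : SubgradOn K φ₁ T₁) (c : ℝ)
    {e : EuclideanSpace ℝ (Fin d)} (he : ‖e‖ = 1) {r : ℝ} (hr : 0 < r) (hrr : r ≤ r₀) :
    ∫ x in K, ⟪T₀ x - T₁ x, e⟫ ^ 2 ≤
      4 / r ^ 2 * (∫ x in K, (φ₀ x - φ₁ x - c) ^ 2) + 20 * d * L ^ 2 * volume.real K / r₀ * r := by
  set t := r / r₀ with ht
  have ht0 : 0 < t := by positivity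
  have ht1 : t ≤ 1 := by rw [ht, div_le_one hr₀]; exact hrr
  set N := shrink K x₀ t with hN
  have hKm := hKc.measurableSet
  have hKf : volume K ≠ ∞ := hKc.measure_lt_top.ne
  have hNc : IsCompact N := isCompact_shrink hKc x₀ t
  have hNm := hNc.measurableSet
  have htr : t * r₀ = r := by rw [ht]; field_simp
  have hNK : N ⊆ K := shrink_subset hKv hr₀.le hball ht0 ht1
  have hp : ∀ x ∈ N, x + r • e ∈ K := fun x hx =>
    mem_of_mem_shrink hKv hball ht0 ht1 hx (by rw [norm_smul, he, Real.norm_eq_abs,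
      abs_of_pos hr, htr, mul_one])
  have hm : ∀ x ∈ N, x + (-(r • e)) ∈ K := fun x hx =>
    mem_of_mem_shrink hKv hball ht0 ht1 hx (by rw [norm_neg, norm_smul, he, Real.norm_eq_abs,
      abs_of_pos hr, htr, mul_one])
  set w : EuclideanSpace ℝ (Fin d) → ℝ := fun x => φ₀ x - φ₁ x - c with hw
  have hwc : ContinuousOn w K := (hφ₀.sub hφ₁).sub continuousOn_const
  have hw2 : IntegrableOn (fun x => w x ^ 2) K := (hwc.pow 2).integrableOn_compact hKc
  have hφi₀ : IntegrableOn φ₀ K := hφ₀.integrableOn_compact hKc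
  have hφi₁ : IntegrableOn φ₁ K := hφ₁.integrableOn_compact hKc
  have hub : ∀ᵐ x ∂(volume.restrict K), |⟪T₀ x - T₁ x, e⟫| ≤ 2 * L := by
    filter_upwards [hTL₀, hTL₁] with x h0 h1
    calc |⟪T₀ x - T₁ x, e⟫| ≤ ‖T₀ x - T₁ x‖ * ‖e‖ := abs_real_inner_le_norm _ _
      _ ≤ ‖T₀ x‖ + ‖T₁ x‖ := by rw [he, mul_one]; exact norm_sub_le _ _
      _ ≤ 2 * L := by linarith
  have hum : Measurable (fun x => ⟪T₀ x - T₁ x, e⟫) := (hTm₀.sub hTm₁).inner measurable_const
  have hu2b : ∀ᵐ x ∂(volume.restrict K), |⟪T₀ x - T₁ x, e⟫ ^ 2| ≤ 4 * L ^ 2 := by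
    filter_upwards [hub] with x hx
    rw [abs_of_nonneg (sq_nonneg _), ← sq_abs]
    nlinarith [abs_nonneg ⟪T₀ x - T₁ x, e⟫]
  have hu2 : IntegrableOn (fun x => ⟪T₀ x - T₁ x, e⟫ ^ 2) K := by
    refine Integrable.mono' (g := fun _ => 4 * L ^ 2) ?_ ?_ ?_
    · exact integrableOn_const hKf
    · exact (hum.pow_const 2).aestronglyMeasurable
    · exact hu2b
  -- pointwise inequality on N
  have key : ∀ᵐ x ∂(volume.restrict N), ⟪T₀ x - T₁ x, e⟫ ^ 2 ≤
      2 / r ^ 2 * (w (x + r • e) ^ 2 + w x ^ 2) + 4 * L / r *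
        ((φ₀ (x + r • e) - 2 * φ₀ x + φ₀ (x - r • e)) +
          (φ₁ (x + r • e) - 2 * φ₁ x + φ₁ (x - r • e))) := by
    filter_upwards [ae_mono (Measure.restrict_mono hNK le_rfl) hT₀,
      ae_mono (Measure.restrict_mono hNK le_rfl) hT₁,
      ae_mono (Measure.restrict_mono hNK le_rfl) hub,
      ae_restrict_mem hNm] with x h0 h1 hb hx
    have a1 := h0 _ (hp x hx)
    have a2 := h0 _ (hm x hx)
    have a3 := h1 _ (hp x hx)
    have a4 := h1 _ (hm x hx)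
    have e1 : x + r • e - x = r • e := by abel
    have e2 : x + -(r • e) - x = (-r) • e := by module
    rw [e1, inner_smul_right] at a1 a3
    rw [e2, inner_smul_right] at a2 a4
    rw [← sub_eq_add_neg] at a2 a4
    rw [inner_sub_left] at hb ⊢
    set p₀ := ⟪T₀ x, e⟫
    set p₁ := ⟪T₁ x, e⟫
    set D₀ := φ₀ (x + r • e) - 2 * φ₀ x + φ₀ (x - r • e) with hD₀
    set D₁ := φ₁ (x + r • e) - 2 * φ₁ x + φ₁ (x - r • e) with hD₁
    have hD0 : 0 ≤ D₀ := by rw [hD₀]; linarith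
    have hD1 : 0 ≤ D₁ := by rw [hD₁]; linarith
    have b1 : r * (p₀ - p₁) ≤ w (x + r • e) - w x + D₁ := by
      simp only [hw, hD₁]; linarith
    have b2 : r * (p₁ - p₀) ≤ - w (x + r • e) + w x + D₀ := by
      simp only [hw, hD₀]; linarith
    have b3 : r * |p₀ - p₁| ≤ |w (x + r • e)| + |w x| + (D₀ + D₁) := by
      rcases abs_cases (p₀ - p₁) with ⟨h, -⟩ | ⟨h, -⟩ <;> rw [h]
      · linarith [le_abs_self (w (x + r • e)), neg_abs_le (w x)]
      · linarith [le_abs_self (w x), neg_abs_le (w (x + r • e))]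
    set U := |p₀ - p₁| with hU
    have hU0 : 0 ≤ U := abs_nonneg _
    rw [← sq_abs (p₀ - p₁), ← sq_abs (w (x + r • e)), ← sq_abs (w x)]
    set A := |w (x + r • e)|
    set B := |w x|
    have hr2 : 0 < r ^ 2 := by positivity
    have c1 : r ^ 2 * U ^ 2 ≤ 2 * (A ^ 2 + B ^ 2) + 4 * L * r * (D₀ + D₁) := by
      have c2 : r * U * (r * U) ≤ r * U * (A + B + (D₀ + D₁)) :=
        mul_le_mul_of_nonneg_left b3 (by positivity)
      have c3 : r * U * (D₀ + D₁) ≤ r * (2 * L) * (D₀ + D₁) := by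
        apply mul_le_mul_of_nonneg_right _ (by positivity)
        exact mul_le_mul_of_nonneg_left hb hr.le
      nlinarith [sq_nonneg (r * U - (A + B)), sq_nonneg (A - B)]
    have c4 : U ^ 2 = (r ^ 2 * U ^ 2) / r ^ 2 := by field_simp
    rw [c4, div_le_iff₀ hr2]
    refine c1.trans (le_of_eq ?_)
    field_simp
  -- integrate
  have hI1 := integrableOn_comp_add hp hw2
  have hI2 : IntegrableOn (fun x => w x ^ 2) N := hw2.mono_set hNK
  have hJ₀ : IntegrableOn (fun x => φ₀ (x + r • e) - 2 * φ₀ x + φ₀ (x - r • e)) N := by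
    simp_rw [sub_eq_add_neg _ (r • e)]
    exact ((integrableOn_comp_add hp hφi₀).sub ((hφi₀.mono_set hNK).const_mul 2)).add
      (integrableOn_comp_add hm hφi₀)
  have hJ₁ : IntegrableOn (fun x => φ₁ (x + r • e) - 2 * φ₁ x + φ₁ (x - r • e)) N := by
    simp_rw [sub_eq_add_neg _ (r • e)]
    exact ((integrableOn_comp_add hp hφi₁).sub ((hφi₁.mono_set hNK).const_mul 2)).add
      (integrableOn_comp_add hm hφi₁)
  have hv := vol_shrink_ge (K := K) (x₀ := x₀) ht1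
  have m1 : ∫ x in N, ⟪T₀ x - T₁ x, e⟫ ^ 2 ≤
      4 / r ^ 2 * (∫ x in K, w x ^ 2) + 16 * d * L ^ 2 * volume.real K / r₀ * r := by
    have m2 : ∫ x in N, ⟪T₀ x - T₁ x, e⟫ ^ 2 ≤ ∫ x in N,
        (2 / r ^ 2 * (w (x + r • e) ^ 2 + w x ^ 2) + 4 * L / r *
        ((φ₀ (x + r • e) - 2 * φ₀ x + φ₀ (x - r • e)) +
          (φ₁ (x + r • e) - 2 * φ₁ x + φ₁ (x - r • e)))) := by
      refine integral_mono_ae (hu2.mono_set hNK) ?_ key
      exact ((hI1.add hI2).const_mul _).add ((hJ₀.add hJ₁).const_mul _)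
    have m3 : (∫ x in N,
        (2 / r ^ 2 * (w (x + r • e) ^ 2 + w x ^ 2) + 4 * L / r *
        ((φ₀ (x + r • e) - 2 * φ₀ x + φ₀ (x - r • e)) +
          (φ₁ (x + r • e) - 2 * φ₁ x + φ₁ (x - r • e))))) =
        2 / r ^ 2 * ((∫ x in N, w (x + r • e) ^ 2) + ∫ x in N, w x ^ 2) + 4 * L / r *
        ((∫ x in N, (φ₀ (x + r • e) - 2 * φ₀ x + φ₀ (x - r • e))) +
          ∫ x in N, (φ₁ (x + r • e) - 2 * φ₁ x + φ₁ (x - r • e))) := by
      have hA : Integrable (fun x => 2 / r ^ 2 * (w (x + r • e) ^ 2 + w x ^ 2))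
          (volume.restrict N) := (hI1.add hI2).const_mul _
      have hB : Integrable (fun x => 4 * L / r *
        ((φ₀ (x + r • e) - 2 * φ₀ x + φ₀ (x - r • e)) +
          (φ₁ (x + r • e) - 2 * φ₁ x + φ₁ (x - r • e)))) (volume.restrict N) :=
        (hJ₀.add hJ₁).const_mul _
      rw [integral_add hA hB,
        integral_const_mul, integral_const_mul, integral_add hI1 hI2, integral_add hJ₀ hJ₁]
    have m4 : ∫ x in N, w x ^ 2 ≤ ∫ x in K, w x ^ 2 :=
      setIntegral_mono_set hw2 (Filter.Eventually.of_forall fun x => sq_nonneg _)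
        (LE.le.eventuallyLE hNK)
    have m5 : ∫ x in N, w (x + r • e) ^ 2 ≤ ∫ x in K, w x ^ 2 := by
      have := setIntegral_comp_add N (r • e) (fun x => w x ^ 2)
      rw [this]
      refine setIntegral_mono_set hw2 (Filter.Eventually.of_forall fun x => sq_nonneg _)
        (LE.le.eventuallyLE ?_)
      rintro _ ⟨x, hx, rfl⟩; exact hp x hx
    have m6 := integral_secondDiff_le hKc hKv hr₀ hball hL hφ₀ hTm₀ hTL₀ hT₀ he hr hrr
    have m7 := integral_secondDiff_le hKc hKv hr₀ hball hL hφ₁ hTm₁ hTL₁ hT₁ he hr hrr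
    rw [m3] at m2
    refine m2.trans ?_
    have q1 : 2 / r ^ 2 * ((∫ x in N, w (x + r • e) ^ 2) + ∫ x in N, w x ^ 2) ≤
        2 / r ^ 2 * ((∫ x in K, w x ^ 2) + ∫ x in K, w x ^ 2) :=
      mul_le_mul_of_nonneg_left (add_le_add m5 m4) (by positivity)
    have q2 : 4 * L / r *
        ((∫ x in N, (φ₀ (x + r • e) - 2 * φ₀ x + φ₀ (x - r • e))) +
          ∫ x in N, (φ₁ (x + r • e) - 2 * φ₁ x + φ₁ (x - r • e))) ≤
        4 * L / r * (2 * d * L * volume.real K * r ^ 2 / r₀ +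
          2 * d * L * volume.real K * r ^ 2 / r₀) :=
      mul_le_mul_of_nonneg_left (add_le_add m6 m7) (by positivity)
    refine (add_le_add q1 q2).trans (le_of_eq ?_)
    field_simp
    ring
  have n1 : (∫ x in K, ⟪T₀ x - T₁ x, e⟫ ^ 2) - ∫ x in N, ⟪T₀ x - T₁ x, e⟫ ^ 2 ≤
      4 * L ^ 2 * (d * t * volume.real K) :=
    (le_abs_self _).trans (abs_setIntegral_sub_le hKf hNm hNK (by positivity) hv hu2 hu2b)
  have n2 : 4 * L ^ 2 * (d * t * volume.real K) = 4 * d * L ^ 2 * volume.real K / r₀ * r := by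
    rw [ht]; ring
  have n3 : 16 * d * L ^ 2 * volume.real K / r₀ * r + 4 * d * L ^ 2 * volume.real K / r₀ * r =
    20 * d * L ^ 2 * volume.real K / r₀ * r := by ring
  linarith


lemma norm_sq_eq_sum (x : EuclideanSpace ℝ (Fin d)) :
    ‖x‖ ^ 2 = ∑ i, ⟪x, EuclideanSpace.single i (1 : ℝ)⟫ ^ 2 := by
  rw [EuclideanSpace.norm_sq_eq]
  refine Finset.sum_congr rfl fun i _ => ?_
  rw [EuclideanSpace.inner_single_right]
  simp

lemma integrableOn_inner_sq (hKf : volume K ≠ ∞) {L : ℝ}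
    {T₀ T₁ : EuclideanSpace ℝ (Fin d) → EuclideanSpace ℝ (Fin d)} (hTm₀ : Measurable T₀)
    (hTm₁ : Measurable T₁)
    (hTL₀ : ∀ᵐ x ∂(volume.restrict K), ‖T₀ x‖ ≤ L) (hTL₁ : ∀ᵐ x ∂(volume.restrict K), ‖T₁ x‖ ≤ L)
    {e : EuclideanSpace ℝ (Fin d)} (he : ‖e‖ = 1) :
    IntegrableOn (fun x => ⟪T₀ x - T₁ x, e⟫ ^ 2) K := by
  have hum : Measurable (fun x => ⟪T₀ x - T₁ x, e⟫) := (hTm₀.sub hTm₁).inner measurable_const
  refine Integrable.mono' (g := fun _ => 4 * L ^ 2) (integrableOn_const hKf)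
    (hum.pow_const 2).aestronglyMeasurable ?_
  filter_upwards [hTL₀, hTL₁] with x h0 h1
  have hb : |⟪T₀ x - T₁ x, e⟫| ≤ 2 * L := by
    calc |⟪T₀ x - T₁ x, e⟫| ≤ ‖T₀ x - T₁ x‖ * ‖e‖ := abs_real_inner_le_norm _ _
      _ ≤ ‖T₀ x‖ + ‖T₁ x‖ := by rw [he, mul_one]; exact norm_sub_le _ _
      _ ≤ 2 * L := by linarith
  rw [Real.norm_eq_abs, abs_of_nonneg (sq_nonneg _), ← sq_abs]
  nlinarith [abs_nonneg ⟪T₀ x - T₁ x, e⟫]

end main

/-- **Interpolation inequality.** For a convex body `K` and a bound `L`, there is a constant `C`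
such that for any two continuous functions with measurable subgradient selections bounded by `L`
a.e. on `K`, `∫_K ‖T₀ - T₁‖² ≤ C (∫_K (φ₀ - φ₁ - c)²)^{1/3}`, with any upper bound `S` of the
right-hand integral. -/
theorem interp (K : Set (EuclideanSpace ℝ (Fin d))) (hKc : IsCompact K) (hKv : Convex ℝ K)
    (hKi : (interior K).Nonempty) (L : ℝ) (hL : 0 ≤ L) :
    ∃ C : ℝ, 0 ≤ C ∧ ∀ (φ₀ φ₁ : EuclideanSpace ℝ (Fin d) → ℝ)
      (T₀ T₁ : EuclideanSpace ℝ (Fin d) → EuclideanSpace ℝ (Fin d)),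
      ContinuousOn φ₀ K → ContinuousOn φ₁ K → Measurable T₀ → Measurable T₁ →
      (∀ᵐ x ∂(volume.restrict K), ‖T₀ x‖ ≤ L) → (∀ᵐ x ∂(volume.restrict K), ‖T₁ x‖ ≤ L) →
      SubgradOn K φ₀ T₀ → SubgradOn K φ₁ T₁ →
      ∀ c S : ℝ, (∫ x in K, (φ₀ x - φ₁ x - c) ^ 2) ≤ S →
        ∫ x in K, ‖T₀ x - T₁ x‖ ^ 2 ≤ C * S ^ (1 / 3 : ℝ) := by
  obtain ⟨x₀, hx₀⟩ := hKi
  obtain ⟨r₀, hr₀, hball⟩ := Metric.nhds_basis_closedBall.mem_iff.1 (mem_interior_iff_mem_nhds.1 hx₀)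
  have hKf : volume K ≠ ∞ := hKc.measure_lt_top.ne
  set V := volume.real K with hV
  have hV0 : 0 ≤ V := measureReal_nonneg
  set C₁ : ℝ := 20 * d * L ^ 2 * V / r₀ + 4 * L ^ 2 * V / r₀ with hC₁
  have hC₁0 : 0 ≤ C₁ := by positivity
  refine ⟨d * (4 + C₁), by positivity, ?_⟩
  intro φ₀ φ₁ T₀ T₁ hφ₀ hφ₁ hTm₀ hTm₁ hTL₀ hTL₁ hT₀ hT₁ c S hS
  -- per-direction bound, all radii
  have hdir : ∀ i : Fin d, ∀ r : ℝ, 0 < r →
      ∫ x in K, ⟪T₀ x - T₁ x, EuclideanSpace.single i (1 : ℝ)⟫ ^ 2 ≤ 4 / r ^ 2 * S + C₁ * r := by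
    intro i r hr
    have he : ‖(EuclideanSpace.single i (1 : ℝ) : EuclideanSpace ℝ (Fin d))‖ = 1 := by simp
    have hSnn : 0 ≤ S := le_trans (integral_nonneg fun x => sq_nonneg _) hS
    rcases le_total r r₀ with hrr | hrr
    · have h1 := interp_dir hKc hKv hr₀ hball hL hφ₀ hφ₁ hTm₀ hTm₁ hTL₀ hTL₁ hT₀ hT₁ c he hr hrr
      have h2 : 4 / r ^ 2 * (∫ x in K, (φ₀ x - φ₁ x - c) ^ 2) ≤ 4 / r ^ 2 * S :=
        mul_le_mul_of_nonneg_left hS (by positivity)
      have h3 : 20 * d * L ^ 2 * V / r₀ * r ≤ C₁ * r := by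
        apply mul_le_mul_of_nonneg_right _ hr.le
        rw [hC₁]
        have : 0 ≤ 4 * L ^ 2 * V / r₀ := by positivity
        linarith
      linarith
    · have h1 : ‖∫ x in K, ⟪T₀ x - T₁ x, EuclideanSpace.single i (1 : ℝ)⟫ ^ 2‖ ≤
          4 * L ^ 2 * volume.real K := by
        apply norm_setIntegral_le_of_norm_le_const_ae hKc.measure_lt_top
        filter_upwards [hTL₀, hTL₁] with x h0 h1
        have hb : |⟪T₀ x - T₁ x, EuclideanSpace.single i (1 : ℝ)⟫| ≤ 2 * L := by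
          calc |⟪T₀ x - T₁ x, EuclideanSpace.single i (1 : ℝ)⟫|
              ≤ ‖T₀ x - T₁ x‖ * ‖(EuclideanSpace.single i (1 : ℝ) :
                EuclideanSpace ℝ (Fin d))‖ := abs_real_inner_le_norm _ _
            _ ≤ ‖T₀ x‖ + ‖T₁ x‖ := by rw [he, mul_one]; exact norm_sub_le _ _
            _ ≤ 2 * L := by linarith
        rw [Real.norm_eq_abs, abs_of_nonneg (sq_nonneg _), ← sq_abs]
        nlinarith [abs_nonneg ⟪T₀ x - T₁ x, EuclideanSpace.single i (1 : ℝ)⟫]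
      have h2 := (le_abs_self _).trans h1
      have h3 : 4 * L ^ 2 * V ≤ 4 * L ^ 2 * V / r₀ * r := by
        rw [div_mul_eq_mul_div, le_div_iff₀ hr₀]
        exact mul_le_mul_of_nonneg_left hrr (by positivity)
      have h4 : 0 ≤ 20 * d * L ^ 2 * V / r₀ * r := by positivity
      have h5 : 0 ≤ 4 / r ^ 2 * S := by positivity
      have h6 : C₁ * r = 20 * d * L ^ 2 * V / r₀ * r + 4 * L ^ 2 * V / r₀ * r := by
        rw [hC₁]; ring
      linarith
  have hsum : ∫ x in K, ‖T₀ x - T₁ x‖ ^ 2 =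
      ∑ i : Fin d, ∫ x in K, ⟪T₀ x - T₁ x, EuclideanSpace.single i (1 : ℝ)⟫ ^ 2 := by
    simp_rw [norm_sq_eq_sum]
    rw [integral_finsetSum]
    intro i _
    exact integrableOn_inner_sq hKf hTm₀ hTm₁ hTL₀ hTL₁ (by simp)
  have hall : ∀ r : ℝ, 0 < r → ∫ x in K, ‖T₀ x - T₁ x‖ ^ 2 ≤ d * (4 / r ^ 2 * S + C₁ * r) := by
    intro r hr
    rw [hsum]
    calc _ ≤ ∑ i : Fin d, (4 / r ^ 2 * S + C₁ * r) := Finset.sum_le_sum fun i _ => hdir i r hr
      _ = _ := by rw [Finset.sum_const, Finset.card_univ, Fintype.card_fin, nsmul_eq_mul]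
  have hSnn : 0 ≤ S := le_trans (integral_nonneg fun x => sq_nonneg _) hS
  rcases hSnn.eq_or_lt with h0 | hpos
  · rw [← h0, Real.zero_rpow (by norm_num), mul_zero]
    rw [← h0] at hall
    by_contra hcon
    push Not at hcon
    set I := ∫ x in K, ‖T₀ x - T₁ x‖ ^ 2
    have h1 := hall (I / (2 * (d * C₁ + 1))) (by positivity)
    have h2 : (d : ℝ) * (4 / (I / (2 * (d * C₁ + 1))) ^ 2 * 0 + C₁ * (I / (2 * (d * C₁ + 1)))) =
        (d * C₁) / (d * C₁ + 1) * (I / 2) := by field_simp; ring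
    rw [h2] at h1
    have h3 : (d * C₁) / (d * C₁ + 1) ≤ 1 := by
      rw [div_le_one (by positivity)]; linarith
    nlinarith
  · set r := S ^ (1 / 3 : ℝ) with hr
    have hr0 : 0 < r := Real.rpow_pos_of_pos hpos _
    have hr3 : r ^ 3 = S := by
      rw [hr, ← Real.rpow_natCast, ← Real.rpow_mul hSnn]; norm_num
    have h1 := hall r hr0
    have h2 : 4 / r ^ 2 * S = 4 * r := by rw [← hr3]; field_simp
    rw [h2] at h1
    refine h1.trans (le_of_eq ?_)
    ring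

end Crest.Agent.R082.Interp
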