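import Crest.Agent.R082.SemiDisc
import Crest.Agent.R082.Unif

/-!
Row 82: the value `TT`, merging of labels, subgradients in the positions of the atoms.
-/

set_option autoImplicit false

open MeasureTheory
open scoped ENNReal NNReal
open Crest.AnalysisR.OT

namespace Crest.Agent.R082

variable {d : ℕ} {ι κ : Type} [Fintype ι] [Nonempty ι] [Fintype κ] [Nonempty κ]

theorem bddBelow_Kfun {K : Set (E d)} (hK : IsCompact K) (ρ : Measure (E d))
    [IsProbabilityMeasure ρ] (hρK : ρ Kᶜ = 0)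
    (m : ι → ℝ) (hm : ∀ i, 0 < m i) (hm1 : ∑ i, m i = 1) (y : ι → E d) :
    BddBelow (Set.range (fun ψ : ι → ℝ => Kfun ρ m y ψ)) := by
  obtain ⟨ψ, hψ⟩ := exists_minimizer K hK ρ hρK m hm hm1 y
  exact ⟨Kfun ρ m y ψ, by rintro _ ⟨ψ', rfl⟩; exact hψ ψ'⟩

theorem TT_le {K : Set (E d)} (hK : IsCompact K) (ρ : Measure (E d))
    [IsProbabilityMeasure ρ] (hρK : ρ Kᶜ = 0)
    (m : ι → ℝ) (hm : ∀ i, 0 < m i) (hm1 : ∑ i, m i = 1) (y : ι → E d) (ψ : ι → ℝ) :
    TT ρ m y ≤ Kfun ρ m y ψ :=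
  ciInf_le (bddBelow_Kfun hK ρ hρK m hm hm1 y) ψ

theorem le_TT (ρ : Measure (E d)) (m : ι → ℝ) (y : ι → E d) (c : ℝ)
    (h : ∀ ψ : ι → ℝ, c ≤ Kfun ρ m y ψ) : c ≤ TT ρ m y :=
  le_ciInf h

theorem TT_eq_of_min {K : Set (E d)} (hK : IsCompact K) (ρ : Measure (E d))
    [IsProbabilityMeasure ρ] (hρK : ρ Kᶜ = 0)
    (m : ι → ℝ) (hm : ∀ i, 0 < m i) (hm1 : ∑ i, m i = 1) (y : ι → E d) (ψ : ι → ℝ)
    (hψ : ∀ ψ' : ι → ℝ, Kfun ρ m y ψ ≤ Kfun ρ m y ψ') :
    TT ρ m y = Kfun ρ m y ψ :=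
  le_antisymm (TT_le hK ρ hρK m hm hm1 y ψ) (le_TT ρ m y _ hψ)

omit [Nonempty ι] [Nonempty κ] in
/-- Sums over fibres. -/
theorem sum_fiber [DecidableEq κ] (g : ι → κ) (m : ι → ℝ) (m' : κ → ℝ)
    (hm' : ∀ k, m' k = ∑ i with g i = k, m i) (F : κ → ℝ) :
    ∑ k, m' k * F k = ∑ i, m i * F (g i) := by
  rw [← Finset.sum_fiberwise (s := Finset.univ) (g := g) (f := fun i => m i * F (g i))]
  refine Finset.sum_congr rfl fun k _ => ?_
  rw [hm' k, Finset.sum_mul]
  refine Finset.sum_congr rfl fun i hi => ?_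
  rw [(Finset.mem_filter.1 hi).2]

theorem phi_comp (g : ι → κ) (hg : Function.Surjective g) (y' : κ → E d) (ψ' : κ → ℝ) (x : E d) :
    phi (y' ∘ g) (ψ' ∘ g) x = phi y' ψ' x := by
  apply le_antisymm
  · rw [phi_le_iff]
    intro i
    exact le_phi y' ψ' x (g i)
  · rw [phi_le_iff]
    intro k
    obtain ⟨i, rfl⟩ := hg k
    exact le_phi (y' ∘ g) (ψ' ∘ g) x i

/-- Merging labels. -/
theorem TT_comp [DecidableEq κ] {K : Set (E d)} (hK : IsCompact K) (ρ : Measure (E d))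
    [IsProbabilityMeasure ρ] (hρK : ρ Kᶜ = 0) (g : ι → κ) (hg : Function.Surjective g)
    (m : ι → ℝ) (hm : ∀ i, 0 < m i) (hm1 : ∑ i, m i = 1) (m' : κ → ℝ)
    (hm' : ∀ k, m' k = ∑ i with g i = k, m i) (y' : κ → E d) :
    TT ρ m (fun i => y' (g i)) = TT ρ m' y' := by
  have hm'pos : ∀ k, 0 < m' k := by
    intro k
    rw [hm' k]
    obtain ⟨i, hi⟩ := hg k
    exact Finset.sum_pos (fun i _ => hm i) ⟨i, by simp [hi]⟩
  have hm'1 : ∑ k, m' k = 1 := by
    have := sum_fiber g m m' hm' (fun _ => 1)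
    simpa [hm1] using this
  apply le_antisymm
  · apply le_TT
    intro ψ'
    refine (TT_le hK ρ hρK m hm hm1 _ (ψ' ∘ g)).trans (le_of_eq ?_)
    unfold Kfun
    have h1 : ∀ x, phi (fun i => y' (g i)) (ψ' ∘ g) x = phi y' ψ' x :=
      fun x => phi_comp g hg y' ψ' x
    simp_rw [h1]
    rw [sum_fiber g m m' hm' ψ']
    rfl
  · apply le_TT
    intro ψ
    have hex : ∀ k : κ, ∃ i, g i = k ∧ ∀ j, g j = k → ψ i ≤ ψ j := by
      intro k
      obtain ⟨i₀, hi₀⟩ := hg k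
      obtain ⟨i, hi, hmin⟩ := Finset.exists_min_image (Finset.univ.filter fun i => g i = k) ψ
        ⟨i₀, by simp [hi₀]⟩
      exact ⟨i, (Finset.mem_filter.1 hi).2, fun j hj => hmin j (by simp [hj])⟩
    choose a ha hamin using hex
    refine (TT_le hK ρ hρK m' hm'pos hm'1 _ (fun k => ψ (a k))).trans ?_
    unfold Kfun
    apply add_le_add
    · apply integral_mono (integrable_of_continuous hK ρ hρK _ (continuous_phi _ _))
        (integrable_of_continuous hK ρ hρK _ (continuous_phi _ _))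
      intro x
      show phi y' (fun k => ψ (a k)) x ≤ phi (fun i => y' (g i)) ψ x
      rw [phi_le_iff]
      intro k
      have := le_phi (fun i => y' (g i)) ψ x (a k)
      simp only [ha] at this
      exact this
    · rw [sum_fiber g m m' hm' (fun k => ψ (a k))]
      apply Finset.sum_le_sum
      intro i _
      exact mul_le_mul_of_nonneg_left (hamin (g i) i rfl) (hm i).le

omit [Fintype κ] [Nonempty κ] in
/-- Cells with distinct atoms overlap in a null set. -/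
theorem cell_inter_null (K : Set (E d)) (ρ : Measure (E d)) (hρ : ρ ≪ volume)
    (y : κ → E d) (hy : Function.Injective y) (ψ : κ → ℝ) (i j : κ) (hij : i ≠ j) :
    ρ (cell K y ψ i ∩ cell K y ψ j) = 0 := by
  apply hρ
  refine measure_mono_null ?_ (volume_hyperplane (y i - y j) (sub_ne_zero.2 fun h => hij (hy h))
    (ψ i - ψ j))
  intro x hx
  have h1 := hx.1.2 j
  have h2 := hx.2.2 i
  show inner ℝ x (y i - y j) = ψ i - ψ j
  rw [inner_sub_right]
  linarith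

/-- Splitting an integral over the cells. -/
theorem integral_eq_sum_cell {K : Set (E d)} (hK : IsCompact K) (ρ : Measure (E d))
    (hρ : ρ ≪ volume) (hρK : ρ Kᶜ = 0) (y : κ → E d) (hy : Function.Injective y) (ψ : κ → ℝ)
    {F : Type*} [NormedAddCommGroup F] [NormedSpace ℝ F] (f : E d → F) (hf : Integrable f ρ) :
    ∫ x, f x ∂ρ = ∑ k, ∫ x in cell K y ψ k, f x ∂ρ := by
  have h1 : ∫ x, f x ∂ρ = ∫ x in K, f x ∂ρ := by rw [restrict_eq_of_compl hρK]
  rw [h1, ← iUnion_cell K y ψ, integral_iUnion_ae, tsum_fintype, iUnion_cell K y ψ]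
  · intro k
    exact (measurableSet_cell hK.isClosed y ψ k).nullMeasurableSet
  · intro i j hij
    exact cell_inter_null K ρ hρ y hy ψ i j hij
  · exact hf.integrableOn

/-- Set integral of an affine function over a cell. -/
theorem setIntegral_affine {K : Set (E d)} (hK : IsCompact K) (ρ : Measure (E d))
    [IsFiniteMeasure ρ] (s : Set (E d)) (hs : s ⊆ K) (w : E d) (c : ℝ) :
    ∫ x in s, (inner ℝ x w - c) ∂ρ = inner ℝ (∫ x in s, x ∂ρ) w - c * ρ.real s := by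
  have hid : IntegrableOn (fun x : E d => x) s ρ :=
    (continuous_id.continuousOn.integrableOn_compact hK).mono_set hs
  rw [integral_sub (hid.inner_const w) (integrable_const c)]
  congr 1
  · calc ∫ x in s, inner ℝ x w ∂ρ = ∫ x in s, inner ℝ w x ∂ρ := by
          congr 1; ext x; exact real_inner_comm _ _
      _ = inner ℝ w (∫ x in s, x ∂ρ) := integral_inner (𝕜 := ℝ) hid w
      _ = inner ℝ (∫ x in s, x ∂ρ) w := real_inner_comm _ _
  · rw [integral_const, smul_eq_mul, mul_comm]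
    simp

/-- Data describing an optimal partition for merged labels. -/
theorem exists_subgrad [DecidableEq κ] {K : Set (E d)} (hK : IsCompact K) (ρ : Measure (E d))
    [IsProbabilityMeasure ρ] (hρ : ρ ≪ volume) (hρK : ρ Kᶜ = 0)
    (g : ι → κ) (hg : Function.Surjective g)
    (m : ι → ℝ) (hm : ∀ i, 0 < m i) (hm1 : ∑ i, m i = 1) (m' : κ → ℝ)
    (hm' : ∀ k, m' k = ∑ i with g i = k, m i) (y' : κ → E d) (hy' : Function.Injective y')
    (ψ : κ → ℝ) (hψ : ∀ ψ' : κ → ℝ, Kfun ρ m' y' ψ ≤ Kfun ρ m' y' ψ')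
    (hψm : ∀ k, ρ (cell K y' ψ k) = ENNReal.ofReal (m' k)) (w : ι → E d) :
    TT ρ m (fun i => y' (g i)) + ∑ i, m i * ((m' (g i))⁻¹ *
      inner ℝ (∫ x in cell K y' ψ (g i), x ∂ρ) (w i - y' (g i))) ≤ TT ρ m w := by
  have hm'pos : ∀ k, 0 < m' k := by
    intro k
    rw [hm' k]
    obtain ⟨i, hi⟩ := hg k
    exact Finset.sum_pos (fun i _ => hm i) ⟨i, by simp [hi]⟩
  have hm'1 : ∑ k, m' k = 1 := by
    have := sum_fiber g m m' hm' (fun _ => 1)
    simpa [hm1] using this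
  have hreal : ∀ k, ρ.real (cell K y' ψ k) = m' k := by
    intro k
    rw [measureReal_def, hψm k, ENNReal.toReal_ofReal (hm'pos k).le]
  have hcm : ∀ k, MeasurableSet (cell K y' ψ k) := fun k => measurableSet_cell hK.isClosed y' ψ k
  have hcK : ∀ k, cell K y' ψ k ⊆ K := fun k x hx => hx.1
  -- value at the merged family
  have hval : TT ρ m (fun i => y' (g i)) =
      ∑ i, m i * ((m' (g i))⁻¹ * inner ℝ (∫ x in cell K y' ψ (g i), x ∂ρ) (y' (g i))) := by
    rw [TT_comp hK ρ hρK g hg m hm hm1 m' hm' y', TT_eq_of_min hK ρ hρK m' hm'pos hm'1 y' ψ hψ]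
    rw [← sum_fiber g m m' hm'
      (fun k => (m' k)⁻¹ * inner ℝ (∫ x in cell K y' ψ k, x ∂ρ) (y' k))]
    unfold Kfun
    rw [integral_eq_sum_cell hK ρ hρ hρK y' hy' ψ _
      (integrable_of_continuous hK ρ hρK _ (continuous_phi _ _)), ← Finset.sum_add_distrib]
    refine Finset.sum_congr rfl fun k _ => ?_
    rw [setIntegral_congr_fun (hcm k) (fun x hx => phi_eq_of_mem_cell hx),
      setIntegral_affine hK ρ _ (hcK k), hreal k, ← mul_assoc,
      mul_inv_cancel₀ (hm'pos k).ne']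
    ring
  rw [hval, ← Finset.sum_add_distrib]
  have e1 : ∀ i, m i * ((m' (g i))⁻¹ * inner ℝ (∫ x in cell K y' ψ (g i), x ∂ρ) (y' (g i))) +
      m i * ((m' (g i))⁻¹ * inner ℝ (∫ x in cell K y' ψ (g i), x ∂ρ) (w i - y' (g i))) =
      m i * ((m' (g i))⁻¹ * inner ℝ (∫ x in cell K y' ψ (g i), x ∂ρ) (w i)) := by
    intro i
    rw [inner_sub_right]
    ring
  simp_rw [e1]
  apply le_TT
  intro φ
  unfold Kfun
  rw [integral_eq_sum_cell hK ρ hρ hρK y' hy' ψ _
      (integrable_of_continuous hK ρ hρK _ (continuous_phi _ _))]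
  -- each cell integral dominates the average over the fibre
  have e3 : ∑ k, ∫ x in cell K y' ψ k, phi w φ x ∂ρ =
      ∑ i, m i * ((m' (g i))⁻¹ * ∫ x in cell K y' ψ (g i), phi w φ x ∂ρ) := by
    rw [← sum_fiber g m m' hm' (fun k => (m' k)⁻¹ * ∫ x in cell K y' ψ k, phi w φ x ∂ρ)]
    refine Finset.sum_congr rfl fun k _ => ?_
    rw [← mul_assoc, mul_inv_cancel₀ (hm'pos _).ne', one_mul]
  rw [e3, ← Finset.sum_add_distrib]
  apply Finset.sum_le_sum
  intro i _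
  have h1 : ∫ x in cell K y' ψ (g i), (inner ℝ x (w i) - φ i) ∂ρ ≤
      ∫ x in cell K y' ψ (g i), phi w φ x ∂ρ := by
    apply integral_mono
    · exact (integrable_of_continuous hK ρ hρK _ (by fun_prop)).integrableOn
    · exact (integrable_of_continuous hK ρ hρK _ (continuous_phi _ _)).integrableOn
    · intro x
      exact le_phi w φ x i
  rw [setIntegral_affine hK ρ _ (hcK _), hreal] at h1
  have h2 : (m' (g i))⁻¹ * (inner ℝ (∫ x in cell K y' ψ (g i), x ∂ρ) (w i) - φ i * m' (g i)) ≤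
      (m' (g i))⁻¹ * ∫ x in cell K y' ψ (g i), phi w φ x ∂ρ :=
    mul_le_mul_of_nonneg_left h1 (inv_nonneg.2 (hm'pos _).le)
  have h3 : (m' (g i))⁻¹ * (inner ℝ (∫ x in cell K y' ψ (g i), x ∂ρ) (w i) - φ i * m' (g i)) =
      (m' (g i))⁻¹ * inner ℝ (∫ x in cell K y' ψ (g i), x ∂ρ) (w i) - φ i := by
    have := (hm'pos (g i)).ne'
    field_simp
  rw [h3] at h2
  nlinarith [mul_le_mul_of_nonneg_left h2 (hm i).le]

/-- Telescoping. -/
theorem telescoping (τ₁ τ₀ q₁ q₀ : ℝ → ℝ) (D : ℝ)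
    (h1 : ∀ s ∈ Set.Icc (0:ℝ) 1, ∀ t ∈ Set.Icc (0:ℝ) 1, τ₁ s + (t - s) * q₁ s ≤ τ₁ t)
    (h0 : ∀ s ∈ Set.Icc (0:ℝ) 1, ∀ t ∈ Set.Icc (0:ℝ) 1, τ₀ s + (t - s) * q₀ s ≤ τ₀ t)
    (hD : ∀ s ∈ Set.Icc (0:ℝ) 1, q₁ s - q₀ s ≤ D) :
    τ₁ 1 - τ₁ 0 - (τ₀ 1 - τ₀ 0) ≤ D := by
  have key : ∀ n : ℕ, τ₁ 1 - τ₁ 0 - (τ₀ 1 - τ₀ 0) ≤ D + (q₀ 1 - q₀ 0) * (1 / ((n : ℝ) + 1)) := by
    intro n
    have hn : (0 : ℝ) < (n : ℝ) + 1 := by positivity
    set p : ℕ → ℝ := fun k => (k : ℝ) / ((n : ℝ) + 1) with hp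
    have hpm : ∀ k, k ≤ n + 1 → p k ∈ Set.Icc (0:ℝ) 1 := by
      intro k hk
      constructor
      · exact div_nonneg (Nat.cast_nonneg _) hn.le
      · rw [div_le_one hn]
        exact_mod_cast hk
    have hstep : ∀ k, p (k + 1) - p k = 1 / ((n : ℝ) + 1) := by
      intro k
      simp only [hp]
      push_cast
      ring
    have hk : ∀ k, k < n + 1 → (τ₁ (p (k + 1)) - τ₀ (p (k + 1))) - (τ₁ (p k) - τ₀ (p k)) ≤
        1 / ((n : ℝ) + 1) * (D + (q₀ (p (k + 1)) - q₀ (p k))) := by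
      intro k hk
      have a := hpm k hk.le
      have b := hpm (k + 1) hk
      have c1 := h1 _ b _ a
      have c2 := h0 _ a _ b
      have c3 := hD _ b
      have c4 := hstep k
      have c5 : p k - p (k + 1) = - (1 / ((n : ℝ) + 1)) := by linarith
      rw [c4] at c2
      rw [c5] at c1
      have c6 : 1 / ((n : ℝ) + 1) * (q₁ (p (k + 1)) - q₀ (p (k + 1))) ≤ 1 / ((n : ℝ) + 1) * D :=
        mul_le_mul_of_nonneg_left c3 (by positivity)
      nlinarith
    have hsum := Finset.sum_le_sum (s := Finset.range (n + 1)) (fun k hk' => hk k (Finset.mem_range.1 hk'))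
    rw [Finset.sum_range_sub (fun k => τ₁ (p k) - τ₀ (p k)), ← Finset.mul_sum,
      Finset.sum_add_distrib, Finset.sum_range_sub (fun k => q₀ (p k))] at hsum
    have hp0 : p 0 = 0 := by simp [hp]
    have hp1 : p (n + 1) = 1 := by
      simp only [hp]
      push_cast
      exact div_self hn.ne'
    rw [hp0, hp1] at hsum
    simp only [Finset.sum_const, Finset.card_range, nsmul_eq_mul] at hsum
    push_cast at hsum
    have e : 1 / ((n : ℝ) + 1) * (((n : ℝ) + 1) * D + (q₀ 1 - q₀ 0)) =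
        D + (q₀ 1 - q₀ 0) * (1 / ((n : ℝ) + 1)) := by
      field_simp
    rw [e] at hsum
    linarith
  have hlim : Filter.Tendsto (fun n : ℕ => D + (q₀ 1 - q₀ 0) * (1 / ((n : ℝ) + 1))) Filter.atTop
      (nhds (D + (q₀ 1 - q₀ 0) * 0)) :=
    (tendsto_one_div_add_atTop_nhds_zero_nat.const_mul _).const_add _
  rw [mul_zero, add_zero] at hlim
  exact ge_of_tendsto' hlim key

end Crest.Agent.R082
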