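import Crest.Agent.R082.ShiftStar
import Crest.Agent.R082.Gap
import Crest.Agent.R082.CrossFinal

/-!
Row 82: the shift argument (F1, F2), final statements.
-/

set_option autoImplicit false

open MeasureTheory
open scoped ENNReal NNReal
open Crest.AnalysisR.OT

namespace Crest.Agent.R082

variable {d : ℕ}

lemma Sh.exists_common_bound {K Y : Set (E d)} (hKc : IsCompact K) (hYc : IsCompact Y) :
    ∃ R : ℝ, (∀ x ∈ K, ‖x‖ ≤ R) ∧ ∀ x ∈ Y, ‖x‖ ≤ R := by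
  obtain ⟨R1, h1⟩ := hKc.isBounded.exists_norm_le
  obtain ⟨R2, h2⟩ := hYc.isBounded.exists_norm_le
  exact ⟨max R1 R2, fun x hx => (h1 x hx).trans (le_max_left _ _),
    fun x hx => (h2 x hx).trans (le_max_right _ _)⟩

lemma Sh.gapStmt (hd : 0 < d) {K : Set (E d)} (hKc : IsCompact K) (hKv : Convex ℝ K)
    (hKi : (interior K).Nonempty) {Y : Set (E d)} {R : ℝ} (hKR : ∀ x ∈ K, ‖x‖ ≤ R)
    (hYR : ∀ x ∈ Y, ‖x‖ ≤ R) {μ : Measure (E d)} (hμ : IsProbabilityOn Y μ) {T : E d → E d}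
    (hT : IsOptimalMap (uniformProbOn K) μ T) : Sh.GapStmt K R μ T := by
  intro ι _ _ B hB hBd hBu hBpos y hy δ hδ hyB
  exact gap_of_isOptimalMap hd K hKc hKv hKi Y R hKR hYR μ hμ T hT B hB hBd hBu hBpos y hy δ hδ hyB

/-- Part F1. Monotonicity of optimal maps under a shift. -/
theorem ae_shift_mono (hd : 0 < d) (K : Set (E d)) (hKc : IsCompact K) (hKv : Convex ℝ K)
    (hKi : (interior K).Nonempty) (Y : Set (E d)) (hYc : IsCompact Y) (hYn : Y.Nonempty)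
    (μ : Measure (E d)) (hμ : IsProbabilityOn Y μ) (T : E d → E d)
    (hT : IsOptimalMap (uniformProbOn K) μ T) (h : E d) :
    ∀ᵐ x ∂(volume : Measure (E d)), x ∈ K → x + h ∈ K → 0 ≤ inner ℝ h (T (x + h) - T x) := by
  obtain ⟨R, hKR, hYR⟩ := Sh.exists_common_bound hKc hYc
  exact Sh.ae_shift_mono_of hKc hKi hYc hYn hμ hT.1 hT.2.1 hYR
    (Sh.gapStmt hd hKc hKv hKi hKR hYR hμ hT) h

/-- Part F2. The shift inequality. -/
theorem shift_ineq (hd : 0 < d) (K : Set (E d)) (hKc : IsCompact K) (hKv : Convex ℝ K)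
    (hKi : (interior K).Nonempty) :
    ∃ C : ℝ, 0 ≤ C ∧ ∀ (Y : Set (E d)) (_ : IsCompact Y) (_ : Y.Nonempty)
      (μ ν : Measure (E d)) (_ : IsProbabilityOn Y μ) (_ : IsProbabilityOn Y ν)
      (Tμ Tν : E d → E d) (_ : IsOptimalMap (uniformProbOn K) μ Tμ)
      (_ : IsOptimalMap (uniformProbOn K) ν Tν)
      (π : Measure (E d × E d)) (_ : IsPairCoupling μ ν π) (h : E d) (p : E d → ℝ)
      (_ : Measurable p) (_ : ∀ x, 0 ≤ p x) (_ : ∃ M, ∀ x, p x ≤ M)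
      (_ : ∀ x, p x ≠ 0 → x ∈ K ∧ x + h ∈ K),
      ∫ x, p x * inner ℝ h (Tμ x - Tν (x + h)) ∂(uniformProbOn K) ≤
        C * Real.sqrt (∫ x, (p (x - h) - p x) ^ 2 ∂(uniformProbOn K)) *
          Real.sqrt (quadCost π).toReal := by
  obtain ⟨C, hC, hX⟩ := TT_cross_diff_le K hKc hKv hKi
  refine ⟨C, hC, ?_⟩
  intro Y hYc hYn μ ν hμ hν Tμ Tν hTμ hTν π hπ h p hpm hp0 hpM hps
  obtain ⟨R, hKR, hYR⟩ := Sh.exists_common_bound hKc hYc
  obtain ⟨M, hM⟩ := hpM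
  refine Sh.shift_ineq_of hKc hKi hYc hYn hYR (C := C) ?_ hC hμ hν hTμ.1 hTμ.2.1 hTν.1 hTν.2.1
    (Sh.gapStmt hd hKc hKv hKi hKR hYR hμ hTμ) (Sh.gapStmt hd hKc hKv hKi hKR hYR hν hTν) hπ
    (M := M) ⟨hpm, hp0, hM, hps⟩
  intro ι _ _ m hm hm1 y z _ h hh hh1 hh2
  exact hX ι m hm hm1 y z h hh hh1 hh2

end Crest.Agent.R082
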