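import Crest.Agent.R082.Defs

/-!
Row 82: basic facts used by the shift argument (uniform probability on a convex body,
translations, elementary bounds for `phi`, `Kfun`).
-/

set_option autoImplicit false

open MeasureTheory
open scoped ENNReal NNReal
open Crest.AnalysisR.OT

namespace Crest.Agent.R082.Sh

variable {d : ℕ}

section Unif

variable {K : Set (E d)}

lemma vol_pos (hKi : (interior K).Nonempty) : 0 < volume K :=
  Measure.measure_pos_of_nonempty_interior _ hKi

lemma vol_lt_top (hKc : IsCompact K) : volume K < ⊤ := hKc.measure_lt_top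

lemma isProb_unif (hKc : IsCompact K) (hKi : (interior K).Nonempty) :
    IsProbabilityMeasure (uniformProbOn K) := by
  constructor
  unfold uniformProbOn
  rw [Measure.smul_apply, Measure.restrict_apply_univ, smul_eq_mul]
  exact ENNReal.inv_mul_cancel (vol_pos hKi).ne' (vol_lt_top hKc).ne

lemma ae_mem_unif (hKc : IsCompact K) : ∀ᵐ x ∂(uniformProbOn K), x ∈ K := by
  unfold uniformProbOn
  exact Measure.ae_smul_measure (ae_restrict_mem hKc.measurableSet) _

lemma unif_ac : uniformProbOn K ≪ (volume : Measure (E d)) := by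
  unfold uniformProbOn
  exact Measure.AbsolutelyContinuous.smul_left (Measure.absolutelyContinuous_of_le Measure.restrict_le_self) _

/-- a.e. statements for the uniform probability, in terms of Lebesgue measure. -/
lemma ae_unif_iff (hKc : IsCompact K) {P : E d → Prop} :
    (∀ᵐ x ∂(uniformProbOn K), P x) ↔ ∀ᵐ x ∂(volume : Measure (E d)), x ∈ K → P x := by
  unfold uniformProbOn
  rw [Measure.ae_ennreal_smul_measure_iff (ENNReal.inv_ne_zero.mpr (vol_lt_top hKc).ne),
    ae_restrict_iff' hKc.measurableSet]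

lemma ae_unif_shift (hKc : IsCompact K) {P : E d → Prop} (h : E d)
    (hP : ∀ᵐ x ∂(uniformProbOn K), P x) :
    ∀ᵐ x ∂(volume : Measure (E d)), x + h ∈ K → P (x + h) := by
  rw [ae_unif_iff hKc] at hP
  exact (measurePreserving_add_right volume h).quasiMeasurePreserving.ae hP

lemma integral_unif (f : E d → ℝ) :
    ∫ x, f x ∂(uniformProbOn K) = (volume K).toReal⁻¹ * ∫ x in K, f x := by
  unfold uniformProbOn
  rw [integral_smul_measure, smul_eq_mul, ENNReal.toReal_inv]

lemma integral_unif_of_supp {f : E d → ℝ} (hf : ∀ x, f x ≠ 0 → x ∈ K) :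
    ∫ x, f x ∂(uniformProbOn K) = (volume K).toReal⁻¹ * ∫ x, f x := by
  rw [integral_unif, setIntegral_eq_integral_of_forall_compl_eq_zero]
  intro x hx
  by_contra h
  exact hx (hf x h)

lemma integral_unif_shift {f : E d → ℝ} (h : E d) (hf : ∀ x, f x ≠ 0 → x ∈ K ∧ x + h ∈ K) :
    ∫ x, f (x - h) ∂(uniformProbOn K) = ∫ x, f x ∂(uniformProbOn K) := by
  rw [integral_unif_of_supp (f := fun x => f (x - h)), integral_unif_of_supp (f := f),
    integral_sub_right_eq_self f h]
  · intro x hx; exact (hf x hx).1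
  · intro x hx
    have := (hf (x - h) hx).2
    simpa using this

lemma integrable_unif (hKc : IsCompact K) (hKi : (interior K).Nonempty) {f : E d → ℝ}
    (hf : Measurable f) (C : ℝ) (hC : ∀ x ∈ K, |f x| ≤ C) : Integrable f (uniformProbOn K) := by
  have := isProb_unif hKc hKi
  refine Integrable.of_bound hf.aestronglyMeasurable C ?_
  filter_upwards [ae_mem_unif hKc] with x hx
  exact hC x hx

end Unif

section Phi

variable {ι : Type} [Fintype ι] [Nonempty ι]

lemma le_phi (y : ι → E d) (ψ : ι → ℝ) (x : E d) (i : ι) : inner ℝ x (y i) - ψ i ≤ phi y ψ x := by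
  unfold phi
  exact Finset.le_sup' (fun i => inner ℝ x (y i) - ψ i) (Finset.mem_univ i)

lemma phi_le {y : ι → E d} {ψ : ι → ℝ} {x : E d} {c : ℝ} (h : ∀ i, inner ℝ x (y i) - ψ i ≤ c) :
    phi y ψ x ≤ c := by
  unfold phi
  exact Finset.sup'_le _ _ (fun i _ => h i)

lemma continuous_phi (y : ι → E d) (ψ : ι → ℝ) : Continuous (phi y ψ) := by
  unfold phi
  exact Continuous.finset_sup'_apply _ (fun i _ => by fun_prop)

end Phi

section Simple

/-- Approximation of the identity on a compact set by a simple function. -/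
lemma exists_simple {Y : Set (E d)} (hYc : IsCompact Y) (hYn : Y.Nonempty) {δ : ℝ} (hδ : 0 < δ) :
    ∃ τ : SimpleFunc (E d) (E d), ∀ w ∈ Y, ‖w - τ w‖ ≤ δ := by
  obtain ⟨t, htY, htf, hcov⟩ := hYc.finite_cover_balls hδ
  obtain ⟨n, f, -, rfl⟩ := htf.fin_param
  obtain ⟨y0, hy0⟩ := hYn
  refine ⟨SimpleFunc.nearestPt (fun k => if h : k < n then f ⟨k, h⟩ else y0) n, ?_⟩
  intro w hw
  have := hcov hw
  simp only [Set.mem_iUnion, Metric.mem_ball, exists_prop] at this
  obtain ⟨x, ⟨⟨k, hk⟩, rfl⟩, hx⟩ := this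
  have h1 := SimpleFunc.edist_nearestPt_le (fun k => if h : k < n then f ⟨k, h⟩ else y0) w
    (le_of_lt hk)
  simp only [hk, dif_pos] at h1
  have h2 : dist (SimpleFunc.nearestPt (fun k => if h : k < n then f ⟨k, h⟩ else y0) n w) w ≤
      dist (f ⟨k, hk⟩) w := by
    rw [edist_dist, edist_dist] at h1
    exact (ENNReal.ofReal_le_ofReal_iff dist_nonneg).1 h1
  rw [← dist_eq_norm, dist_comm]
  refine h2.trans ?_
  rw [dist_comm]
  exact hx.le

end Simple

end Crest.Agent.R082.Sh
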