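import Crest.Agent.R082.ShiftIneq

/-!
Row 82: the shift inequality (part F2), end of the proof.
-/

set_option autoImplicit false

open MeasureTheory
open scoped ENNReal NNReal
open Crest.AnalysisR.OT

namespace Crest.Agent.R082.Sh

variable {d : ℕ}

section Fin

variable {K Y : Set (E d)} {h : E d} {p : E d → ℝ} {M : ℝ}
variable {π : Measure (E d × E d)} {pr : E d × E d → E d} {μ : Measure (E d)} {T : E d → E d}

lemma ae_pos (hYc : IsCompact Y) (hμ : IsProbabilityOn Y μ) (hT : Measurable T)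
    (hTm : (uniformProbOn K).map T = μ) (τ : SimpleFunc (E d) (E d)) :
    ∀ᵐ x ∂(uniformProbOn K), T x ∈ Y ∧ 0 < μ.real (τ ⁻¹' {τ (T x)} ∩ Y) := by
  have h1 := ae_piece hYc hμ τ
  rw [← hTm] at h1
  filter_upwards [ae_of_ae_map hT.aemeasurable h1] with x hx
  rw [hTm] at hx
  exact hx

lemma Kfun_rhoh (hKc : IsCompact K) (hKi : (interior K).Nonempty) (hp : Bump K h p M) {ε : ℝ}
    (hε : 0 ≤ ε) (hεM : ε * M ≤ 1 / 2) {ι : Type} [Fintype ι] [Nonempty ι] (m : ι → ℝ)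
    (y : ι → E d) (ψ : ι → ℝ) :
    Kfun (rhoh K (hfun ε p h)) m y ψ =
      (∫ x, phi y ψ x ∂(uniformProbOn K) +
        ε * (∫ x, p x * phi y ψ (x + h) ∂(uniformProbOn K) -
          ∫ x, p x * phi y ψ x ∂(uniformProbOn K))) + ∑ i, m i * ψ i := by
  unfold Kfun
  obtain ⟨C1, hC1⟩ := hKc.exists_bound_of_continuousOn (continuous_phi y ψ).continuousOn
  rw [integral_rhoh (measurable_hfun hp ε) (hfun_nonneg hp hε hεM),
    integral_hfun hKc hKi hp (continuous_phi y ψ).measurable hC1]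

/-- Lower bound for the perturbed functional. -/
lemma TT_lower (hKc : IsCompact K) (hKi : (interior K).Nonempty) (hYc : IsCompact Y)
    [IsProbabilityMeasure π] (hY : ∀ᵐ w ∂π, w.1 ∈ Y ∧ w.2 ∈ Y)
    (τ : SimpleFunc (E d) (E d)) (hpr : IsProj pr) (hπ : π.map pr = μ)
    (hμ : IsProbabilityOn Y μ) (hT : Measurable T) (hTm : (uniformProbOn K).map T = μ)
    [Nonempty (pairs Y τ π)] (hp : Bump K h p M) {ε : ℝ} (hε : 0 ≤ ε) (hεM : ε * M ≤ 1 / 2)
    (ψ : pairs Y τ π → ℝ) :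
    ∫ x, inner ℝ x (τ (T x)) ∂(uniformProbOn K) +
        ε * ∫ x, p x * inner ℝ h (τ (T x)) ∂(uniformProbOn K) ≤
      Kfun (rhoh K (hfun ε p h)) (fun q : pairs Y τ π => π.real (pc Y τ q.1))
        (fun q => pr q.1) ψ := by
  rw [Kfun_rhoh hKc hKi hp hε hεM]
  exact lower_core hKc hKi hYc hY τ hpr hπ hμ hT hTm hp hε hεM ψ

lemma TT_lower0 (hKc : IsCompact K) (hKi : (interior K).Nonempty) (hYc : IsCompact Y)
    [IsProbabilityMeasure π] (hY : ∀ᵐ w ∂π, w.1 ∈ Y ∧ w.2 ∈ Y)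
    (τ : SimpleFunc (E d) (E d)) (hpr : IsProj pr) (hπ : π.map pr = μ)
    (hμ : IsProbabilityOn Y μ) (hT : Measurable T) (hTm : (uniformProbOn K).map T = μ)
    [Nonempty (pairs Y τ π)] (hp : Bump K h p M)
    (ψ : pairs Y τ π → ℝ) :
    ∫ x, inner ℝ x (τ (T x)) ∂(uniformProbOn K) ≤
      Kfun (uniformProbOn K) (fun q : pairs Y τ π => π.real (pc Y τ q.1))
        (fun q => pr q.1) ψ := by
  have := lower_core hKc hKi hYc hY τ hpr hπ hμ hT hTm hp (ε := 0) le_rfl (by norm_num) ψ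
  simp only [zero_mul, add_zero] at this
  exact this

lemma phi_pr_le [IsProbabilityMeasure π] (hYc : IsCompact Y)
    (τ : SimpleFunc (E d) (E d)) (hpr : IsProj pr) (hπ : π.map pr = μ)
    [Nonempty (pairs Y τ π)] {Ψ φ : E d → ℝ}
    (hΨ : ∀ v, 0 < μ.real (τ ⁻¹' {v} ∩ Y) → ∀ x, inner ℝ x v - Ψ v ≤ φ x) (x : E d) :
    phi (fun q : pairs Y τ π => pr q.1) (fun q => Ψ (pr q.1)) x ≤ φ x :=
  phi_le fun q => hΨ _ (pos_pr hYc τ hpr hπ q.2) x

/-- Upper bound for the unperturbed value. -/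
lemma TT_upper0 (hKc : IsCompact K) (hKi : (interior K).Nonempty) (hYc : IsCompact Y)
    [IsProbabilityMeasure π] (hY : ∀ᵐ w ∂π, w.1 ∈ Y ∧ w.2 ∈ Y)
    (τ : SimpleFunc (E d) (E d)) (hpr : IsProj pr) (hπ : π.map pr = μ)
    (hμ : IsProbabilityOn Y μ) (hT : Measurable T) (hTm : (uniformProbOn K).map T = μ)
    [Nonempty (pairs Y τ π)] (hp : Bump K h p M) {Ψ φ : E d → ℝ} (hφ : Continuous φ)
    (hΨ : ∀ v, 0 < μ.real (τ ⁻¹' {v} ∩ Y) → ∀ x, inner ℝ x v - Ψ v ≤ φ x) {η : ℝ}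
    (hη : ∫ x, φ x ∂(uniformProbOn K) + ∫ x, Ψ (τ (T x)) ∂(uniformProbOn K) ≤
        ∫ x, inner ℝ x (τ (T x)) ∂(uniformProbOn K) + η) :
    TT (uniformProbOn K) (fun q : pairs Y τ π => π.real (pc Y τ q.1)) (fun q => pr q.1) ≤
      ∫ x, inner ℝ x (τ (T x)) ∂(uniformProbOn K) + η := by
  unfold TT
  refine (ciInf_le ⟨∫ x, inner ℝ x (τ (T x)) ∂(uniformProbOn K), ?_⟩
    (fun q : pairs Y τ π => Ψ (pr q.1))).trans ?_
  · rintro _ ⟨ψ, rfl⟩
    exact TT_lower0 hKc hKi hYc hY τ hpr hπ hμ hT hTm hp ψ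
  · refine le_trans ?_ hη
    unfold Kfun
    rw [sum_pairs_pr hYc hY τ hpr hπ hT hTm Ψ]
    refine add_le_add_left ?_ _
    have c1 := continuous_phi (fun q : pairs Y τ π => pr q.1) (fun q => Ψ (pr q.1))
    obtain ⟨C1, hC1⟩ := hKc.exists_bound_of_continuousOn c1.continuousOn
    obtain ⟨C2, hC2⟩ := hKc.exists_bound_of_continuousOn hφ.continuousOn
    exact integral_mono (integrable_unif hKc hKi c1.measurable C1 hC1)
      (integrable_unif hKc hKi hφ.measurable C2 hC2) (phi_pr_le hYc τ hpr hπ hΨ)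

/-- Upper bound for the perturbed value. -/
lemma TT_upper (hKc : IsCompact K) (hKi : (interior K).Nonempty) (hYc : IsCompact Y)
    [IsProbabilityMeasure π] (hY : ∀ᵐ w ∂π, w.1 ∈ Y ∧ w.2 ∈ Y)
    (τ : SimpleFunc (E d) (E d)) (hpr : IsProj pr) (hπ : π.map pr = μ)
    (hμ : IsProbabilityOn Y μ) (hT : Measurable T) (hTm : (uniformProbOn K).map T = μ)
    [Nonempty (pairs Y τ π)] (hp : Bump K h p M) {ε : ℝ} (hε : 0 ≤ ε) (hεM : ε * M ≤ 1 / 2)
    {Ψ φ : E d → ℝ} (hφ : Continuous φ)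
    (hΨ : ∀ v, 0 < μ.real (τ ⁻¹' {v} ∩ Y) → ∀ x, inner ℝ x v - Ψ v ≤ φ x) {η : ℝ}
    (hη : ∫ x, φ x ∂(uniformProbOn K) + ∫ x, Ψ (τ (T x)) ∂(uniformProbOn K) ≤
        ∫ x, inner ℝ x (τ (T x)) ∂(uniformProbOn K) + η) :
    TT (rhoh K (hfun ε p h)) (fun q : pairs Y τ π => π.real (pc Y τ q.1)) (fun q => pr q.1) ≤
      ∫ x, inner ℝ x (τ (T x)) ∂(uniformProbOn K) + η +
        ε * (∫ x, p x * inner ℝ h (τ (T (x + h))) ∂(uniformProbOn K) + M * η) := by
  have hρ := isProb_unif hKc hKi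
  have hpm := hp.meas
  unfold TT
  refine (ciInf_le ⟨∫ x, inner ℝ x (τ (T x)) ∂(uniformProbOn K) +
        ε * ∫ x, p x * inner ℝ h (τ (T x)) ∂(uniformProbOn K), ?_⟩
        (fun q : pairs Y τ π => Ψ (pr q.1))).trans ?_
  · rintro _ ⟨ψ, rfl⟩
    exact TT_lower hKc hKi hYc hY τ hpr hπ hμ hT hTm hp hε hεM ψ
  obtain ⟨C2, hC2⟩ := hKc.exists_bound_of_continuousOn hφ.continuousOn
  have hC2' : ∀ x ∈ K, |φ x| ≤ C2 := hC2
  have c1 := continuous_phi (fun q : pairs Y τ π => pr q.1) (fun q => Ψ (pr q.1))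
  obtain ⟨C1, hC1⟩ := hKc.exists_bound_of_continuousOn c1.continuousOn
  have i0 : Integrable φ (uniformProbOn K) := integrable_unif hKc hKi hφ.measurable C2 hC2'
  have i1 : Integrable (fun x => p x * φ x) (uniformProbOn K) :=
    integrable_bump_mul hKc hKi hp hφ.measurable hC2'
  have i2 : Integrable (fun x => p x * φ (x + h)) (uniformProbOn K) :=
    integrable_bump_mul_shift hKc hKi hp hφ.measurable hC2'
  have hgm := measurable_gapf (Ψ := Ψ) hφ τ hT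
  have hgb := bdd_gapf (T := T) (Ψ := Ψ) hKc hφ τ
  obtain ⟨C3, hC3⟩ := hgb
  have hpc := ae_pos hYc hμ hT hTm τ
  have hg0 : ∀ᵐ x ∂(uniformProbOn K), 0 ≤ gapf Ψ φ τ T x := by
    filter_upwards [hpc] with x hx using gapf_nonneg hΨ hx.2
  have hg := gapf_integral_le hKc hKi hφ τ hT hη
  have i3 : Integrable (fun x => p x * gapf Ψ φ τ T (x + h)) (uniformProbOn K) :=
    integrable_bump_mul_shift hKc hKi hp hgm hC3
  obtain ⟨C4, hC4⟩ := bdd_inner_comp' τ T h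
  have i4 : Integrable (fun x => p x * inner ℝ h (τ (T (x + h)))) (uniformProbOn K) :=
    integrable_bump_mul_shift hKc hKi hp (F := fun x => inner ℝ h (τ (T x)))
      (meas_inner_comp' τ hT h) (C := C4) (fun x _ => hC4 x)
  -- first step : pass from the finite potential to `φ`
  have s1 : Kfun (rhoh K (hfun ε p h)) (fun q : pairs Y τ π => π.real (pc Y τ q.1))
      (fun q => pr q.1) (fun q => Ψ (pr q.1)) ≤
      (∫ x, φ x ∂(uniformProbOn K) +
        ε * (∫ x, p x * φ (x + h) ∂(uniformProbOn K) -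
          ∫ x, p x * φ x ∂(uniformProbOn K))) + ∫ x, Ψ (τ (T x)) ∂(uniformProbOn K) := by
    unfold Kfun
    rw [sum_pairs_pr hYc hY τ hpr hπ hT hTm Ψ]
    refine add_le_add_left ?_ _
    rw [integral_rhoh (measurable_hfun hp ε) (hfun_nonneg hp hε hεM),
      ← integral_hfun hKc hKi hp hφ.measurable hC2']
    have hb : ∀ x, hfun ε p h x ≤ 3 / 2 := fun x => by
      have := (abs_le.1 (hfun_abs hp hε hεM x)).2
      linarith
    apply integral_mono
    · refine integrable_unif hKc hKi ((measurable_hfun hp ε).mul c1.measurable) (3 / 2 * C1)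
        (fun x hx => ?_)
      rw [abs_mul, abs_of_nonneg (hfun_nonneg hp hε hεM x)]
      exact mul_le_mul (hb x) (hC1 x hx) (abs_nonneg _) (by norm_num)
    · refine integrable_unif hKc hKi ((measurable_hfun hp ε).mul hφ.measurable) (3 / 2 * C2)
        (fun x hx => ?_)
      rw [abs_mul, abs_of_nonneg (hfun_nonneg hp hε hεM x)]
      exact mul_le_mul (hb x) (hC2' x hx) (abs_nonneg _) (by norm_num)
    · intro x
      exact mul_le_mul_of_nonneg_left (phi_pr_le hYc τ hpr hπ hΨ x) (hfun_nonneg hp hε hεM x)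
  have s2 : ∫ x, p x * φ (x + h) ∂(uniformProbOn K) - ∫ x, p x * φ x ∂(uniformProbOn K) ≤
      ∫ x, p x * inner ℝ h (τ (T (x + h))) ∂(uniformProbOn K) +
        ∫ x, p x * gapf Ψ φ τ T (x + h) ∂(uniformProbOn K) := by
    rw [← integral_sub i2 i1, ← integral_add i4 i3]
    apply integral_mono_ae (i2.sub i1) (i4.add i3)
    have hpc' := (ae_unif_iff hKc
      (P := fun x => x + h ∈ K → T (x + h) ∈ Y ∧ 0 < μ.real (τ ⁻¹' {τ (T (x + h))} ∩ Y))).2
      ((ae_unif_shift hKc (P := fun x => T x ∈ Y ∧ 0 < μ.real (τ ⁻¹' {τ (T x)} ∩ Y)) h hpc).mono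
        fun x hx _ => hx)
    filter_upwards [hpc'] with x hx
    simp only [Pi.add_apply, Pi.sub_apply]
    by_cases h0 : p x = 0
    · simp [h0]
    · have h1 := hx (hp.supp x h0).2
      have a1 := hΨ _ h1.2 x
      have : φ (x + h) - φ x ≤ inner ℝ h (τ (T (x + h))) + gapf Ψ φ τ T (x + h) := by
        unfold gapf
        rw [inner_add_left]
        linarith
      calc p x * φ (x + h) - p x * φ x = p x * (φ (x + h) - φ x) := by ring
        _ ≤ p x * (inner ℝ h (τ (T (x + h))) + gapf Ψ φ τ T (x + h)) :=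
          mul_le_mul_of_nonneg_left this (hp.nonneg x)
        _ = _ := by ring
  have s3 : ∫ x, p x * gapf Ψ φ τ T (x + h) ∂(uniformProbOn K) ≤ M * η :=
    (integral_shift_le hKc hKi hgm ⟨C3, hC3⟩ hg0 h hpm hp.nonneg hp.le hp.supp).trans
      (mul_le_mul_of_nonneg_left hg hp.M_nonneg)
  refine s1.trans ?_
  have s4 := mul_le_mul_of_nonneg_left (s2.trans (add_le_add_right s3 _)) hε
  linarith

end Fin

end Crest.Agent.R082.Sh
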