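import Crest.Agent.R082.ShiftPair

/-!
Row 82: the shift inequality (part F2), assuming the gap statement and the cross difference bound.
-/

set_option autoImplicit false

open MeasureTheory
open scoped ENNReal NNReal
open Crest.AnalysisR.OT

namespace Crest.Agent.R082.Sh

variable {d : ℕ}

/-- The statement of part X for a fixed constant. -/
def XStmt (K : Set (E d)) (C : ℝ) : Prop :=
  ∀ (ι : Type) [Fintype ι] [Nonempty ι] (m : ι → ℝ) (_ : ∀ i, 0 < m i)
      (_ : ∑ i, m i = 1) (y z : ι → E d) (_ : ∀ i j, i ≠ j → (y i, z i) ≠ (y j, z j))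
      (h : E d → ℝ) (_ : Measurable h) (_ : ∀ x, |h x - 1| ≤ 1 / 2)
      (_ : ∫ x, h x ∂(uniformProbOn K) = 1),
      TT (rhoh K h) m z - TT (rhoh K h) m y - (TT (uniformProbOn K) m z - TT (uniformProbOn K) m y) ≤
        C * Real.sqrt (∫ x, (h x - 1) ^ 2 ∂(uniformProbOn K)) *
          Real.sqrt (∑ i, m i * ‖y i - z i‖ ^ 2)

section Ineq

variable {K Y : Set (E d)}

/-- The perturbed density. -/
noncomputable def hfun (ε : ℝ) (p : E d → ℝ) (h : E d) (x : E d) : ℝ := 1 + ε * (p (x - h) - p x)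

/-- Admissible bumps. -/
structure Bump (K : Set (E d)) (h : E d) (p : E d → ℝ) (M : ℝ) : Prop where
  meas : Measurable p
  nonneg : ∀ x, 0 ≤ p x
  le : ∀ x, p x ≤ M
  supp : ∀ x, p x ≠ 0 → x ∈ K ∧ x + h ∈ K

variable {h : E d} {p : E d → ℝ} {M : ℝ}

lemma Bump.M_nonneg (hp : Bump K h p M) : 0 ≤ M := (hp.nonneg 0).trans (hp.le 0)

lemma measurable_hfun (hp : Bump K h p M) (ε : ℝ) : Measurable (hfun ε p h) := by
  have := hp.meas
  unfold hfun
  fun_prop

lemma Bump.abs_sub_le (hp : Bump K h p M) (x : E d) : |p (x - h) - p x| ≤ M := by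
  rw [abs_le]
  constructor <;> linarith [hp.nonneg x, hp.le x, hp.nonneg (x - h), hp.le (x - h)]

lemma hfun_abs (hp : Bump K h p M) {ε : ℝ} (hε : 0 ≤ ε) (hεM : ε * M ≤ 1 / 2) (x : E d) :
    |hfun ε p h x - 1| ≤ 1 / 2 := by
  unfold hfun
  rw [add_sub_cancel_left, abs_mul, abs_of_nonneg hε]
  exact (mul_le_mul_of_nonneg_left (hp.abs_sub_le x) hε).trans hεM

lemma hfun_nonneg (hp : Bump K h p M) {ε : ℝ} (hε : 0 ≤ ε) (hεM : ε * M ≤ 1 / 2) (x : E d) :
    0 ≤ hfun ε p h x := by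
  have := (abs_le.1 (hfun_abs hp hε hεM x)).1
  linarith

lemma integral_rhoh {hf F : E d → ℝ} (hm : Measurable hf) (h0 : ∀ x, 0 ≤ hf x) :
    ∫ x, F x ∂(rhoh K hf) = ∫ x, hf x * F x ∂(uniformProbOn K) := by
  unfold rhoh
  rw [integral_withDensity_eq_integral_toReal_smul (by fun_prop) (by simp)]
  refine integral_congr_ae (Filter.Eventually.of_forall fun x => ?_)
  simp only [smul_eq_mul, ENNReal.toReal_ofReal (h0 x)]

lemma integrable_bump_mul (hKc : IsCompact K) (hKi : (interior K).Nonempty) (hp : Bump K h p M)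
    {F : E d → ℝ} (hF : Measurable F) {C : ℝ} (hC : ∀ x ∈ K, |F x| ≤ C) :
    Integrable (fun x => p x * F x) (uniformProbOn K) := by
  have := hp.meas
  refine integrable_unif hKc hKi (by fun_prop) (M * C) (fun x hx => ?_)
  rw [abs_mul, abs_of_nonneg (hp.nonneg x)]
  exact mul_le_mul (hp.le x) (hC x hx) (abs_nonneg _) hp.M_nonneg

lemma integrable_bump_mul_shift (hKc : IsCompact K) (hKi : (interior K).Nonempty)
    (hp : Bump K h p M)
    {F : E d → ℝ} (hF : Measurable F) {C : ℝ} (hC : ∀ x ∈ K, |F x| ≤ C) :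
    Integrable (fun x => p x * F (x + h)) (uniformProbOn K) := by
  have := hp.meas
  refine integrable_unif hKc hKi (by fun_prop) (M * C) (fun x hx => ?_)
  by_cases h0 : p x = 0
  · rw [h0, zero_mul, abs_zero]
    exact mul_nonneg hp.M_nonneg ((abs_nonneg _).trans (hC x hx))
  · rw [abs_mul, abs_of_nonneg (hp.nonneg x)]
    exact mul_le_mul (hp.le x) (hC _ (hp.supp x h0).2) (abs_nonneg _) hp.M_nonneg

lemma integral_bump_shift (hp : Bump K h p M) (F : E d → ℝ) :
    ∫ x, p (x - h) * F x ∂(uniformProbOn K) = ∫ x, p x * F (x + h) ∂(uniformProbOn K) := by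
  have := integral_unif_shift (K := K) (f := fun x => p x * F (x + h)) h
    (fun x hx => hp.supp x (left_ne_zero_of_mul hx))
  rw [← this]
  simp only [sub_add_cancel]

lemma integral_hfun (hKc : IsCompact K) (hKi : (interior K).Nonempty) (hp : Bump K h p M) {ε : ℝ}
    {F : E d → ℝ} (hF : Measurable F) {C : ℝ} (hC : ∀ x ∈ K, |F x| ≤ C) :
    ∫ x, hfun ε p h x * F x ∂(uniformProbOn K) =
      ∫ x, F x ∂(uniformProbOn K) + ε * (∫ x, p x * F (x + h) ∂(uniformProbOn K) -
        ∫ x, p x * F x ∂(uniformProbOn K)) := by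
  have hpm := hp.meas
  have i0 : Integrable F (uniformProbOn K) := integrable_unif hKc hKi hF C hC
  have i1 : Integrable (fun x => p x * F x) (uniformProbOn K) :=
    integrable_bump_mul hKc hKi hp hF hC
  have i2 : Integrable (fun x => p (x - h) * F x) (uniformProbOn K) := by
    refine integrable_unif hKc hKi (by fun_prop) (M * C) (fun x hx => ?_)
    rw [abs_mul, abs_of_nonneg (hp.nonneg _)]
    exact mul_le_mul (hp.le _) (hC x hx) (abs_nonneg _) hp.M_nonneg
  have i3 : Integrable (fun x => ε * (p (x - h) * F x - p x * F x)) (uniformProbOn K) :=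
    (i2.sub i1).const_mul ε
  rw [← integral_bump_shift hp F, ← integral_sub i2 i1, ← integral_const_mul,
    ← integral_add i0 i3]
  refine integral_congr_ae (Filter.Eventually.of_forall fun x => ?_)
  simp only [hfun]
  ring

lemma integral_hfun_one (hKc : IsCompact K) (hKi : (interior K).Nonempty) (hp : Bump K h p M)
    {ε : ℝ} : ∫ x, hfun ε p h x ∂(uniformProbOn K) = 1 := by
  have := isProb_unif hKc hKi
  have h1 := integral_hfun hKc hKi hp (ε := ε) (F := fun _ => (1 : ℝ)) measurable_const (C := 1)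
    (fun x _ => by simp)
  simp only [mul_one, sub_self, mul_zero, add_zero] at h1
  rw [h1]
  simp

variable {π : Measure (E d × E d)} {pr : E d × E d → E d} {μ : Measure (E d)} {T : E d → E d}

lemma bdd_inner_comp (hKc : IsCompact K) (τ : SimpleFunc (E d) (E d)) (T : E d → E d) :
    ∃ C, ∀ x ∈ K, |inner ℝ x (τ (T x))| ≤ C := by
  obtain ⟨C3, hC3⟩ := bdd_comp_simple τ (fun v => ‖v‖)
  obtain ⟨C4, hC4⟩ := hKc.isBounded.exists_norm_le
  refine ⟨C4 * C3, fun x hx => ?_⟩
  have h4 := hC3 (T x)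
  rw [abs_norm] at h4
  exact (abs_real_inner_le_norm _ _).trans (mul_le_mul (hC4 x hx) h4 (norm_nonneg _)
    ((norm_nonneg _).trans (hC4 x hx)))

lemma bdd_inner_comp' (τ : SimpleFunc (E d) (E d)) (T : E d → E d) (h : E d) :
    ∃ C, ∀ x, |inner ℝ h (τ (T x))| ≤ C := by
  obtain ⟨C3, hC3⟩ := bdd_comp_simple τ (fun v => ‖v‖)
  refine ⟨‖h‖ * C3, fun x => ?_⟩
  have h4 := hC3 (T x)
  rw [abs_norm] at h4
  exact (abs_real_inner_le_norm _ _).trans (mul_le_mul_of_nonneg_left h4 (norm_nonneg _))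

lemma meas_inner_comp (τ : SimpleFunc (E d) (E d)) (hT : Measurable T) :
    Measurable fun x => inner ℝ x (τ (T x)) := by
  have hm : Measurable fun x => τ (T x) := τ.measurable.comp hT
  exact measurable_id.inner hm

lemma meas_inner_comp' (τ : SimpleFunc (E d) (E d)) (hT : Measurable T) (h : E d) :
    Measurable fun x => inner ℝ h (τ (T x)) := by
  have hm : Measurable fun x => τ (T x) := τ.measurable.comp hT
  exact measurable_const.inner hm

/-- The lower bound (weak duality), core version. -/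
lemma lower_core (hKc : IsCompact K) (hKi : (interior K).Nonempty) (hYc : IsCompact Y)
    [IsProbabilityMeasure π] (hY : ∀ᵐ w ∂π, w.1 ∈ Y ∧ w.2 ∈ Y)
    (τ : SimpleFunc (E d) (E d)) (hpr : IsProj pr) (hπ : π.map pr = μ)
    (hμ : IsProbabilityOn Y μ) (hT : Measurable T) (hTm : (uniformProbOn K).map T = μ)
    [Nonempty (pairs Y τ π)] (hp : Bump K h p M) {ε : ℝ} (hε : 0 ≤ ε) (hεM : ε * M ≤ 1 / 2)
    (ψ : pairs Y τ π → ℝ) :
    ∫ x, inner ℝ x (τ (T x)) ∂(uniformProbOn K) +
        ε * ∫ x, p x * inner ℝ h (τ (T x)) ∂(uniformProbOn K) ≤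
      (∫ x, phi (fun q : pairs Y τ π => pr q.1) ψ x ∂(uniformProbOn K) +
        ε * (∫ x, p x * phi (fun q : pairs Y τ π => pr q.1) ψ (x + h) ∂(uniformProbOn K) -
          ∫ x, p x * phi (fun q : pairs Y τ π => pr q.1) ψ x ∂(uniformProbOn K))) +
        ∑ q : pairs Y τ π, π.real (pc Y τ q.1) * ψ q := by
  have hρ := isProb_unif hKc hKi
  have hpm := hp.meas
  obtain ⟨Ψ, hΨ1, hΨ2⟩ := exists_point_potential hYc hY τ hpr hπ ψ
  set F := phi (fun q : pairs Y τ π => pr q.1) ψ with hF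
  have hFc : Continuous F := continuous_phi _ _
  obtain ⟨C1, hC1⟩ := hKc.exists_bound_of_continuousOn hFc.continuousOn
  have hC1' : ∀ x ∈ K, |F x| ≤ C1 := hC1
  have hsum : ∫ x, Ψ (τ (T x)) ∂(uniformProbOn K) ≤
      ∑ q : pairs Y τ π, π.real (pc Y τ q.1) * ψ q := by
    rw [← sum_pairs_pr hYc hY τ hpr hπ hT hTm Ψ]
    exact Finset.sum_le_sum fun q _ => mul_le_mul_of_nonneg_left (hΨ1 q) measureReal_nonneg
  refine le_trans ?_ (add_le_add_right hsum _)
  obtain ⟨C2, hC2⟩ := bdd_comp_simple τ Ψ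
  obtain ⟨C3, hC3⟩ := bdd_inner_comp hKc τ T
  obtain ⟨C4, hC4⟩ := bdd_inner_comp' τ T h
  have i0 : Integrable F (uniformProbOn K) := integrable_unif hKc hKi hFc.measurable C1 hC1'
  have i1 : Integrable (fun x => p x * F x) (uniformProbOn K) :=
    integrable_bump_mul hKc hKi hp hFc.measurable hC1'
  have i2 : Integrable (fun x => p x * F (x + h)) (uniformProbOn K) :=
    integrable_bump_mul_shift hKc hKi hp hFc.measurable hC1'
  have i3 : Integrable (fun x => Ψ (τ (T x))) (uniformProbOn K) :=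
    integrable_unif hKc hKi (measurable_comp_simple τ hT Ψ) C2 (fun x _ => hC2 _)
  have i4 : Integrable (fun x => inner ℝ x (τ (T x))) (uniformProbOn K) :=
    integrable_unif hKc hKi (meas_inner_comp τ hT) C3 hC3
  have i5 : Integrable (fun x => p x * inner ℝ h (τ (T x))) (uniformProbOn K) :=
    integrable_bump_mul hKc hKi hp (meas_inner_comp' τ hT h) (fun x _ => hC4 x)
  have i6 : Integrable (fun x => ε * (p x * F (x + h) - p x * F x)) (uniformProbOn K) :=
    (i2.sub i1).const_mul ε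
  have i7 : Integrable (fun x => F x + ε * (p x * F (x + h) - p x * F x)) (uniformProbOn K) :=
    i0.add i6
  have e1 : ∫ x, inner ℝ x (τ (T x)) ∂(uniformProbOn K) +
        ε * ∫ x, p x * inner ℝ h (τ (T x)) ∂(uniformProbOn K) =
      ∫ x, (inner ℝ x (τ (T x)) + ε * (p x * inner ℝ h (τ (T x)))) ∂(uniformProbOn K) := by
    rw [integral_add i4 (i5.const_mul ε), integral_const_mul]
  have e2 : (∫ x, F x ∂(uniformProbOn K) +
        ε * (∫ x, p x * F (x + h) ∂(uniformProbOn K) - ∫ x, p x * F x ∂(uniformProbOn K))) +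
        ∫ x, Ψ (τ (T x)) ∂(uniformProbOn K) =
      ∫ x, (F x + ε * (p x * F (x + h) - p x * F x)) + Ψ (τ (T x)) ∂(uniformProbOn K) := by
    rw [integral_add i7 i3, integral_add i0 i6, integral_const_mul, integral_sub i2 i1]
  rw [e1, e2]
  have hpc : ∀ᵐ x ∂(uniformProbOn K), T x ∈ Y ∧ 0 < μ.real (τ ⁻¹' {τ (T x)} ∩ Y) := by
    have h1 := ae_piece hYc hμ τ
    rw [← hTm] at h1
    filter_upwards [ae_of_ae_map hT.aemeasurable h1] with x hx
    rw [hTm] at hx
    exact hx
  apply integral_mono_ae (i4.add (i5.const_mul ε)) (i7.add i3)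
  filter_upwards [hpc] with x hx
  have a1 := hΨ2 _ hx.2 x
  have a2 := hΨ2 _ hx.2 (x + h)
  rw [inner_add_left] at a2
  have b0 : 0 ≤ ε * p x := mul_nonneg hε (hp.nonneg x)
  have b1 : ε * p x ≤ 1 := by
    have := mul_le_mul_of_nonneg_left (hp.le x) hε
    linarith
  simp only [Pi.add_apply]
  nlinarith [mul_le_mul_of_nonneg_left a2 b0, mul_le_mul_of_nonneg_left a1 (sub_nonneg.2 b1)]

end Ineq

end Crest.Agent.R082.Sh
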