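import Crest.Agent.R082.ShiftPkg

/-!
Row 82: monotonicity of optimal maps under shifts (part F1).
-/

set_option autoImplicit false

open MeasureTheory
open scoped ENNReal NNReal
open Crest.AnalysisR.OT

namespace Crest.Agent.R082.Sh

variable {d : ℕ}

section Mono

variable {K Y : Set (E d)} {R : ℝ} {μ : Measure (E d)} {T : E d → E d}

/-- The gap function. -/
noncomputable def gapf (Ψ φ : E d → ℝ) (τ : SimpleFunc (E d) (E d)) (T : E d → E d) (x : E d) : ℝ :=
  φ x + Ψ (τ (T x)) - inner ℝ x (τ (T x))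

lemma measurable_gapf {Ψ φ : E d → ℝ} (hφ : Continuous φ) (τ : SimpleFunc (E d) (E d))
    (hT : Measurable T) : Measurable (gapf Ψ φ τ T) := by
  unfold gapf
  have h1 := measurable_comp_simple τ hT Ψ
  have h2 : Measurable fun x => τ (T x) := τ.measurable.comp hT
  have h3 := hφ.measurable
  exact (h3.add h1).sub (measurable_id.inner h2)

lemma bdd_gapf (hKc : IsCompact K) {Ψ φ : E d → ℝ} (hφ : Continuous φ)
    (τ : SimpleFunc (E d) (E d)) : ∃ C, ∀ x ∈ K, |gapf Ψ φ τ T x| ≤ C := by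
  obtain ⟨C1, hC1⟩ := hKc.exists_bound_of_continuousOn hφ.continuousOn
  obtain ⟨C2, hC2⟩ := bdd_comp_simple τ Ψ
  obtain ⟨C3, hC3⟩ := bdd_comp_simple τ (fun v => ‖v‖)
  obtain ⟨C4, hC4⟩ := hKc.isBounded.exists_norm_le
  refine ⟨C1 + C2 + C4 * C3, fun x hx => ?_⟩
  unfold gapf
  have h1 := hC1 x hx
  rw [Real.norm_eq_abs] at h1
  have h2 := hC2 (T x)
  have h3 : |inner ℝ x (τ (T x))| ≤ C4 * C3 := by
    have h4 := hC3 (T x)
    rw [abs_norm] at h4
    exact (abs_real_inner_le_norm _ _).trans (mul_le_mul (hC4 x hx) h4 (norm_nonneg _)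
      ((norm_nonneg _).trans (hC4 x hx)))
  calc |φ x + Ψ (τ (T x)) - inner ℝ x (τ (T x))|
      ≤ |φ x + Ψ (τ (T x))| + |inner ℝ x (τ (T x))| := abs_sub _ _
    _ ≤ |φ x| + |Ψ (τ (T x))| + |inner ℝ x (τ (T x))| := by gcongr; exact abs_add_le _ _
    _ ≤ C1 + C2 + C4 * C3 := by gcongr

lemma gapf_integral_le (hKc : IsCompact K) (hKi : (interior K).Nonempty) {Ψ φ : E d → ℝ}
    (hφ : Continuous φ) (τ : SimpleFunc (E d) (E d)) (hT : Measurable T) {η : ℝ}
    (h : ∫ x, φ x ∂(uniformProbOn K) + ∫ x, Ψ (τ (T x)) ∂(uniformProbOn K) ≤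
        ∫ x, inner ℝ x (τ (T x)) ∂(uniformProbOn K) + η) :
    ∫ x, gapf Ψ φ τ T x ∂(uniformProbOn K) ≤ η := by
  have hρ := isProb_unif hKc hKi
  have i1 : Integrable φ (uniformProbOn K) := by
    obtain ⟨C1, hC1⟩ := hKc.exists_bound_of_continuousOn hφ.continuousOn
    exact integrable_unif hKc hKi hφ.measurable C1 hC1
  have i2 : Integrable (fun x => Ψ (τ (T x))) (uniformProbOn K) := by
    obtain ⟨C2, hC2⟩ := bdd_comp_simple τ Ψ
    exact integrable_unif hKc hKi (measurable_comp_simple τ hT Ψ) C2 (fun x _ => hC2 _)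
  have i3 : Integrable (fun x => inner ℝ x (τ (T x))) (uniformProbOn K) := by
    obtain ⟨C3, hC3⟩ := bdd_comp_simple τ (fun v => ‖v‖)
    obtain ⟨C4, hC4⟩ := hKc.isBounded.exists_norm_le
    have hm : Measurable fun x => τ (T x) := τ.measurable.comp hT
    refine integrable_unif hKc hKi (by fun_prop) (C4 * C3) (fun x hx => ?_)
    have h4 := hC3 (T x)
    rw [abs_norm] at h4
    exact (abs_real_inner_le_norm _ _).trans (mul_le_mul (hC4 x hx) h4 (norm_nonneg _)
      ((norm_nonneg _).trans (hC4 x hx)))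
  have i12 : Integrable (fun x => φ x + Ψ (τ (T x))) (uniformProbOn K) := i1.add i2
  unfold gapf
  rw [integral_sub i12 i3, integral_add i1 i2]
  linarith

lemma gapf_nonneg {Ψ φ : E d → ℝ} {τ : SimpleFunc (E d) (E d)}
    (hΨ : ∀ v, 0 < μ.real (τ ⁻¹' {v} ∩ Y) → ∀ x, inner ℝ x v - Ψ v ≤ φ x) {x : E d}
    (hx : 0 < μ.real (τ ⁻¹' {τ (T x)} ∩ Y)) : 0 ≤ gapf Ψ φ τ T x := by
  have := hΨ _ hx x
  unfold gapf
  linarith

lemma integral_shift_le (hKc : IsCompact K) (hKi : (interior K).Nonempty) {g q : E d → ℝ}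
    (hg : Measurable g) (hgb : ∃ C, ∀ x ∈ K, |g x| ≤ C)
    (hg0 : ∀ᵐ x ∂(uniformProbOn K), 0 ≤ g x) (h : E d) (hq : Measurable q) {M : ℝ}
    (hq0 : ∀ x, 0 ≤ q x) (hqM : ∀ x, q x ≤ M) (hqs : ∀ x, q x ≠ 0 → x ∈ K ∧ x + h ∈ K) :
    ∫ x, q x * g (x + h) ∂(uniformProbOn K) ≤ M * ∫ x, g x ∂(uniformProbOn K) := by
  have h1 : ∫ x, q x * g (x + h) ∂(uniformProbOn K) =
      ∫ x, q (x - h) * g x ∂(uniformProbOn K) := by
    have := integral_unif_shift (K := K) (f := fun x => q x * g (x + h)) h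
      (fun x hx => hqs x (left_ne_zero_of_mul hx))
    rw [← this]
    simp only [sub_add_cancel]
  have hM : 0 ≤ M := (hq0 0).trans (hqM 0)
  obtain ⟨C, hC⟩ := hgb
  rw [h1, ← integral_const_mul]
  apply integral_mono_ae
  · refine integrable_unif hKc hKi (by fun_prop) (M * C) (fun x hx => ?_)
    rw [abs_mul]
    exact mul_le_mul (by rw [abs_of_nonneg (hq0 _)]; exact hqM _) (hC x hx) (abs_nonneg _) hM
  · exact (integrable_unif hKc hKi hg C hC).const_mul M
  · filter_upwards [hg0] with x hx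
    exact mul_le_mul_of_nonneg_right (hqM _) hx

/-- Part F1, assuming the gap statement. -/
theorem ae_shift_mono_of (hKc : IsCompact K) (hKi : (interior K).Nonempty)
    (hYc : IsCompact Y) (hYn : Y.Nonempty) (hμ : IsProbabilityOn Y μ) (hT : Measurable T)
    (hTm : (uniformProbOn K).map T = μ) (hYR : ∀ x ∈ Y, ‖x‖ ≤ R) (hgap : GapStmt K R μ T) (h : E d) :
    ∀ᵐ x ∂(volume : Measure (E d)), x ∈ K → x + h ∈ K → 0 ≤ inner ℝ h (T (x + h) - T x) := by
  classical
  have hρ := isProb_unif hKc hKi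
  set ρ := uniformProbOn K with hρdef
  have hR : 0 ≤ R := by
    obtain ⟨y0, hy0⟩ := hYn
    exact (norm_nonneg _).trans (hYR y0 hy0)
  set D : Set (E d) := {x | x ∈ K ∧ x + h ∈ K} with hD
  have hDm : MeasurableSet D :=
    hKc.measurableSet.inter ((measurable_id.add_const h) hKc.measurableSet)
  set N : E d → ℝ := fun x => max (-(inner ℝ h (T (x + h) - T x))) 0 with hN
  have hNm : Measurable N := by
    have h1 : Measurable fun x => T (x + h) := hT.comp (measurable_id.add_const h)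
    rw [hN]
    fun_prop
  have hTY := ae_T_mem hμ hT hTm
  have hTY' := (ae_unif_iff hKc (P := fun x => x + h ∈ K → T (x + h) ∈ Y)).2
    ((ae_unif_shift hKc (P := fun x => T x ∈ Y) h hTY).mono fun x hx _ => hx)
  have hkey : ∀ δ : ℝ, 0 < δ → ∫ x, D.indicator N x ∂ρ ≤ 2 * δ * ‖h‖ + 4 * R * δ := by
    intro δ hδ
    obtain ⟨τ, hτ⟩ := exists_simple hYc hYn hδ
    obtain ⟨Ψ, φ, hφ, hΨ, hint⟩ := pkg hKc hKi hYc hμ hT hTm hgap τ hδ.le hτ
    have hg := gapf_integral_le hKc hKi hφ τ hT hint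
    have hgm := measurable_gapf (Ψ := Ψ) hφ τ hT
    have hgb := bdd_gapf (T := T) (Ψ := Ψ) hKc hφ τ
    have hpc : ∀ᵐ x ∂ρ, T x ∈ Y ∧ 0 < μ.real (τ ⁻¹' {τ (T x)} ∩ Y) := by
      have h1 := ae_piece hYc hμ τ
      rw [← hTm] at h1
      filter_upwards [ae_of_ae_map hT.aemeasurable h1] with x hx
      rw [hTm] at hx
      exact hx
    have hg0 : ∀ᵐ x ∂ρ, 0 ≤ gapf Ψ φ τ T x := by
      filter_upwards [hpc] with x hx using gapf_nonneg hΨ hx.2
    have hpc' := (ae_unif_iff hKc
      (P := fun x => x + h ∈ K → T (x + h) ∈ Y ∧ 0 < μ.real (τ ⁻¹' {τ (T (x + h))} ∩ Y))).2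
      ((ae_unif_shift hKc (P := fun x => T x ∈ Y ∧ 0 < μ.real (τ ⁻¹' {τ (T x)} ∩ Y)) h hpc).mono
        fun x hx _ => hx)
    have hpt : ∀ᵐ x ∂ρ, D.indicator N x ≤ D.indicator (fun _ => 2 * δ * ‖h‖) x +
        D.indicator (gapf Ψ φ τ T) x + D.indicator (fun _ => (1 : ℝ)) x * gapf Ψ φ τ T (x + h) := by
      filter_upwards [hpc, hpc'] with x hx hx'
      by_cases hxD : x ∈ D
      · simp only [Set.indicator_of_mem hxD, one_mul]
        obtain ⟨h1, h2⟩ := hx
        obtain ⟨h1', h2'⟩ := hx' hxD.2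
        have g1 := gapf_nonneg hΨ h2
        have g2 := gapf_nonneg hΨ h2'
        have hd1 := hτ _ h1
        have hd2 := hτ _ h1'
        refine max_le ?_ (by positivity)
        have a1 := hΨ _ h2 (x + h)
        have a2 := hΨ _ h2' x
        have b1 : |inner ℝ h (T x - τ (T x))| ≤ ‖h‖ * δ :=
          (abs_real_inner_le_norm _ _).trans (mul_le_mul_of_nonneg_left hd1 (norm_nonneg _))
        have b2 : |inner ℝ h (T (x + h) - τ (T (x + h)))| ≤ ‖h‖ * δ :=
          (abs_real_inner_le_norm _ _).trans (mul_le_mul_of_nonneg_left hd2 (norm_nonneg _))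
        unfold gapf
        rw [inner_add_left] at a1
        rw [inner_sub_right] at b1 b2 ⊢
        rw [inner_add_left]
        have c1 := abs_le.1 b1
        have c2 := abs_le.1 b2
        nlinarith [c1.1, c1.2, c2.1, c2.2]
      · simp only [Set.indicator_of_notMem hxD, zero_mul, add_zero, le_refl]
    have hgi : Integrable (gapf Ψ φ τ T) ρ := by
      obtain ⟨C, hC⟩ := hgb
      exact integrable_unif hKc hKi hgm C hC
    have hNi : Integrable (D.indicator N) ρ := by
      refine Integrable.of_bound (hNm.indicator hDm).aestronglyMeasurable (‖h‖ * (2 * R)) ?_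
      filter_upwards [hTY, hTY'] with x hx hx'
      by_cases hxD : x ∈ D
      · rw [Set.indicator_of_mem hxD, hN, Real.norm_eq_abs, abs_of_nonneg (le_max_right _ _)]
        refine max_le ?_ (by positivity)
        refine (neg_le_abs _).trans ((abs_real_inner_le_norm _ _).trans ?_)
        refine mul_le_mul_of_nonneg_left ?_ (norm_nonneg _)
        refine (norm_sub_le _ _).trans ?_
        have := hYR _ hx
        have := hYR _ (hx' hxD.2)
        linarith
      · rw [Set.indicator_of_notMem hxD, norm_zero]; positivity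
    have i2 : Integrable (D.indicator (fun _ : E d => 2 * δ * ‖h‖)) ρ :=
      (integrable_const _).indicator hDm
    have i3 : Integrable (D.indicator (gapf Ψ φ τ T)) ρ := hgi.indicator hDm
    have hqs : ∀ x, D.indicator (fun _ => (1 : ℝ)) x ≠ 0 → x ∈ K ∧ x + h ∈ K := by
      intro x hx
      by_contra hc
      exact hx (Set.indicator_of_notMem (show x ∉ D from hc) _)
    have hqm : Measurable (D.indicator (fun _ : E d => (1 : ℝ))) := measurable_const.indicator hDm
    have i4 : Integrable (fun x => D.indicator (fun _ => (1 : ℝ)) x * gapf Ψ φ τ T (x + h)) ρ := by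
      obtain ⟨C, hC⟩ := hgb
      have hm2 : Measurable fun x => gapf Ψ φ τ T (x + h) := hgm.comp (measurable_id.add_const h)
      refine Integrable.of_bound (hqm.mul hm2).aestronglyMeasurable C ?_
      filter_upwards [ae_mem_unif hKc] with x hx
      by_cases hxD : x ∈ D
      · rw [Set.indicator_of_mem hxD, one_mul, Real.norm_eq_abs]
        exact hC _ hxD.2
      · rw [Set.indicator_of_notMem hxD, zero_mul, norm_zero]
        exact (abs_nonneg _).trans (hC _ hx)
    have i23 : Integrable (fun x => D.indicator (fun _ : E d => 2 * δ * ‖h‖) x +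
        D.indicator (gapf Ψ φ τ T) x) ρ := i2.add i3
    have j1 : ∫ x, D.indicator (fun _ : E d => 2 * δ * ‖h‖) x ∂ρ ≤ 2 * δ * ‖h‖ := by
      have : ∫ x, D.indicator (fun _ : E d => 2 * δ * ‖h‖) x ∂ρ ≤ ∫ _, 2 * δ * ‖h‖ ∂ρ := by
        apply integral_mono i2 (integrable_const _)
        intro x
        exact Set.indicator_le_self' (fun _ _ => by positivity) x
      simpa using this
    have j2 : ∫ x, D.indicator (gapf Ψ φ τ T) x ∂ρ ≤ ∫ x, gapf Ψ φ τ T x ∂ρ := by
      apply integral_mono_ae i3 hgi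
      filter_upwards [hg0] with x hx
      by_cases hxD : x ∈ D
      · rw [Set.indicator_of_mem hxD]
      · rw [Set.indicator_of_notMem hxD]; exact hx
    have j3 : ∫ x, D.indicator (fun _ => (1 : ℝ)) x * gapf Ψ φ τ T (x + h) ∂ρ ≤
        1 * ∫ x, gapf Ψ φ τ T x ∂ρ := by
      refine integral_shift_le hKc hKi hgm hgb hg0 h hqm (M := 1) ?_ ?_ hqs
      · intro x; exact Set.indicator_nonneg (fun _ _ => zero_le_one) x
      · intro x; exact Set.indicator_le_self' (fun _ _ => zero_le_one) x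
    have := integral_mono_ae hNi (i23.add i4) hpt
    have e1 : ∫ x, ((fun x => D.indicator (fun _ : E d => 2 * δ * ‖h‖) x +
        D.indicator (gapf Ψ φ τ T) x) + fun x => D.indicator (fun _ => (1 : ℝ)) x *
          gapf Ψ φ τ T (x + h)) x ∂ρ = ∫ x, D.indicator (fun _ : E d => 2 * δ * ‖h‖) x ∂ρ +
        ∫ x, D.indicator (gapf Ψ φ τ T) x ∂ρ +
        ∫ x, D.indicator (fun _ => (1 : ℝ)) x * gapf Ψ φ τ T (x + h) ∂ρ := by
      rw [integral_add' i23 i4, integral_add i2 i3]
    rw [e1] at this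
    linarith
  have hz : ∫ x, D.indicator N x ∂ρ ≤ 0 := by
    apply le_of_forall_pos_le_add
    intro ε hε
    have hc : 0 < 2 * ‖h‖ + 4 * R + 1 := by positivity
    have := hkey (ε / (2 * ‖h‖ + 4 * R + 1)) (by positivity)
    rw [zero_add]
    refine this.trans ?_
    have h2 : 2 * (ε / (2 * ‖h‖ + 4 * R + 1)) * ‖h‖ + 4 * R * (ε / (2 * ‖h‖ + 4 * R + 1)) =
        ε * ((2 * ‖h‖ + 4 * R) / (2 * ‖h‖ + 4 * R + 1)) := by ring
    rw [h2]
    have h3 : (2 * ‖h‖ + 4 * R) / (2 * ‖h‖ + 4 * R + 1) ≤ 1 := by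
      rw [div_le_one hc]; linarith
    nlinarith
  have hN0 : ∀ x, 0 ≤ D.indicator N x := fun x =>
    Set.indicator_nonneg (fun x _ => le_max_right _ _) x
  have hNi : Integrable (D.indicator N) ρ := by
    refine Integrable.of_bound (hNm.indicator hDm).aestronglyMeasurable (‖h‖ * (2 * R)) ?_
    filter_upwards [hTY, hTY'] with x hx hx'
    by_cases hxD : x ∈ D
    · rw [Set.indicator_of_mem hxD, hN, Real.norm_eq_abs, abs_of_nonneg (le_max_right _ _)]
      refine max_le ?_ (by positivity)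
      refine (neg_le_abs _).trans ((abs_real_inner_le_norm _ _).trans ?_)
      refine mul_le_mul_of_nonneg_left ?_ (norm_nonneg _)
      refine (norm_sub_le _ _).trans ?_
      have := hYR _ hx
      have := hYR _ (hx' hxD.2)
      linarith
    · rw [Set.indicator_of_notMem hxD, norm_zero]; positivity
  have hz' : ∫ x, D.indicator N x ∂ρ = 0 := le_antisymm hz (integral_nonneg hN0)
  rw [integral_eq_zero_iff_of_nonneg hN0 hNi] at hz'
  have hz'' := (ae_unif_iff hKc (P := fun x => D.indicator N x = 0)).1 hz'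
  filter_upwards [hz''] with x hx hxK hxh
  have h1 := hx hxK
  rw [Set.indicator_of_mem (show x ∈ D from ⟨hxK, hxh⟩)] at h1
  have h2 : -(inner ℝ h (T (x + h) - T x)) ≤ N x := le_max_left _ _
  linarith

end Mono

end Crest.Agent.R082.Sh
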