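import Crest.Agent.R082.ShiftMono

/-!
Row 82: discretised couplings for the shift inequality (part F2).
-/

set_option autoImplicit false

open MeasureTheory
open scoped ENNReal NNReal
open Crest.AnalysisR.OT

namespace Crest.Agent.R082.Sh

variable {d : ℕ}

/-- The product cell of a pair. -/
def pc (Y : Set (E d)) (τ : SimpleFunc (E d) (E d)) (q : E d × E d) : Set (E d × E d) :=
  (τ ⁻¹' {q.1} ∩ Y) ×ˢ (τ ⁻¹' {q.2} ∩ Y)

/-- The charged pairs. -/
noncomputable def pairs (Y : Set (E d)) (τ : SimpleFunc (E d) (E d)) (π : Measure (E d × E d)) :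
    Finset (E d × E d) := by
  classical
  exact (τ.range ×ˢ τ.range).filter (fun q => 0 < π.real (pc Y τ q))

lemma mem_pairs {Y : Set (E d)} {τ : SimpleFunc (E d) (E d)} {π : Measure (E d × E d)}
    {q : E d × E d} :
    q ∈ pairs Y τ π ↔ (q.1 ∈ τ.range ∧ q.2 ∈ τ.range) ∧ 0 < π.real (pc Y τ q) := by
  classical
  unfold pairs
  rw [Finset.mem_filter, Finset.mem_product]

lemma measurableSet_pc {Y : Set (E d)} (hYc : IsCompact Y) (τ : SimpleFunc (E d) (E d))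
    (q : E d × E d) : MeasurableSet (pc Y τ q) :=
  ((τ.measurableSet_fiber q.1).inter hYc.measurableSet).prod
    ((τ.measurableSet_fiber q.2).inter hYc.measurableSet)

lemma mem_pc {Y : Set (E d)} {τ : SimpleFunc (E d) (E d)} {q w : E d × E d} :
    w ∈ pc Y τ q ↔ (τ w.1 = q.1 ∧ w.1 ∈ Y) ∧ (τ w.2 = q.2 ∧ w.2 ∈ Y) := by
  unfold pc
  rw [Set.mem_prod]
  rfl

section Pair

variable {K Y : Set (E d)} {π : Measure (E d × E d)}

lemma isProb_pi {μ ν : Measure (E d)} (hμ : IsProbabilityOn Y μ) (hπ : IsPairCoupling μ ν π) :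
    IsProbabilityMeasure π := by
  have := hμ.1
  constructor
  have h1 : μ Set.univ = 1 := measure_univ
  rw [← hπ.1, Measure.map_apply measurable_fst MeasurableSet.univ, Set.preimage_univ] at h1
  exact h1

lemma ae_mem_pi {μ ν : Measure (E d)} (hμ : IsProbabilityOn Y μ) (hν : IsProbabilityOn Y ν)
    (hπ : IsPairCoupling μ ν π) : ∀ᵐ w ∂π, w.1 ∈ Y ∧ w.2 ∈ Y := by
  have h1 : ∀ᵐ w ∂(π.map Prod.fst), w ∈ Y := by
    rw [hπ.1, ae_iff]; exact hμ.2
  have h2 : ∀ᵐ w ∂(π.map Prod.snd), w ∈ Y := by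
    rw [hπ.2, ae_iff]; exact hν.2
  filter_upwards [ae_of_ae_map measurable_fst.aemeasurable h1,
    ae_of_ae_map measurable_snd.aemeasurable h2] with w h3 h4 using ⟨h3, h4⟩

lemma ae_pairs [IsProbabilityMeasure π] (hY : ∀ᵐ w ∂π, w.1 ∈ Y ∧ w.2 ∈ Y)
    (τ : SimpleFunc (E d) (E d)) :
    ∀ᵐ w ∂π, (w.1 ∈ Y ∧ w.2 ∈ Y) ∧ (τ w.1, τ w.2) ∈ pairs Y τ π := by
  classical
  have h2 : ∀ᵐ w ∂π, ∀ q ∈ τ.range ×ˢ τ.range, π (pc Y τ q) = 0 → w ∉ pc Y τ q := by
    rw [Filter.eventually_all_finset]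
    intro v _
    by_cases hv : π (pc Y τ v) = 0
    · have : ∀ᵐ w ∂π, w ∉ pc Y τ v := by
        rw [ae_iff]
        simp only [not_not]
        exact hv
      filter_upwards [this] with w hw _ using hw
    · filter_upwards with w h using absurd h hv
  filter_upwards [hY, h2] with w hw1 hw2
  refine ⟨hw1, mem_pairs.2 ⟨⟨τ.mem_range_self _, τ.mem_range_self _⟩, ?_⟩⟩
  rw [measureReal_def, ENNReal.toReal_pos_iff]
  refine ⟨pos_iff_ne_zero.2 fun h0 => hw2 (τ w.1, τ w.2)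
    (Finset.mem_product.2 ⟨τ.mem_range_self _, τ.mem_range_self _⟩) h0
    (mem_pc.2 ⟨⟨rfl, hw1.1⟩, ⟨rfl, hw1.2⟩⟩), measure_lt_top _ _⟩

/-- Sums over charged pairs are integrals. -/
lemma sum_pairs [IsProbabilityMeasure π] (hYc : IsCompact Y)
    (hY : ∀ᵐ w ∂π, w.1 ∈ Y ∧ w.2 ∈ Y) (τ : SimpleFunc (E d) (E d)) (F : E d × E d → ℝ) :
    ∑ q : pairs Y τ π, π.real (pc Y τ q.1) * F q.1 = ∫ w, F (τ w.1, τ w.2) ∂π := by
  classical
  have h1 : ∀ q : pairs Y τ π, π.real (pc Y τ q.1) * F q.1 =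
      ∫ w, (pc Y τ q.1).indicator (fun _ => F q.1) w ∂π := fun q => by
    rw [integral_indicator (measurableSet_pc hYc τ q.1), setIntegral_const, smul_eq_mul]
  rw [Finset.sum_congr rfl (fun q _ => h1 q), ← integral_finsetSum]
  · apply integral_congr_ae
    filter_upwards [ae_pairs hY τ] with w hw
    rw [Finset.sum_eq_single (⟨(τ w.1, τ w.2), hw.2⟩ : pairs Y τ π)]
    · rw [Set.indicator_of_mem]
      exact mem_pc.2 ⟨⟨rfl, hw.1.1⟩, ⟨rfl, hw.1.2⟩⟩
    · intro b _ hb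
      apply Set.indicator_of_notMem
      intro hwb
      have := mem_pc.1 hwb
      apply hb
      apply Subtype.ext
      exact Prod.ext this.1.1.symm this.2.1.symm
    · intro h; exact absurd (Finset.mem_univ _) h
  · intro i _
    exact (integrable_const _).indicator (measurableSet_pc hYc τ i.1)

/-- Abstract coordinate projection. -/
structure IsProj (pr : E d × E d → E d) : Prop where
  meas : Measurable pr
  comm : ∀ (τ : E d → E d) (w : E d × E d), pr (τ w.1, τ w.2) = τ (pr w)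
  mem : ∀ (Y : Set (E d)) (w : E d × E d), w.1 ∈ Y → w.2 ∈ Y → pr w ∈ Y
  coord : ∀ (a b : E d × E d), a.1 = b.1 → a.2 = b.2 → pr a = pr b

lemma isProj_fst : IsProj (Prod.fst : E d × E d → E d) :=
  ⟨measurable_fst, fun _ _ => rfl, fun _ _ h _ => h, fun _ _ h _ => h⟩

lemma isProj_snd : IsProj (Prod.snd : E d × E d → E d) :=
  ⟨measurable_snd, fun _ _ => rfl, fun _ _ _ h => h, fun _ _ _ h => h⟩

variable {pr : E d × E d → E d} {μ : Measure (E d)} {T : E d → E d}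

lemma sum_pairs_pr [IsProbabilityMeasure π] (hYc : IsCompact Y)
    (hY : ∀ᵐ w ∂π, w.1 ∈ Y ∧ w.2 ∈ Y) (τ : SimpleFunc (E d) (E d)) (hpr : IsProj pr)
    (hπ : π.map pr = μ) {ρ : Measure (E d)} (hT : Measurable T) (hTm : ρ.map T = μ)
    (Ψ : E d → ℝ) :
    ∑ q : pairs Y τ π, π.real (pc Y τ q.1) * Ψ (pr q.1) = ∫ x, Ψ (τ (T x)) ∂ρ := by
  rw [sum_pairs hYc hY τ (fun q => Ψ (pr q))]
  have hm : Measurable fun w => Ψ (τ w) := (τ.map Ψ).measurable
  have h1 : ∫ w, Ψ (pr (τ w.1, τ w.2)) ∂π = ∫ w, Ψ (τ w) ∂(π.map pr) := by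
    rw [integral_map hpr.meas.aemeasurable hm.aestronglyMeasurable]
    simp only [hpr.comm τ]
  rw [h1, hπ, ← hTm, integral_map hT.aemeasurable hm.aestronglyMeasurable]

lemma pos_pr [IsProbabilityMeasure π] (hYc : IsCompact Y) (τ : SimpleFunc (E d) (E d))
    (hpr : IsProj pr) (hπ : π.map pr = μ) {q : E d × E d} (hq : q ∈ pairs Y τ π) :
    0 < μ.real (τ ⁻¹' {pr q} ∩ Y) := by
  have h1 := (mem_pairs.1 hq).2
  refine lt_of_lt_of_le h1 ?_
  have hB : MeasurableSet (τ ⁻¹' {pr q} ∩ Y) := (τ.measurableSet_fiber _).inter hYc.measurableSet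
  rw [measureReal_def, measureReal_def, ← hπ, Measure.map_apply hpr.meas hB]
  refine ENNReal.toReal_mono (measure_ne_top _ _) (measure_mono ?_)
  intro w hw
  have := mem_pc.1 hw
  refine ⟨?_, hpr.mem Y w this.1.2 this.2.2⟩
  rw [Set.mem_preimage, Set.mem_singleton_iff, ← hpr.comm τ]
  exact hpr.coord _ _ this.1.1 this.2.1

lemma exists_pair [IsProbabilityMeasure π] (hYc : IsCompact Y)
    (hY : ∀ᵐ w ∂π, w.1 ∈ Y ∧ w.2 ∈ Y) (τ : SimpleFunc (E d) (E d)) (hpr : IsProj pr)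
    (hπ : π.map pr = μ) {v : E d} (hv : 0 < μ.real (τ ⁻¹' {v} ∩ Y)) :
    ∃ q ∈ pairs Y τ π, pr q = v := by
  by_contra hcon
  push Not at hcon
  have hB : MeasurableSet (τ ⁻¹' {v} ∩ Y) := (τ.measurableSet_fiber _).inter hYc.measurableSet
  rw [measureReal_def, ← hπ, Measure.map_apply hpr.meas hB] at hv
  have h0 : π (pr ⁻¹' (τ ⁻¹' {v} ∩ Y)) = 0 := by
    rw [measure_eq_zero_iff_ae_notMem]
    filter_upwards [ae_pairs hY τ] with w hw hwB
    apply hcon _ hw.2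
    rw [hpr.comm τ]
    exact hwB.1
  rw [h0] at hv
  simp at hv

/-- Replacing a potential on pairs by a potential on points. -/
lemma exists_point_potential [IsProbabilityMeasure π] (hYc : IsCompact Y)
    (hY : ∀ᵐ w ∂π, w.1 ∈ Y ∧ w.2 ∈ Y) (τ : SimpleFunc (E d) (E d)) (hpr : IsProj pr)
    (hπ : π.map pr = μ) [Nonempty (pairs Y τ π)] (ψ : pairs Y τ π → ℝ) :
    ∃ Ψ : E d → ℝ, (∀ q : pairs Y τ π, Ψ (pr q.1) ≤ ψ q) ∧
      ∀ v, 0 < μ.real (τ ⁻¹' {v} ∩ Y) → ∀ x,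
        inner ℝ x v - Ψ v ≤ phi (fun q : pairs Y τ π => pr q.1) ψ x := by
  classical
  refine ⟨fun v => if h : (Finset.univ.filter fun q : pairs Y τ π => pr q.1 = v).Nonempty then
    (Finset.univ.filter fun q : pairs Y τ π => pr q.1 = v).inf' h ψ else 0, ?_, ?_⟩
  · intro q
    have hq : q ∈ Finset.univ.filter fun q' : pairs Y τ π => pr q'.1 = pr q.1 := by simp
    simp only [dif_pos (show (Finset.univ.filter fun q' : pairs Y τ π => pr q'.1 = pr q.1).Nonempty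
      from ⟨q, hq⟩)]
    exact Finset.inf'_le _ hq
  · intro v hv x
    obtain ⟨q, hq, hqv⟩ := exists_pair hYc hY τ hpr hπ hv
    have hq' : (⟨q, hq⟩ : pairs Y τ π) ∈ Finset.univ.filter fun q' : pairs Y τ π => pr q'.1 = v := by
      simp [hqv]
    simp only [dif_pos (show (Finset.univ.filter fun q' : pairs Y τ π => pr q'.1 = v).Nonempty
      from ⟨_, hq'⟩)]
    obtain ⟨b, hb, hb'⟩ := Finset.exists_mem_eq_inf' (show (Finset.univ.filter
      fun q' : pairs Y τ π => pr q'.1 = v).Nonempty from ⟨_, hq'⟩) ψ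
    rw [hb']
    have hbv : pr b.1 = v := (Finset.mem_filter.1 hb).2
    have := le_phi (fun q : pairs Y τ π => pr q.1) ψ x b
    simp only [hbv] at this
    exact this

end Pair

end Crest.Agent.R082.Sh
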