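import Crest.Agent.R082.ShiftBasic

/-!
Row 82: the gap package used by the shift argument.
-/

set_option autoImplicit false

open MeasureTheory
open scoped ENNReal NNReal
open Crest.AnalysisR.OT

namespace Crest.Agent.R082.Sh

variable {d : ℕ}

/-- The conclusion of the gap statement (part E2) for fixed data. -/
def GapStmt (K : Set (E d)) (R : ℝ) (μ : Measure (E d)) (T : E d → E d) : Prop :=
  ∀ (ι : Type) [Fintype ι] [Nonempty ι]
    (B : ι → Set (E d)) (_ : ∀ i, MeasurableSet (B i))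
    (_ : ∀ i j, i ≠ j → Disjoint (B i) (B j)) (_ : μ (⋃ i, B i)ᶜ = 0)
    (_ : ∀ i, 0 < μ.real (B i)) (y : ι → E d) (_ : Function.Injective y) (δ : ℝ) (_ : 0 ≤ δ)
    (_ : ∀ i, ∀ w ∈ B i, ‖w - y i‖ ≤ δ),
    ∃ ψ : ι → ℝ, (∀ ψ' : ι → ℝ, Kfun (uniformProbOn K) (fun i => μ.real (B i)) y ψ ≤
        Kfun (uniformProbOn K) (fun i => μ.real (B i)) y ψ') ∧
      Kfun (uniformProbOn K) (fun i => μ.real (B i)) y ψ ≤
        (∑ i, ∫ x in T ⁻¹' (B i), inner ℝ x (y i) ∂(uniformProbOn K)) + 2 * R * δ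

section Pkg

variable {K Y : Set (E d)} {R : ℝ} {μ : Measure (E d)} {T : E d → E d}

lemma ae_T_mem (hμ : IsProbabilityOn Y μ) (hT : Measurable T)
    (hTm : (uniformProbOn K).map T = μ) : ∀ᵐ x ∂(uniformProbOn K), T x ∈ Y := by
  have h : ∀ᵐ w ∂((uniformProbOn K).map T), w ∈ Y := by
    rw [hTm, ae_iff]
    exact hμ.2
  exact ae_of_ae_map hT.aemeasurable h

lemma ae_piece (hYc : IsCompact Y) (hμ : IsProbabilityOn Y μ) (τ : SimpleFunc (E d) (E d)) :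
    ∀ᵐ w ∂μ, w ∈ Y ∧ 0 < μ.real (τ ⁻¹' {τ w} ∩ Y) := by
  have := hμ.1
  have h1 : ∀ᵐ w ∂μ, w ∈ Y := by rw [ae_iff]; exact hμ.2
  have h2 : ∀ᵐ w ∂μ, ∀ v ∈ τ.range, μ (τ ⁻¹' {v} ∩ Y) = 0 → w ∉ τ ⁻¹' {v} ∩ Y := by
    rw [Filter.eventually_all_finset]
    intro v _
    by_cases hv : μ (τ ⁻¹' {v} ∩ Y) = 0
    · have : ∀ᵐ w ∂μ, w ∉ τ ⁻¹' {v} ∩ Y := by
        rw [ae_iff]
        simp only [not_not]
        exact hv
      filter_upwards [this] with w hw _ using hw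
    · filter_upwards with w h using absurd h hv
  filter_upwards [h1, h2] with w hw1 hw2
  refine ⟨hw1, ?_⟩
  rw [measureReal_def, ENNReal.toReal_pos_iff]
  refine ⟨pos_iff_ne_zero.2 fun h0 => hw2 (τ w) (τ.mem_range_self w) h0 ⟨rfl, hw1⟩, measure_lt_top _ _⟩

lemma measurable_comp_simple (τ : SimpleFunc (E d) (E d)) (hT : Measurable T) {β : Type}
    [MeasurableSpace β] (Ψ : E d → β) : Measurable fun x => Ψ (τ (T x)) :=
  ((τ.map Ψ).measurable).comp hT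

lemma bdd_comp_simple (τ : SimpleFunc (E d) (E d)) (Ψ : E d → ℝ) : ∃ C, ∀ x, |Ψ (τ x)| ≤ C := by
  obtain ⟨C, hC⟩ := (τ.range.image fun v => |Ψ v|).exists_le
  exact ⟨C, fun x => hC _ (Finset.mem_image_of_mem _ (τ.mem_range_self x))⟩

lemma sum_setIntegral {ρ : Measure (E d)} (hYc : IsCompact Y) (hT : Measurable T)
    (τ : SimpleFunc (E d) (E d)) (s : Finset (E d)) (G : E d → E d → ℝ)
    (hG : ∀ v ∈ s, Integrable (fun x => G x v) ρ)
    (hA : ∀ᵐ x ∂ρ, T x ∈ Y ∧ τ (T x) ∈ s) :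
    ∑ i : s, ∫ x in T ⁻¹' (τ ⁻¹' {i.1} ∩ Y), G x i.1 ∂ρ = ∫ x, G x (τ (T x)) ∂ρ := by
  classical
  have hBm : ∀ i : s, MeasurableSet (T ⁻¹' (τ ⁻¹' {i.1} ∩ Y)) := fun i =>
    hT ((τ.measurableSet_fiber i.1).inter hYc.measurableSet)
  have h1 : ∀ i : s, ∫ x in T ⁻¹' (τ ⁻¹' {i.1} ∩ Y), G x i.1 ∂ρ =
      ∫ x, (T ⁻¹' (τ ⁻¹' {i.1} ∩ Y)).indicator (fun x => G x i.1) x ∂ρ := fun i =>
    (integral_indicator (hBm i)).symm
  rw [Finset.sum_congr rfl (fun i _ => h1 i), ← integral_finsetSum]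
  · apply integral_congr_ae
    filter_upwards [hA] with x hx
    rw [Finset.sum_eq_single (⟨τ (T x), hx.2⟩ : s)]
    · rw [Set.indicator_of_mem]
      exact ⟨rfl, hx.1⟩
    · intro b _ hb
      apply Set.indicator_of_notMem
      rintro ⟨h2, _⟩
      apply hb
      apply Subtype.ext
      exact (Set.mem_singleton_iff.1 h2).symm
    · intro h; exact absurd (Finset.mem_univ _) h
  · intro i _
    exact (hG i.1 i.2).indicator (hBm i)

/-- The gap package. -/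
theorem pkg (hKc : IsCompact K) (hKi : (interior K).Nonempty) (hYc : IsCompact Y)
    (hμ : IsProbabilityOn Y μ) (hT : Measurable T)
    (hTm : (uniformProbOn K).map T = μ) (hgap : GapStmt K R μ T)
    (τ : SimpleFunc (E d) (E d)) {δ : ℝ} (hδ : 0 ≤ δ) (hτ : ∀ w ∈ Y, ‖w - τ w‖ ≤ δ) :
    ∃ Ψ φ : E d → ℝ, Continuous φ ∧
      (∀ v, 0 < μ.real (τ ⁻¹' {v} ∩ Y) → ∀ x, inner ℝ x v - Ψ v ≤ φ x) ∧
      ∫ x, φ x ∂(uniformProbOn K) + ∫ x, Ψ (τ (T x)) ∂(uniformProbOn K) ≤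
        ∫ x, inner ℝ x (τ (T x)) ∂(uniformProbOn K) + 2 * R * δ := by
  classical
  have hρ := isProb_unif hKc hKi
  have hμP := hμ.1
  set ρ := uniformProbOn K with hρdef
  set s : Finset (E d) := τ.range.filter (fun v => 0 < μ.real (τ ⁻¹' {v} ∩ Y)) with hs
  have hmem : ∀ {v : E d}, v ∈ s ↔ v ∈ τ.range ∧ 0 < μ.real (τ ⁻¹' {v} ∩ Y) := by
    intro v; rw [hs, Finset.mem_filter]
  have hae := ae_piece hYc hμ τ
  have hne : Nonempty s := by
    obtain ⟨w, hw⟩ := hae.exists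
    exact ⟨⟨τ w, hmem.2 ⟨τ.mem_range_self w, hw.2⟩⟩⟩
  have hBm : ∀ i : s, MeasurableSet (τ ⁻¹' {i.1} ∩ Y) := fun i =>
    (τ.measurableSet_fiber i.1).inter hYc.measurableSet
  obtain ⟨ψ, -, hψ⟩ := hgap s (fun i => τ ⁻¹' {i.1} ∩ Y) hBm
    (by
      intro i j hij
      rw [Set.disjoint_left]
      rintro w ⟨h1, _⟩ ⟨h2, _⟩
      apply hij
      apply Subtype.ext
      rw [Set.mem_preimage, Set.mem_singleton_iff] at h1 h2
      rw [← h1, ← h2])
    (by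
      rw [← mem_ae_iff]
      filter_upwards [hae] with w hw
      exact Set.mem_iUnion.2 ⟨⟨τ w, hmem.2 ⟨τ.mem_range_self w, hw.2⟩⟩, rfl, hw.1⟩)
    (fun i => (hmem.1 i.2).2) (fun i => i.1) Subtype.val_injective δ hδ
    (by
      rintro i w ⟨h1, h2⟩
      rw [Set.mem_preimage, Set.mem_singleton_iff] at h1
      rw [← h1]
      exact hτ w h2)
  have haeT : ∀ᵐ x ∂ρ, T x ∈ Y ∧ τ (T x) ∈ s := by
    rw [← hTm] at hae
    filter_upwards [ae_of_ae_map hT.aemeasurable hae] with x hx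
    rw [hTm] at hx
    exact ⟨hx.1, hmem.2 ⟨τ.mem_range_self _, hx.2⟩⟩
  refine ⟨fun v => if h : v ∈ s then ψ ⟨v, h⟩ else 0, phi (fun i : s => i.1) ψ,
    continuous_phi _ _, ?_, ?_⟩
  · intro v hv x
    have hvs : v ∈ s := by
      refine hmem.2 ⟨?_, hv⟩
      by_contra hr
      have : τ ⁻¹' {v} = ∅ := by
        rw [Set.eq_empty_iff_forall_notMem]
        intro w hw
        apply hr
        rw [← Set.mem_singleton_iff.1 hw]
        exact τ.mem_range_self w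
      rw [this, Set.empty_inter] at hv
      simp at hv
    simp only [dif_pos hvs]
    exact le_phi (fun i : s => i.1) ψ x ⟨v, hvs⟩
  · have e1 := sum_setIntegral (ρ := ρ) hYc hT τ s (fun x v => inner ℝ x v)
      (by
        intro v _
        obtain ⟨C, hC⟩ := hKc.isBounded.exists_norm_le
        refine integrable_unif hKc hKi (by fun_prop) (C * ‖v‖) ?_
        intro x hx
        exact (abs_real_inner_le_norm x v).trans (mul_le_mul_of_nonneg_right (hC x hx) (norm_nonneg _)))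
      haeT
    have e2 := sum_setIntegral (ρ := ρ) hYc hT τ s (fun _ v => if h : v ∈ s then ψ ⟨v, h⟩ else 0)
      (fun v _ => integrable_const _) haeT
    rw [← e1, ← e2]
    have e3 : ∀ i : s, ∫ _ in T ⁻¹' (τ ⁻¹' {i.1} ∩ Y), (if h : i.1 ∈ s then ψ ⟨i.1, h⟩ else 0) ∂ρ =
        μ.real (τ ⁻¹' {i.1} ∩ Y) * ψ i := by
      intro i
      rw [setIntegral_const, dif_pos i.2, smul_eq_mul]
      congr 1
      rw [measureReal_def, measureReal_def, ← hTm, Measure.map_apply hT (hBm i)]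
    rw [Finset.sum_congr rfl (fun i _ => e3 i)]
    exact hψ

end Pkg

end Crest.Agent.R082.Sh
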