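import Crest.Agent.R082.ShiftFinal

/-!
Row 82: the shift inequality (part F2), assembling.
-/

set_option autoImplicit false

open MeasureTheory Filter
open scoped ENNReal NNReal Topology
open Crest.AnalysisR.OT

namespace Crest.Agent.R082.Sh

variable {d : ℕ}

section Star

variable {K Y : Set (E d)} {h : E d} {p : E d → ℝ} {M R C : ℝ}
variable {π : Measure (E d × E d)} {μ ν : Measure (E d)} {Tμ Tν : E d → E d}

lemma quadCost_toReal (π : Measure (E d × E d)) :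
    (quadCost π).toReal = ∫ w, ‖w.1 - w.2‖ ^ 2 ∂π := by
  rw [integral_eq_lintegral_of_nonneg_ae (Eventually.of_forall fun w => by positivity)
    (by fun_prop)]
  unfold quadCost
  congr 1
  refine lintegral_congr fun w => ?_
  rw [ENNReal.ofReal_pow (norm_nonneg _), ofReal_norm]

lemma sum_cost_le [IsProbabilityMeasure π] (hYc : IsCompact Y) (hYR : ∀ x ∈ Y, ‖x‖ ≤ R)
    (hY : ∀ᵐ w ∂π, w.1 ∈ Y ∧ w.2 ∈ Y) (τ : SimpleFunc (E d) (E d)) {δ : ℝ} (hδ : 0 ≤ δ)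
    (hτ : ∀ w ∈ Y, ‖w - τ w‖ ≤ δ) :
    ∑ q : pairs Y τ π, π.real (pc Y τ q.1) * ‖q.1.2 - q.1.1‖ ^ 2 ≤
      (quadCost π).toReal + 8 * R * δ + 4 * δ ^ 2 := by
  rw [sum_pairs hYc hY τ (fun q => ‖q.2 - q.1‖ ^ 2), quadCost_toReal]
  have hb : ∀ᵐ w ∂π, ‖(‖w.1 - w.2‖ ^ 2 : ℝ)‖ ≤ (2 * R) ^ 2 := by
    filter_upwards [hY] with w hw
    have h1 : ‖w.1 - w.2‖ ≤ 2 * R := (norm_sub_le _ _).trans (by linarith [hYR _ hw.1, hYR _ hw.2])
    rw [Real.norm_eq_abs, abs_of_nonneg (by positivity)]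
    exact pow_le_pow_left₀ (norm_nonneg _) h1 2
  have i1 : Integrable (fun w : E d × E d => ‖w.1 - w.2‖ ^ 2) π :=
    Integrable.of_bound (by fun_prop) _ hb
  have i2 : Integrable (fun w : E d × E d => ‖w.1 - w.2‖ ^ 2 + (8 * R * δ + 4 * δ ^ 2)) π :=
    i1.add (integrable_const _)
  have e : ∫ w : E d × E d, (‖w.1 - w.2‖ ^ 2 + (8 * R * δ + 4 * δ ^ 2)) ∂π =
      ∫ w, ‖w.1 - w.2‖ ^ 2 ∂π + 8 * R * δ + 4 * δ ^ 2 := by
    rw [integral_add i1 (integrable_const _), integral_const]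
    simp
    ring
  rw [← e]
  apply integral_mono_of_nonneg (Eventually.of_forall fun w => by positivity) i2
  filter_upwards [hY] with w hw
  have h1 : ‖w.1 - w.2‖ ≤ 2 * R := (norm_sub_le _ _).trans (by linarith [hYR _ hw.1, hYR _ hw.2])
  have h2 : ‖τ w.2 - τ w.1‖ ≤ ‖w.1 - w.2‖ + 2 * δ := by
    have : τ w.2 - τ w.1 = (w.1 - τ w.1) - (w.2 - τ w.2) - (w.1 - w.2) := by abel
    rw [this]
    refine (norm_sub_le _ _).trans ?_
    have := (norm_sub_le (w.1 - τ w.1) (w.2 - τ w.2))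
    linarith [hτ _ hw.1, hτ _ hw.2]
  have h3 : ‖τ w.2 - τ w.1‖ ^ 2 ≤ (‖w.1 - w.2‖ + 2 * δ) ^ 2 :=
    pow_le_pow_left₀ (norm_nonneg _) h2 2
  have h4 := mul_le_mul_of_nonneg_right h1 hδ
  nlinarith

/-- The inequality at level `δ`. -/
lemma star (hKc : IsCompact K) (hKi : (interior K).Nonempty) (hYc : IsCompact Y)
    (hYR : ∀ x ∈ Y, ‖x‖ ≤ R) (hX : XStmt K C) (hC : 0 ≤ C)
    (hμ : IsProbabilityOn Y μ) (hν : IsProbabilityOn Y ν)
    (hTμ : Measurable Tμ) (hTmμ : (uniformProbOn K).map Tμ = μ)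
    (hTν : Measurable Tν) (hTmν : (uniformProbOn K).map Tν = ν)
    (hgμ : GapStmt K R μ Tμ) (hgν : GapStmt K R ν Tν)
    (hπ : IsPairCoupling μ ν π) (hp : Bump K h p M) {ε : ℝ} (hε : 0 ≤ ε) (hεM : ε * M ≤ 1 / 2)
    (τ : SimpleFunc (E d) (E d)) {δ : ℝ} (hδ : 0 ≤ δ) (hτ : ∀ w ∈ Y, ‖w - τ w‖ ≤ δ) :
    ε * (∫ x, p x * inner ℝ h (τ (Tμ x)) ∂(uniformProbOn K) -
        ∫ x, p x * inner ℝ h (τ (Tν (x + h))) ∂(uniformProbOn K)) -
        (2 + ε * M) * (2 * R * δ) ≤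
      C * (ε * Real.sqrt (∫ x, (p (x - h) - p x) ^ 2 ∂(uniformProbOn K))) *
        Real.sqrt ((quadCost π).toReal + 8 * R * δ + 4 * δ ^ 2) := by
  classical
  have hπP : IsProbabilityMeasure π := isProb_pi hμ hπ
  have hY := ae_mem_pi hμ hν hπ
  have hne : Nonempty (pairs Y τ π) := by
    obtain ⟨w, hw⟩ := (ae_pairs hY τ).exists
    exact ⟨⟨_, hw.2⟩⟩
  obtain ⟨Ψ1, φ1, hφ1, hΨ1, hη1⟩ := pkg hKc hKi hYc hμ hTμ hTmμ hgμ τ hδ hτ
  obtain ⟨Ψ2, φ2, hφ2, hΨ2, hη2⟩ := pkg hKc hKi hYc hν hTν hTmν hgν τ hδ hτ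
  have a1 := TT_upper0 hKc hKi hYc hY τ isProj_fst hπ.1 hμ hTμ hTmμ hp hφ1 hΨ1 hη1
  have a2 := TT_upper hKc hKi hYc hY τ isProj_snd hπ.2 hν hTν hTmν hp hε hεM hφ2 hΨ2 hη2
  have a3 : ∫ x, inner ℝ x (τ (Tν x)) ∂(uniformProbOn K) ≤
      TT (uniformProbOn K) (fun q : pairs Y τ π => π.real (pc Y τ q.1)) (fun q => q.1.2) := by
    unfold TT
    exact le_ciInf fun ψ => TT_lower0 hKc hKi hYc hY τ isProj_snd hπ.2 hν hTν hTmν hp ψ
  have a4 : ∫ x, inner ℝ x (τ (Tμ x)) ∂(uniformProbOn K) +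
        ε * ∫ x, p x * inner ℝ h (τ (Tμ x)) ∂(uniformProbOn K) ≤
      TT (rhoh K (hfun ε p h)) (fun q : pairs Y τ π => π.real (pc Y τ q.1))
        (fun q => q.1.1) := by
    unfold TT
    exact le_ciInf fun ψ => TT_lower hKc hKi hYc hY τ isProj_fst hπ.1 hμ hTμ hTmμ hp hε hεM ψ
  have hm1 : ∑ q : pairs Y τ π, π.real (pc Y τ q.1) = 1 := by
    have := sum_pairs hYc hY τ (fun _ => (1 : ℝ))
    simpa using this
  have x1 := hX (pairs Y τ π) (fun q => π.real (pc Y τ q.1)) (fun q => (mem_pairs.1 q.2).2) hm1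
    (fun q => q.1.2) (fun q => q.1.1)
    (by
      intro i j hij hcon
      apply hij
      apply Subtype.ext
      rw [Prod.mk.injEq] at hcon
      exact Prod.ext hcon.2 hcon.1)
    (hfun ε p h) (measurable_hfun hp ε) (hfun_abs hp hε hεM) (integral_hfun_one hKc hKi hp)
  have e1 : Real.sqrt (∫ x, (hfun ε p h x - 1) ^ 2 ∂(uniformProbOn K)) =
      ε * Real.sqrt (∫ x, (p (x - h) - p x) ^ 2 ∂(uniformProbOn K)) := by
    have : ∫ x, (hfun ε p h x - 1) ^ 2 ∂(uniformProbOn K) =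
        ε ^ 2 * ∫ x, (p (x - h) - p x) ^ 2 ∂(uniformProbOn K) := by
      rw [← integral_const_mul]
      congr 1
      ext x
      unfold hfun
      ring
    rw [this, Real.sqrt_mul (by positivity), Real.sqrt_sq hε]
  rw [e1] at x1
  have e2 := Real.sqrt_le_sqrt (sum_cost_le hYc hYR hY τ hδ hτ)
  have x2 := x1.trans (mul_le_mul_of_nonneg_left e2 (by positivity))
  nlinarith

lemma integrable_p_inner (hKc : IsCompact K) (hKi : (interior K).Nonempty)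
    (hYR : ∀ x ∈ Y, ‖x‖ ≤ R)
    (hp : Bump K h p M) {S : E d → E d} (hS : Measurable S)
    (hSY : ∀ᵐ x ∂(uniformProbOn K), p x ≠ 0 → S x ∈ Y) (hR : 0 ≤ R) :
    Integrable (fun x => p x * inner ℝ h (S x)) (uniformProbOn K) := by
  have hρ := isProb_unif hKc hKi
  have hpm := hp.meas
  have hM := hp.M_nonneg
  have hm : Measurable fun x => p x * inner ℝ h (S x) := hpm.mul (measurable_const.inner hS)
  refine Integrable.of_bound hm.aestronglyMeasurable (M * (‖h‖ * R)) ?_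
  filter_upwards [hSY] with x hx
  by_cases h0 : p x = 0
  · rw [h0, zero_mul, norm_zero]
    positivity
  · rw [Real.norm_eq_abs, abs_mul, abs_of_nonneg (hp.nonneg x)]
    exact mul_le_mul (hp.le x) ((abs_real_inner_le_norm _ _).trans
      (mul_le_mul_of_nonneg_left (hYR _ (hx h0)) (norm_nonneg _))) (abs_nonneg _) hM

lemma err_bound (hKc : IsCompact K) (hKi : (interior K).Nonempty) (hYR : ∀ x ∈ Y, ‖x‖ ≤ R)
    (hp : Bump K h p M) {S : E d → E d} (hS : Measurable S)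
    (hSY : ∀ᵐ x ∂(uniformProbOn K), p x ≠ 0 → S x ∈ Y) (hR : 0 ≤ R)
    (τ : SimpleFunc (E d) (E d)) {δ : ℝ} (hδ : 0 ≤ δ) (hτ : ∀ w ∈ Y, ‖w - τ w‖ ≤ δ) :
    |∫ x, p x * inner ℝ h (τ (S x)) ∂(uniformProbOn K) -
      ∫ x, p x * inner ℝ h (S x) ∂(uniformProbOn K)| ≤ M * (‖h‖ * δ) := by
  have hρ := isProb_unif hKc hKi
  have hpm := hp.meas
  have hM := hp.M_nonneg
  have i1 := integrable_p_inner hKc hKi hYR hp hS hSY hR
  obtain ⟨C4, hC4⟩ := bdd_inner_comp' τ S h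
  have i2 : Integrable (fun x => p x * inner ℝ h (τ (S x))) (uniformProbOn K) :=
    integrable_bump_mul hKc hKi hp (meas_inner_comp' τ hS h) (fun x _ => hC4 x)
  rw [← integral_sub i2 i1, ← Real.norm_eq_abs]
  have h1 : ∀ᵐ x ∂(uniformProbOn K),
      ‖p x * inner ℝ h (τ (S x)) - p x * inner ℝ h (S x)‖ ≤ M * (‖h‖ * δ) := by
    filter_upwards [hSY] with x hx
    by_cases h0 : p x = 0
    · rw [h0, zero_mul, zero_mul, sub_zero, norm_zero]
      positivity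
    · rw [← mul_sub, ← inner_sub_right, Real.norm_eq_abs, abs_mul, abs_of_nonneg (hp.nonneg x)]
      refine mul_le_mul (hp.le x) ((abs_real_inner_le_norm _ _).trans
        (mul_le_mul_of_nonneg_left ?_ (norm_nonneg _))) (abs_nonneg _) hM
      rw [norm_sub_rev]
      exact hτ _ (hx h0)
  have := norm_integral_le_of_norm_le_const h1
  simpa using this

/-- The shift inequality, from the gap statements and the cross difference bound. -/
theorem shift_ineq_of (hKc : IsCompact K) (hKi : (interior K).Nonempty) (hYc : IsCompact Y)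
    (hYn : Y.Nonempty)
    (hYR : ∀ x ∈ Y, ‖x‖ ≤ R) (hX : XStmt K C) (hC : 0 ≤ C)
    (hμ : IsProbabilityOn Y μ) (hν : IsProbabilityOn Y ν)
    (hTμ : Measurable Tμ) (hTmμ : (uniformProbOn K).map Tμ = μ)
    (hTν : Measurable Tν) (hTmν : (uniformProbOn K).map Tν = ν)
    (hgμ : GapStmt K R μ Tμ) (hgν : GapStmt K R ν Tν)
    (hπ : IsPairCoupling μ ν π) (hp : Bump K h p M) :
    ∫ x, p x * inner ℝ h (Tμ x - Tν (x + h)) ∂(uniformProbOn K) ≤
        C * Real.sqrt (∫ x, (p (x - h) - p x) ^ 2 ∂(uniformProbOn K)) *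
          Real.sqrt (quadCost π).toReal := by
  have hρ := isProb_unif hKc hKi
  have hM := hp.M_nonneg
  have hR : 0 ≤ R := by
    obtain ⟨y, hy⟩ := hYn
    exact (norm_nonneg _).trans (hYR y hy)
  have hS1 : ∀ᵐ x ∂(uniformProbOn K), p x ≠ 0 → Tμ x ∈ Y :=
    (ae_T_mem hμ hTμ hTmμ).mono fun x hx _ => hx
  have hS2 : ∀ᵐ x ∂(uniformProbOn K), p x ≠ 0 → Tν (x + h) ∈ Y := by
    have hpc' := (ae_unif_iff hKc (P := fun x => x + h ∈ K → Tν (x + h) ∈ Y)).2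
      ((ae_unif_shift hKc (P := fun x => Tν x ∈ Y) h (ae_T_mem hν hTν hTmν)).mono
        fun x hx _ => hx)
    filter_upwards [hpc'] with x hx h0
    exact hx (hp.supp x h0).2
  have hTν' : Measurable fun x => Tν (x + h) := hTν.comp (measurable_add_const h)
  have i1 := integrable_p_inner hKc hKi hYR hp hTμ hS1 hR
  have i2 := integrable_p_inner hKc hKi hYR hp hTν' hS2 hR
  set P := ∫ x, p x * inner ℝ h (Tμ x) ∂(uniformProbOn K) with hP
  set Q := ∫ x, p x * inner ℝ h (Tν (x + h)) ∂(uniformProbOn K) with hQ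
  set V := Real.sqrt (∫ x, (p (x - h) - p x) ^ 2 ∂(uniformProbOn K)) with hV
  set D := (quadCost π).toReal with hD
  have e0 : ∫ x, p x * inner ℝ h (Tμ x - Tν (x + h)) ∂(uniformProbOn K) = P - Q := by
    rw [hP, hQ, ← integral_sub i1 i2]
    refine integral_congr_ae (Eventually.of_forall fun x => ?_)
    simp only [inner_sub_right, mul_sub]
  rw [e0]
  -- choice of `ε`
  set ε : ℝ := 1 / (2 * M + 2) with hεd
  have hε : 0 < ε := by positivity
  have hεM : ε * M ≤ 1 / 2 := by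
    rw [hεd, div_mul_eq_mul_div, one_mul, div_le_div_iff₀ (by positivity) (by norm_num)]
    linarith
  set G : ℝ → ℝ := fun δ => C * (ε * V) * Real.sqrt (D + 8 * R * δ + 4 * δ ^ 2) +
    (2 + ε * M) * (2 * R * δ) + ε * (2 * (M * (‖h‖ * δ))) with hG
  have hGc : Continuous G := by
    rw [hG]
    fun_prop
  have hstar : ∀ δ : ℝ, 0 < δ → ε * (P - Q) ≤ G δ := by
    intro δ hδ
    obtain ⟨τ, hτ⟩ := exists_simple hYc hYn hδ
    have s1 := star hKc hKi hYc hYR hX hC hμ hν hTμ hTmμ hTν hTmν hgμ hgν hπ hp hε.le hεM τ hδ.le hτ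
    have s2 := err_bound hKc hKi hYR hp hTμ hS1 hR τ hδ.le hτ
    have s3 := err_bound hKc hKi hYR hp hTν' hS2 hR τ hδ.le hτ
    rw [← hP] at s2
    rw [← hQ] at s3
    have s4 := (abs_le.1 s2).1
    have s5 := (abs_le.1 s3).2
    have s6 : P - Q ≤ (∫ x, p x * inner ℝ h (τ (Tμ x)) ∂(uniformProbOn K) -
        ∫ x, p x * inner ℝ h (τ (Tν (x + h))) ∂(uniformProbOn K)) + 2 * (M * (‖h‖ * δ)) := by
      linarith
    have s7 := mul_le_mul_of_nonneg_left s6 hε.le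
    rw [hG]
    simp only
    linarith
  have hlim : Tendsto G (𝓝[>] 0) (𝓝 (G 0)) := hGc.continuousWithinAt
  have hfin : ε * (P - Q) ≤ G 0 :=
    ge_of_tendsto hlim (eventually_mem_nhdsWithin.mono fun δ hδ => hstar δ hδ)
  have hG0 : G 0 = ε * (C * V * Real.sqrt D) := by
    rw [hG]
    simp
    ring
  rw [hG0] at hfin
  exact le_of_mul_le_mul_left hfin hε

end Star

end Crest.Agent.R082.Sh
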