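import Crest.Agent.R082.Defs

/-!
Row 82: exact statements of the parts (to be proved in their own files).
-/

set_option autoImplicit false

open MeasureTheory
open scoped ENNReal NNReal
open Crest.AnalysisR.OT

namespace Crest.Agent.R082.Skeleton

variable {d : ℕ}

/-- Part B (consequence of the key lemma) : first moments of Laguerre cells are controlled by
their masses. File `Key.lean`. -/
theorem moment_bound (K : Set (E d)) (hKc : IsCompact K) (hKv : Convex ℝ K)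
    (hKi : (interior K).Nonempty) :
    ∃ C : ℝ, 0 ≤ C ∧ ∀ (ι : Type) [Fintype ι] [Nonempty ι] (y : ι → E d) (_ : Function.Injective y)
      (ψ ψ' : ι → ℝ),
      ∑ i, ‖(∫ x in cell K y ψ i, x ∂(uniformProbOn K)) - ∫ x in cell K y ψ' i, x ∂(uniformProbOn K)‖ ^ 2 /
          max ((uniformProbOn K).real (cell K y ψ i)) ((uniformProbOn K).real (cell K y ψ' i)) ≤
        C * ∑ i, ((uniformProbOn K).real (cell K y ψ i) - (uniformProbOn K).real (cell K y ψ' i)) ^ 2 /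
          max ((uniformProbOn K).real (cell K y ψ i)) ((uniformProbOn K).real (cell K y ψ' i)) := by
  sorry

/-- Part X. File `Path.lean`. -/
theorem TT_cross_diff_le (K : Set (E d)) (hKc : IsCompact K) (hKv : Convex ℝ K)
    (hKi : (interior K).Nonempty) :
    ∃ C : ℝ, 0 ≤ C ∧ ∀ (ι : Type) [Fintype ι] [Nonempty ι] (m : ι → ℝ) (_ : ∀ i, 0 < m i)
      (_ : ∑ i, m i = 1) (y z : ι → E d) (_ : ∀ i j, i ≠ j → (y i, z i) ≠ (y j, z j))
      (h : E d → ℝ) (_ : Measurable h) (_ : ∀ x, |h x - 1| ≤ 1 / 2)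
      (_ : ∫ x, h x ∂(uniformProbOn K) = 1),
      TT (rhoh K h) m z - TT (rhoh K h) m y - (TT (uniformProbOn K) m z - TT (uniformProbOn K) m y) ≤
        C * Real.sqrt (∫ x, (h x - 1) ^ 2 ∂(uniformProbOn K)) *
          Real.sqrt (∑ i, m i * ‖y i - z i‖ ^ 2) := by
  sorry

/-- Part E1. Measurable maps with prescribed cell by cell images. File `ExactMap.lean`. -/
theorem exists_exact_map (hd : 0 < d) {ι : Type} [Fintype ι] (ρ μ : Measure (E d))
    [IsFiniteMeasure ρ] [IsFiniteMeasure μ] (hρ : ρ ≪ volume)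
    (A : ι → Set (E d)) (hA : ∀ i, MeasurableSet (A i))
    (hAd : ∀ i j, i ≠ j → ρ (A i ∩ A j) = 0) (hAu : ρ (⋃ i, A i)ᶜ = 0)
    (B : ι → Set (E d)) (hB : ∀ i, MeasurableSet (B i))
    (hBd : ∀ i j, i ≠ j → μ (B i ∩ B j) = 0) (hBu : μ (⋃ i, B i)ᶜ = 0)
    (hAB : ∀ i, ρ (A i) = μ (B i)) :
    ∃ S : E d → E d, Measurable S ∧ ρ.map S = μ ∧ ∀ i, ∀ᵐ x ∂ρ, x ∈ A i → S x ∈ B i := by
  sorry

/-- Part E2. Optimal maps are almost optimal for discretised targets. File `Gap.lean`. -/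
theorem gap_of_isOptimalMap (hd : 0 < d) (K : Set (E d)) (hKc : IsCompact K) (hKv : Convex ℝ K)
    (hKi : (interior K).Nonempty) (Y : Set (E d)) (R : ℝ) (hKR : ∀ x ∈ K, ‖x‖ ≤ R)
    (hYR : ∀ x ∈ Y, ‖x‖ ≤ R) (μ : Measure (E d)) (hμ : IsProbabilityOn Y μ) (T : E d → E d)
    (hT : IsOptimalMap (uniformProbOn K) μ T) {ι : Type} [Fintype ι] [Nonempty ι]
    (B : ι → Set (E d)) (hB : ∀ i, MeasurableSet (B i))
    (hBd : ∀ i j, i ≠ j → Disjoint (B i) (B j)) (hBu : μ (⋃ i, B i)ᶜ = 0)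
    (hBpos : ∀ i, 0 < μ.real (B i)) (y : ι → E d) (hy : Function.Injective y) (δ : ℝ) (hδ : 0 ≤ δ)
    (hyB : ∀ i, ∀ w ∈ B i, ‖w - y i‖ ≤ δ) :
    ∃ ψ : ι → ℝ, (∀ ψ' : ι → ℝ, Kfun (uniformProbOn K) (fun i => μ.real (B i)) y ψ ≤
        Kfun (uniformProbOn K) (fun i => μ.real (B i)) y ψ') ∧
      Kfun (uniformProbOn K) (fun i => μ.real (B i)) y ψ ≤
        (∑ i, ∫ x in T ⁻¹' (B i), inner ℝ x (y i) ∂(uniformProbOn K)) + 2 * R * δ := by
  sorry

/-- Part F1. Monotonicity of optimal maps under a shift. File `Shift.lean`. -/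
theorem ae_shift_mono (hd : 0 < d) (K : Set (E d)) (hKc : IsCompact K) (hKv : Convex ℝ K)
    (hKi : (interior K).Nonempty) (Y : Set (E d)) (hYc : IsCompact Y) (hYn : Y.Nonempty)
    (μ : Measure (E d)) (hμ : IsProbabilityOn Y μ) (T : E d → E d)
    (hT : IsOptimalMap (uniformProbOn K) μ T) (h : E d) :
    ∀ᵐ x ∂(volume : Measure (E d)), x ∈ K → x + h ∈ K → 0 ≤ inner ℝ h (T (x + h) - T x) := by
  sorry

/-- Part F2. The shift inequality. File `Shift.lean`. -/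
theorem shift_ineq (hd : 0 < d) (K : Set (E d)) (hKc : IsCompact K) (hKv : Convex ℝ K)
    (hKi : (interior K).Nonempty) :
    ∃ C : ℝ, 0 ≤ C ∧ ∀ (Y : Set (E d)) (_ : IsCompact Y) (_ : Y.Nonempty)
      (μ ν : Measure (E d)) (_ : IsProbabilityOn Y μ) (_ : IsProbabilityOn Y ν)
      (Tμ Tν : E d → E d) (_ : IsOptimalMap (uniformProbOn K) μ Tμ)
      (_ : IsOptimalMap (uniformProbOn K) ν Tν)
      (π : Measure (E d × E d)) (_ : IsPairCoupling μ ν π) (h : E d) (p : E d → ℝ)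
      (_ : Measurable p) (_ : ∀ x, 0 ≤ p x) (_ : ∃ M, ∀ x, p x ≤ M)
      (_ : ∀ x, p x ≠ 0 → x ∈ K ∧ x + h ∈ K),
      ∫ x, p x * inner ℝ h (Tμ x - Tν (x + h)) ∂(uniformProbOn K) ≤
        C * Real.sqrt (∫ x, (p (x - h) - p x) ^ 2 ∂(uniformProbOn K)) *
          Real.sqrt (quadCost π).toReal := by
  sorry

/-- Part G. The final estimate from F1, F2. File `Final.lean`. -/
theorem final_estimate (hd : 0 < d) (K : Set (E d)) (hKc : IsCompact K) (hKv : Convex ℝ K)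
    (hKi : (interior K).Nonempty) (Y : Set (E d)) (hYc : IsCompact Y) (hYn : Y.Nonempty) :
    ∃ C : ℝ≥0, ∀ μ ν : Measure (E d), IsProbabilityOn Y μ → IsProbabilityOn Y ν →
      ∀ Tμ Tν : E d → E d,
        IsOptimalMap (uniformProbOn K) μ Tμ → IsOptimalMap (uniformProbOn K) ν Tν →
        ∀ π : Measure (E d × E d), IsPairCoupling μ ν π →
          ∫⁻ x, ‖Tμ x - Tν x‖ₑ ^ 2 ∂(uniformProbOn K) ≤ C * quadCost π ^ (1 / 3 : ℝ) := by
  sorry

end Crest.Agent.R082.Skeleton
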